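import Vale.Agent.P205.Klein.Pins
import Vale.Agent.P205.Torus.Assembly

/-!
The assembly for Klein bottles: a conformal pair over a flat Klein bottle of almost constant
radius, and isothermal coordinates, give the immersion.
-/

noncomputable section

open ComplexConjugate
open scoped ContDiff RealInnerProductSpace
open Vale.Agent.P205.Torus

namespace Vale.Agent.P205.Klein.Asm

variable {T : ℝ} {c : Cf}

theorem om_reflect (k : Idx) :
    om (T * Complex.I) (k.1, -k.2) = conj (om (T * Complex.I) k) := by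
  apply Complex.ext
  · rw [Complex.conj_re, om_re, om_re]
  · rw [Complex.conj_im, om_im, om_im]
    simp
    ring

theorem flip_involutive (c : Cf) : flip (flip c) = c := by
  funext k
  simp only [flip, neg_neg, ← mul_assoc]
  rw [← mul_zpow, neg_one_mul, neg_neg, one_zpow, one_mul]

theorem flip_add (c d : Cf) : flip (c + d) = flip c + flip d := by
  funext k; simp [flip, mul_add]

theorem flip_smul (a : ℂ) (c : Cf) : flip (a • c) = a • flip c := by
  funext k; simp [flip]; ring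

theorem cj_flip (c : Cf) : cj (flip c) = flip (cj c) := by
  funext k
  simp [cj, flip, Prod.fst_neg, Prod.snd_neg]
  left
  rw [← inv_zpow, inv_neg, inv_one]

theorem rapid_flip (h : Rapid (T * Complex.I) c) : Rapid (T * Complex.I) (flip c) := fun m => by
  refine ne_top_of_le_ne_top (h m) (le_of_eq ?_)
  rw [nw, nw, ← ((Equiv.refl ℤ).prodCongr (Equiv.neg ℤ)).tsum_eq
    fun k => (wp (T * Complex.I) m k : ENNReal) * ‖c k‖ₑ]
  refine tsum_congr fun k => ?_
  have e : ((Equiv.refl ℤ).prodCongr (Equiv.neg ℤ)) k = (k.1, -k.2) := rfl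
  rw [e, flip, enorm_mul, wp, wp, om_reflect, RCLike.nnnorm_conj]
  simp [enorm_eq_nnnorm, nnnorm_zpow]

theorem ev_flip (c : Cf) (z : ℂ) :
    ev (T * Complex.I) (flip c) z = ev (T * Complex.I) c (conj z + 1 / 2) := by
  rw [ev, ev, ← ((Equiv.refl ℤ).prodCongr (Equiv.neg ℤ)).tsum_eq
    fun k => flip c k * ch (T * Complex.I) k z]
  refine tsum_congr fun k => ?_
  have e : ((Equiv.refl ℤ).prodCongr (Equiv.neg ℤ)) k = (k.1, -k.2) := rfl
  rw [e, flip, neg_neg, mul_comm ((-1 : ℂ) ^ k.1), mul_assoc]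
  refine congrArg (c k * ·) ?_
  have e1 : (-1 : ℂ) ^ k.1 = Complex.exp ((Real.pi * k.1 : ℝ) * Complex.I) := by
    rw [show (((Real.pi * k.1 : ℝ)) : ℂ) * Complex.I = (k.1 : ℤ) * (Real.pi * Complex.I) by
      push_cast; ring, Complex.exp_int_mul, Complex.exp_pi_mul_I]
  rw [e1, ch, ch, ← Complex.exp_add, ← add_mul, ← Complex.ofReal_add]
  congr 3
  simp only [ph, om_reflect, Complex.conj_conj, Complex.mul_re, Complex.conj_re, Complex.conj_im,
    Complex.add_re, Complex.add_im, om_re, one_div, Complex.inv_re,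
    Complex.inv_im, Complex.normSq_ofNat, Complex.re_ofNat, Complex.im_ofNat]
  ring

/-- The symmetrisation of a family whose function is glide invariant. -/
theorem exists_symmetric {u : ℂ → ℝ} (hc : Rapid (T * Complex.I) c) (hs : cj c = c)
    (he : ∀ z, ev (T * Complex.I) c z = u z) (hu : ∀ z, u (conj z + 1 / 2) = u z) :
    ∃ d : Cf, Rapid (T * Complex.I) d ∧ cj d = d ∧ flip d = d ∧
      ∀ z, ev (T * Complex.I) d z = u z := by
  refine ⟨(2 : ℂ)⁻¹ • (c + flip c), (hc.add (rapid_flip hc)).smul _, ?_, ?_, fun z => ?_⟩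
  · have e := cj_flip c
    rw [hs] at e
    funext k
    have h1 := congrFun hs k
    have h2 := congrFun e k
    simp only [cj] at h1 h2
    simp [cj, h1, h2, map_ofNat]
  · rw [flip_smul, flip_add, flip_involutive, add_comm]
  · rw [ev_smul, ev_add hc.summable (rapid_flip hc).summable, ev_flip, he, he, hu]
    ring

/-- A radial rescaling of a curved base with flat metric. -/
theorem norm_sq_fderiv_graph {R : ℂ → EuclideanSpace ℝ (Fin 4)} {Θ : ℂ → ℂ} {U : ℂ → ℝ}
    {a : ℝ → ℝ} (ha : Differentiable ℝ a) (hR : ContDiff ℝ ∞ R)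
    (hiso : ∀ z w, ‖fderiv ℝ R z w‖ = ‖w‖) (hn : ∀ z, ‖R z‖ ^ 2 = a z.im)
    (hΘ : ContDiff ℝ ∞ Θ) (hU : ContDiff ℝ ∞ U) {C : ℝ} (hC : 0 < C) (z w : ℂ) :
    ‖fderiv ℝ (fun x => (Real.exp (U x) / Real.sqrt C) • R (Θ x)) z w‖ ^ 2 =
      Real.exp (2 * U z) / C * (a (Θ z).im * fderiv ℝ U z w ^ 2 +
        fderiv ℝ U z w * (deriv a (Θ z).im * (fderiv ℝ Θ z w).im) + ‖fderiv ℝ Θ z w‖ ^ 2) := by
  have ht : (∞ : WithTop ℕ∞) ≠ 0 := by simp
  set v := fderiv ℝ Θ z w with hv
  have hinner : 2 * ⟪R (Θ z), fderiv ℝ R (Θ z) v⟫ = deriv a (Θ z).im * v.im := by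
    have h := ((hR.differentiable ht) (Θ z)).hasFDerivAt.norm_sq
    have e : (fun x => ‖R x‖ ^ 2) = a ∘ fun x : ℂ => Complex.imCLM x := funext fun x => hn x
    rw [e] at h
    have h2 := (ha (Θ z).im).hasDerivAt.comp_hasFDerivAt (Θ z) (Complex.imCLM.hasFDerivAt)
    have h0 := congrArg (fun L : ℂ →L[ℝ] ℝ => L v) (h.unique h2)
    simpa [two_smul, two_mul] using h0
  have hU' := ((hU.differentiable ht) z).hasFDerivAt.exp.mul_const (Real.sqrt C)⁻¹
  have hG := ((hR.differentiable ht) (Θ z)).hasFDerivAt.comp z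
    ((hΘ.differentiable ht) z).hasFDerivAt
  have hY := (hU'.smul hG).fderiv
  rw [show (fun x => (Real.exp (U x) / Real.sqrt C) • R (Θ x)) =
    fun x => (Real.exp (U x) * (Real.sqrt C)⁻¹) • (R ∘ Θ) x from
      funext fun x => by rw [div_eq_mul_inv]; rfl]
  erw [hY]
  simp only [add_apply, smul_apply, ContinuousLinearMap.smulRight_apply,
    ContinuousLinearMap.comp_apply, Function.comp_apply, smul_eq_mul]
  rw [norm_add_sq_real]
  simp only [real_inner_smul_left, real_inner_smul_right, norm_smul, hiso, ← hv,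
    Real.norm_eq_abs, mul_pow, sq_abs, hn]
  rw [real_inner_comm (R (Θ z)) (fderiv ℝ R (Θ z) v)]
  have he : Real.exp (2 * U z) = Real.exp (U z) ^ 2 := by
    rw [← Real.exp_nat_mul]; norm_num
  rw [he, inv_pow, Real.sq_sqrt hC.le, ← hinner]
  have hs : (Real.sqrt C)⁻¹ * (Real.sqrt C)⁻¹ = C⁻¹ := by
    rw [← mul_inv, Real.mul_self_sqrt hC.le]
  linear_combination (2 * Real.exp (U z) ^ 2 * fderiv ℝ U z w *
    ⟪R (Θ z), fderiv ℝ R (Θ z) v⟫) * hs

end Asm

open Asm

/-- Conformal metrics of Klein bottles are realised in four-space. -/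
theorem conformal_immerses (hF : Torus.FourierThm) (hX : FixThm) (hC : ConformalThm)
    (hL : LinkThm) {T : ℝ} (hT : 0 < T) {lam : ℂ → ℝ} (hl : ContDiff ℝ ∞ lam)
    (hpos : ∀ z, 0 < lam z) (hl1 : ∀ z, lam (z + 1) = lam z)
    (hlT : ∀ z, lam (z + T * Complex.I) = lam z) (hls : ∀ z, lam (conj z + 1 / 2) = lam z) :
    ∃ Y : ℂ → EuclideanSpace ℝ (Fin 4), ContDiff ℝ ∞ Y ∧ (∀ z, Y (z + T * Complex.I) = Y z) ∧
      (∀ z, Y (conj z + 1 / 2) = Y z) ∧ ∀ z w, ‖fderiv ℝ Y z w‖ ^ 2 = lam z * ‖w‖ ^ 2 := by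
  have hτ : (T * Complex.I : ℂ).im ≠ 0 := by simp [hT.ne']
  obtain ⟨c1, hc1, hs1, hev1⟩ := hF _ hτ (fun z => Real.log (lam z) / 2)
    ((hl.log fun z => (hpos z).ne').div_const 2) (fun z => by simp [hl1]) (fun z => by simp [hlT])
  obtain ⟨c0, hc0, hs0, hf0, hev⟩ := exists_symmetric hc1 hs1 hev1
    (fun z => by simp only [hls])
  obtain ⟨m0, hm0⟩ := hX T hT c0 hc0 hs0 hf0
  obtain ⟨m1, hm1⟩ := exists_nat_ge (2 / T)
  set m := max m0 m1 with hm
  set n := 2 * Real.pi * (2 * (m : ℝ) + 1) with hn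
  have hnT : 2 * Real.pi ≤ 6 / 10 * n * T := by
    have h1 : 2 / T ≤ (m : ℝ) := hm1.trans (by exact_mod_cast le_max_right m0 m1)
    rw [div_le_iff₀ hT] at h1
    rw [hn]
    nlinarith [Real.two_pi_pos, mul_nonneg Real.two_pi_pos.le (sub_nonneg.2 h1),
      mul_pos Real.two_pi_pos hT]
  have hn0 : 0 < n := mul_pos Real.two_pi_pos (by positivity)
  set j := ⌈22 / 10 * n * T / (2 * Real.pi)⌉₊ with hjdef
  have hj1 : 22 / 10 * n * T ≤ 2 * Real.pi * j := by
    have := Nat.le_ceil (22 / 10 * n * T / (2 * Real.pi))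
    rw [div_le_iff₀ Real.two_pi_pos, ← hjdef] at this
    linarith
  have hj2 : 2 * Real.pi * j ≤ 28 / 10 * n * T := by
    have h := (Nat.ceil_lt_add_one (show 0 ≤ 22 / 10 * n * T / (2 * Real.pi) by positivity)).le
    rw [div_add_one Real.two_pi_pos.ne', le_div_iff₀ Real.two_pi_pos] at h
    rw [← hjdef] at h
    linarith
  have hnT0 := mul_pos hn0 hT
  obtain ⟨X, hsol, hcont⟩ := hm0 m (le_max_left m0 m1) n (n + 2 * Real.pi) j hn rfl
    ⟨by linarith, by linarith⟩
  have h23 : 2 * n ≤ 3 * n := by linarith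
  set g : ℝ → ℝ := fun K => K * (T * (1 - 2 * ((X K).q 0).re)) - 2 * Real.pi * j with hg
  have hgc : ContinuousOn g (Set.Icc (2 * n) (3 * n)) :=
    (continuousOn_id.mul (continuousOn_const.mul (continuousOn_const.sub
      (continuousOn_const.mul (Complex.continuous_re.comp_continuousOn hcont))))).sub
      continuousOn_const
  have hre : ∀ K ∈ Set.Icc (2 * n) (3 * n), |((X K).q 0).re| ≤ 1 / 100 := fun K hK =>
    (Complex.abs_re_le_norm _).trans (hsol K hK).2
  have hga : g (2 * n) ≤ 0 := by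
    have := (abs_le.1 (hre (2 * n) ⟨le_rfl, h23⟩)).1
    simp only [hg]
    nlinarith
  have hgb : 0 ≤ g (3 * n) := by
    have := (abs_le.1 (hre (3 * n) ⟨h23, le_rfl⟩)).2
    simp only [hg]
    nlinarith
  obtain ⟨K, hK, hgK⟩ : (0 : ℝ) ∈ g '' Set.Icc (2 * n) (3 * n) :=
    intermediate_value_Icc h23 hgc ⟨hga, hgb⟩
  have hK0 : 0 < K := by linarith [hK.1]
  have hlat : K * (T * (1 - 2 * ((X K).q 0).re)) = 2 * Real.pi * j := by
    simp only [hg] at hgK; linarith
  obtain ⟨Θ, U, C, hC0, hΘ, hU, -, hUT, hUs, -, hΘT, hΘs, hen⟩ :=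
    hC T hT c0 hc0 hs0 hf0 ⟨n, n + 2 * Real.pi, K, j⟩ (X K) (hsol K hK).1 hlat
  obtain ⟨R, hR, -, hRK, hRs, hRiso, hRn⟩ := hL m n (n + 2 * Real.pi) K hn rfl hK.1 hK.2
  refine ⟨fun x => (Real.exp (U x) / Real.sqrt C) • R (Θ x), ?_, fun z => ?_, fun z => ?_,
    fun z w => ?_⟩
  · exact (hU.exp.div_const _).smul (hR.comp hΘ)
  · have hper : Function.Periodic R ((2 * Real.pi / K : ℝ) * Complex.I) := hRK
    have e : ((T * (1 - 2 * ((X K).q 0).re) : ℝ) : ℂ) * Complex.I =
        (j : ℂ) * ((2 * Real.pi / K : ℝ) * Complex.I) := by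
      rw [← mul_assoc, ← Complex.ofReal_natCast, ← Complex.ofReal_mul]
      congr 2
      field_simp
      linarith
    simp only [hUT, hΘT]
    rw [e, hper.nat_mul j]
  · simp only [hUs, hΘs, hRs]
  · have ha : Differentiable ℝ (aLink n (n + 2 * Real.pi) K) := by
      unfold aLink; fun_prop
    rw [Asm.norm_sq_fderiv_graph ha hR hRiso hRn hΘ hU hC0, hen, hev, Complex.ofReal_re]
    have e : Real.exp (2 * U z) * Real.exp (2 * (Real.log (lam z) / 2 - U z)) = lam z := by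
      rw [← Real.exp_add, show 2 * U z + 2 * (Real.log (lam z) / 2 - U z) = Real.log (lam z) by ring,
        Real.exp_log (hpos z)]
    rw [← mul_assoc, ← mul_assoc, div_mul_cancel₀ _ hC0.ne', e]

/-- Isothermal coordinates and the conformal case give every metric. -/
theorem everyKlein_of : Torus.FourierThm → FixThm → ConformalThm → LinkThm → IsothermalThm →
    EveryKleinBottleImmerses := by
  intro hF hX hC hL hI E F G hE hFs hG hper hgl qE qD
  obtain ⟨T, hT, Φ, lam, hΦ, hl, hΦT, hΦs, hpos, hl1, hlT, hls, hmet⟩ :=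
    hI E F G hE hFs hG hper hgl qE qD
  obtain ⟨Y, hY, hYT, hYs, hYm⟩ := conformal_immerses hF hX hC hL hT hl hpos hl1 hlT hls
  refine ⟨Y ∘ Φ, hY.comp hΦ, fun p => ?_, fun x y => ?_, fun p v w => ?_⟩
  · simp [hΦT, hYT]
  · simp only [Function.comp_apply, hΦs, hYs]
  · have hn : (∞ : WithTop ℕ∞) ≠ 0 := by simp
    rw [fderiv_comp p ((hY.differentiable hn) (Φ p)) ((hΦ.differentiable hn) p),
      ContinuousLinearMap.comp_apply, ContinuousLinearMap.comp_apply,
      inner_of_norm_sq (hYm (Φ p))]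
    exact hmet p v w

end Vale.Agent.P205.Klein
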