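import Vale.Agent.P205.Klein.Defs
import Vale.Agent.P205.Torus.Fix

/-!
The exponential series in the weighted algebras of coefficient families.
-/

noncomputable section

open ComplexConjugate
open scoped ENNReal NNReal

namespace Vale.Agent.P205.Klein

open Vale.Agent.P205.Torus

variable {τ : ℂ} {w : Idx → ℝ≥0} {P Q : Cf} {r D : ℝ≥0}

theorem nw_cpow_le (hw : IsW w) (hP : nw w P ≤ r) : ∀ n, nw w (cpow P n) ≤ (r ^ n : ℝ≥0)
  | 0 => by simp [cpow, nw_one hw]
  | n + 1 => by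
    rw [cpow, pow_succ', ENNReal.coe_mul]
    exact (nw_conv_le hw).trans (mul_le_mul' hP (nw_cpow_le hw hP n))

theorem nw_cpow_sub_le (hw : IsW w) (hP : nw w P ≤ r) (hQ : nw w Q ≤ r)
    (h : nw w (P - Q) ≤ D) : ∀ n, nw w (cpow P n - cpow Q n) ≤ (n * r ^ (n - 1) * D : ℝ≥0)
  | 0 => by simp [cpow, nw_zero]
  | n + 1 => by
    have hPn := nw_cpow_le hw hP n
    have hQn := nw_cpow_le hw hQ n
    rw [cpow, cpow, conv_sub_conv hw (ne_top_of_le_ne_top ENNReal.coe_ne_top hP)
      (ne_top_of_le_ne_top ENNReal.coe_ne_top hQ) (ne_top_of_le_ne_top ENNReal.coe_ne_top hPn)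
      (ne_top_of_le_ne_top ENNReal.coe_ne_top hQn)]
    refine nw_add_le.trans ((add_le_add ((nw_conv_le hw).trans (mul_le_mul' h hPn))
      ((nw_conv_le hw).trans (mul_le_mul' hQ (nw_cpow_sub_le hw hP hQ h n)))).trans (le_of_eq ?_))
    rw [← ENNReal.coe_mul, ← ENNReal.coe_mul, ← ENNReal.coe_add, ENNReal.coe_inj]
    cases n with
    | zero => simp
    | succ n =>
      rw [Nat.add_sub_cancel, Nat.add_sub_cancel]
      push_cast
      ring

theorem tsum_pow_div (r : ℝ≥0) :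
    ∑' n : ℕ, ((r ^ n / n.factorial : ℝ≥0) : ℝ≥0∞) = ENNReal.ofReal (Real.exp r) := by
  have h : Real.exp r = ∑' n : ℕ, (r : ℝ) ^ n / n.factorial := by
    rw [Real.exp_eq_exp_ℝ, NormedSpace.exp_eq_tsum_div]
  rw [h, ENNReal.ofReal_tsum_of_nonneg
    (fun n => div_nonneg (pow_nonneg r.coe_nonneg _) (Nat.cast_nonneg _))
    (Real.summable_pow_div_factorial _)]
  refine tsum_congr fun n => ?_
  rw [← ENNReal.ofReal_coe_nnreal]
  push_cast
  rfl

theorem enorm_inv_factorial (n : ℕ) :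
    ‖(n.factorial : ℂ)⁻¹‖ₑ = (((n.factorial : ℝ≥0)⁻¹ : ℝ≥0) : ℝ≥0∞) := by
  rw [enorm_eq_nnnorm, nnnorm_inv]
  simp

theorem nw_term_le (hw : IsW w) (hP : nw w P ≤ r) (n : ℕ) :
    nw w ((n.factorial : ℂ)⁻¹ • cpow P n) ≤ ((r ^ n / n.factorial : ℝ≥0) : ℝ≥0∞) := by
  rw [nw_smul, enorm_inv_factorial, div_eq_inv_mul, ENNReal.coe_mul]
  exact mul_le_mul_right (nw_cpow_le hw hP n) _

theorem summable_term (hw : IsW w) (hP : nw w P ≤ r) (k : Idx) :
    Summable fun n : ℕ => (n.factorial : ℂ)⁻¹ * cpow P n k := by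
  refine Summable.of_norm_bounded (g := fun n : ℕ => (r : ℝ) ^ n / n.factorial)
    (Real.summable_pow_div_factorial _) fun n => ?_
  exact (norm_le_of_nw hw (c := (n.factorial : ℂ)⁻¹ • cpow P n) (nw_term_le hw hP n) k).trans_eq
    (by push_cast; rfl)

/-- A weighted norm of a series of families is at most the sum of the norms. -/
theorem nw_tsum_le {ι : Type*} (f : ι → Cf) :
    nw w (fun k => ∑' i, f i k) ≤ ∑' i, nw w (f i) := by
  refine (ENNReal.tsum_le_tsum fun k => ?_).trans_eq ENNReal.tsum_comm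
  rw [ENNReal.tsum_mul_left]
  exact mul_le_mul_right enorm_tsum_le_tsum_enorm _

theorem nw_expc_le (hw : IsW w) (hP : nw w P ≤ r) :
    nw w (expc P) ≤ ENNReal.ofReal (Real.exp r) := by
  rw [← tsum_pow_div]
  exact (nw_tsum_le (fun n : ℕ => (n.factorial : ℂ)⁻¹ • cpow P n)).trans
    (ENNReal.tsum_le_tsum (nw_term_le hw hP))

theorem nw_expc_sub_le (hw : IsW w) (hP : nw w P ≤ r) (hQ : nw w Q ≤ r)
    (h : nw w (P - Q) ≤ D) :
    nw w (expc P - expc Q) ≤ ENNReal.ofReal (Real.exp r) * D := by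
  have e : expc P - expc Q =
      fun k => ∑' n : ℕ, ((n.factorial : ℂ)⁻¹ • (cpow P n - cpow Q n)) k := by
    funext k
    simp only [Pi.sub_apply, expc, Pi.smul_apply, smul_eq_mul, mul_sub]
    exact ((summable_term hw hP k).tsum_sub (summable_term hw hQ k)).symm
  rw [e]
  refine (nw_tsum_le (fun (n : ℕ) => (n.factorial : ℂ)⁻¹ • (cpow P n - cpow Q n))).trans ?_
  rw [← tsum_pow_div, ← ENNReal.tsum_mul_right, tsum_eq_zero_add' ENNReal.summable]
  have h0 : nw w ((Nat.factorial 0 : ℂ)⁻¹ • (cpow P 0 - cpow Q 0)) = 0 := by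
    simp [cpow, nw_zero]
  rw [h0, zero_add]
  refine ENNReal.tsum_le_tsum fun n => ?_
  rw [nw_smul, enorm_inv_factorial]
  refine (mul_le_mul_right (nw_cpow_sub_le hw hP hQ h (n + 1)) _).trans_eq ?_
  rw [← ENNReal.coe_mul, ← ENNReal.coe_mul, ENNReal.coe_inj, Nat.factorial_succ, Nat.cast_mul,
    Nat.add_sub_cancel]
  have hn : (n.factorial : ℝ≥0) ≠ 0 := Nat.cast_ne_zero.2 n.factorial_ne_zero
  field_simp

theorem Rapid.expc (h : Rapid τ P) : Rapid τ (Klein.expc P) := fun m =>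
  ne_top_of_le_ne_top ENNReal.ofReal_ne_top
    (nw_expc_le (isW_wp m) (ENNReal.coe_toNNReal (h m)).ge)

theorem nw_unit_weight (hc : Summable fun k => ‖P k‖) :
    nw (fun _ => 1) P = ENNReal.ofReal (∑' k, ‖P k‖) := by
  rw [nw, ENNReal.ofReal_tsum_of_nonneg (fun k => norm_nonneg _) hc]
  exact tsum_congr fun k => by rw [ENNReal.coe_one, one_mul, ofReal_norm]

theorem summable_cpow (hc : Summable fun k => ‖P k‖) (n : ℕ) :
    Summable fun k => ‖cpow P n k‖ :=
  summable_norm_of_nw (w := fun _ => 1) (fun _ => le_rfl)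
    (ne_top_of_le_ne_top ENNReal.coe_ne_top
      (nw_cpow_le isW_one (r := (∑' k, ‖P k‖).toNNReal) (nw_unit_weight hc).le n))

theorem tsum_norm_cpow_le (hc : Summable fun k => ‖P k‖) (n : ℕ) :
    ∑' k, ‖cpow P n k‖ ≤ ((∑' k, ‖P k‖).toNNReal : ℝ) ^ n := by
  have h := nw_cpow_le isW_one (r := (∑' k, ‖P k‖).toNNReal) (nw_unit_weight hc).le n
  rw [nw_unit_weight (summable_cpow hc n), ENNReal.ofReal_le_coe] at h
  exact_mod_cast h

theorem ev_cpow (hc : Summable fun k => ‖P k‖) (z : ℂ) :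
    ∀ n, ev τ (cpow P n) z = ev τ P z ^ n
  | 0 => by simp [cpow, ev_one]
  | n + 1 => by rw [cpow, ev_conv hc (summable_cpow hc n), ev_cpow hc z n, pow_succ']

theorem summable_double (hc : Summable fun k => ‖P k‖) (z : ℂ) :
    Summable fun p : ℕ × Idx => (p.1.factorial : ℂ)⁻¹ * cpow P p.1 p.2 * ch τ p.2 z := by
  refine Summable.of_norm_bounded
    (g := fun p : ℕ × Idx => (p.1.factorial : ℝ)⁻¹ * ‖cpow P p.1 p.2‖) ?_ fun p => ?_
  · have h0 : (0 : ℕ × Idx → ℝ) ≤ fun p => (p.1.factorial : ℝ)⁻¹ * ‖cpow P p.1 p.2‖ :=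
      fun p => mul_nonneg (inv_nonneg.2 (Nat.cast_nonneg _)) (norm_nonneg _)
    rw [summable_prod_of_nonneg h0]
    refine ⟨fun n => (summable_cpow hc n).mul_left (n.factorial : ℝ)⁻¹, ?_⟩
    refine Summable.of_nonneg_of_le (fun n => tsum_nonneg fun k => h0 (n, k)) (fun n => ?_)
      (Real.summable_pow_div_factorial ((∑' k, ‖P k‖).toNNReal : ℝ))
    dsimp only
    rw [tsum_mul_left, div_eq_inv_mul]
    exact mul_le_mul_of_nonneg_left (tsum_norm_cpow_le hc n) (inv_nonneg.2 (Nat.cast_nonneg _))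
  · rw [norm_mul, norm_mul, norm_ch, mul_one, norm_inv, Complex.norm_natCast]

theorem ev_expc (hc : Summable fun k => ‖P k‖) (z : ℂ) :
    ev τ (expc P) z = Complex.exp (ev τ P z) := by
  calc ev τ (expc P) z = ∑' k, ∑' n : ℕ, (n.factorial : ℂ)⁻¹ * cpow P n k * ch τ k z := by
        refine tsum_congr fun k => ?_
        rw [expc, ← tsum_mul_right]
    _ = ∑' n : ℕ, ∑' k, (n.factorial : ℂ)⁻¹ * cpow P n k * ch τ k z :=
        (summable_double hc z).tsum_comm
    _ = ∑' n : ℕ, (n.factorial : ℂ)⁻¹ * ev τ P z ^ n := by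
        refine tsum_congr fun n => ?_
        rw [← ev_cpow hc z n, ev, ← tsum_mul_left]
        exact tsum_congr fun k => mul_assoc _ _ _
    _ = Complex.exp (ev τ P z) := by
        rw [Complex.exp_eq_exp_ℂ, NormedSpace.exp_eq_tsum_div]
        exact tsum_congr fun n => by rw [div_eq_inv_mul]

theorem cj_one : cj one = one := by
  funext k
  by_cases h : k = 0 <;> simp [cj, one, h]

theorem cj_conv (c d : Cf) : cj (conv c d) = conv (cj c) (cj d) := by
  funext k
  simp only [cj, conv, Complex.conj_tsum, map_mul]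
  rw [← (Equiv.neg Idx).tsum_eq]
  refine tsum_congr fun j => ?_
  simp only [Equiv.neg_apply]
  rw [show -k - -j = -(k - j) by abel]

theorem cj_cpow (c : Cf) : ∀ n, cj (cpow c n) = cpow (cj c) n
  | 0 => cj_one
  | n + 1 => by rw [cpow, cpow, cj_conv, cj_cpow c n]

theorem cj_expc (c : Cf) : cj (expc c) = expc (cj c) := by
  funext k
  simp only [cj, expc, Complex.conj_tsum]
  refine tsum_congr fun n => ?_
  rw [map_mul, map_inv₀, map_natCast]
  exact congrArg _ (congrFun (cj_cpow c n) k)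

theorem flip_one : flip one = one := by
  funext k
  by_cases h : k = 0
  · simp [flip, one, h]
  · have h' : (k.1, -k.2) ≠ 0 := fun e =>
      h (Prod.ext (congrArg Prod.fst e :) (neg_eq_zero.1 (congrArg Prod.snd e :)))
    simp [flip, one, h, h']

theorem flip_conv (c d : Cf) : flip (conv c d) = conv (flip c) (flip d) := by
  funext k
  simp only [flip, conv]
  rw [← tsum_mul_left, ← ((Equiv.refl ℤ).prodCongr (Equiv.neg ℤ)).tsum_eq]
  refine tsum_congr fun j => ?_
  simp only [Equiv.prodCongr_apply, Prod.map, Equiv.refl_apply, Equiv.neg_apply]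
  rw [show (k.1, -k.2) - (j.1, -j.2) = ((k - j).1, -(k - j).2) by
    apply Prod.ext <;> simp only [Prod.fst_sub, Prod.snd_sub]; ring]
  rw [show k.1 = j.1 + (k - j).1 by simp, zpow_add₀ (neg_ne_zero.2 one_ne_zero)]
  simp only [Prod.fst_sub]
  ring

theorem flip_cpow (c : Cf) : ∀ n, flip (cpow c n) = cpow (flip c) n
  | 0 => flip_one
  | n + 1 => by rw [cpow, cpow, flip_conv, flip_cpow c n]

theorem flip_expc (c : Cf) : flip (expc c) = expc (flip c) := by
  funext k
  simp only [flip, expc, ← tsum_mul_left]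
  refine tsum_congr fun n => ?_
  have h := congrFun (flip_cpow c n) k
  simp only [flip] at h
  rw [mul_left_comm, h]

/-- The exponential has all the properties that are used. -/
theorem expThm : ExpThm := by
  refine ⟨fun w P r hw hP => nw_expc_le hw hP, fun w P Q r hw hP hQ => ?_,
    fun τ P hP => ⟨Rapid.expc hP, ev_expc hP.summable⟩, cj_expc, flip_expc⟩
  have hD : nw w (P - Q) ≠ ∞ :=
    ne_top_of_le_ne_top (ENNReal.add_ne_top.2 ⟨ENNReal.coe_ne_top, ENNReal.coe_ne_top⟩)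
      (nw_sub_le.trans (add_le_add hP hQ))
  exact (nw_expc_sub_le hw hP hQ (ENNReal.coe_toNNReal hD).ge).trans_eq
    (by rw [ENNReal.coe_toNNReal hD])


end Vale.Agent.P205.Klein
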