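import Vale.Agent.P205.Klein.Pins
import Vale.Agent.P205.Klein.Exp
import Vale.Agent.P205.Torus.Conformal

/-!
A rapidly decreasing solution of the equations of a Klein bottle gives a near-identity map and a
periodic function whose joint energy is a constant times the conformal factor.
-/

noncomputable section

open ComplexConjugate
open scoped ENNReal NNReal ContDiff
open Vale.Agent.P205.Torus
open Vale.Agent.P205.Torus.Conf (ev_sub rapid_sub rapid_vv rapid_bq dz_smul dzb_smul dzb_dz dzb_bq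
  dzb_dz_vv dzb_eq_cj_dz cj_fzb_fam ev_real cj_vv cj_add hasFDerivAt_re re_dlin_apply)

namespace Vale.Agent.P205.Klein.Conf

variable {τ : ℂ} {c0 : Cf} {P : Par} {X : St} {z : ℂ}

/-! ### General facts -/

theorem hw_cexp {f : ℂ → ℂ} {a b : ℂ} (h : HW f a b z) :
    HW (fun w => Complex.exp (f w)) (Complex.exp (f z) * a) (Complex.exp (f z) * b) z :=
  ((Complex.hasDerivAt_exp (f z)).comp_hasFDerivAt z h).congr_fderiv
    (ContinuousLinearMap.ext fun w => by simp; ring)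

theorem ev_periods (hτ : τ.im ≠ 0) (c : Cf) (z : ℂ) :
    ev τ c (z + 1) = ev τ c z ∧ ev τ c (z + τ) = ev τ c z :=
  ⟨by simpa using ev_period hτ c z 1 0, by simpa using ev_period hτ c z 0 1⟩

theorem conj_om (hre : τ.re = 0) (k : Idx) : conj (om τ k) = om τ (k.1, -k.2) := by
  apply Complex.ext
  · simp [om_re]
  · simp [om_im, hre]
    ring

theorem ch_flip (hre : τ.re = 0) (k : Idx) (z : ℂ) :
    ch τ k (conj z + 1 / 2) = (-1 : ℂ) ^ k.1 * ch τ (k.1, -k.2) z := by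
  have e1 : (-1 : ℂ) ^ k.1 = Complex.exp ((k.1 : ℂ) * (Real.pi * Complex.I)) := by
    rw [Complex.exp_int_mul, Complex.exp_pi_mul_I]
  have e2 : ph τ k (conj z + 1 / 2) = k.1 * Real.pi + ph τ (k.1, -k.2) z := by
    rw [ph, ph, ← conj_om hre, Complex.conj_conj, mul_add, Complex.add_re, ← map_mul,
      Complex.conj_re]
    simp [om_re]
    ring
  rw [ch, ch, e1, e2, ← Complex.exp_add]
  congr 1
  push_cast
  ring

theorem ev_flip (hre : τ.re = 0) (c : Cf) (z : ℂ) :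
    ev τ c (conj z + 1 / 2) = ev τ (flip c) z := by
  rw [ev, ev, ← ((Equiv.refl ℤ).prodCongr (Equiv.neg ℤ)).tsum_eq fun k => flip c k * ch τ k z]
  refine tsum_congr fun k => ?_
  rw [ch_flip hre]
  simp [flip, Prod.map]
  ring

theorem rapid_single (k0 : Idx) : Rapid τ (single k0) := fun m => by
  rw [nw, tsum_eq_single k0 fun k hk => by simp [single, hk]]
  simp [single]

theorem ev_single (k0 : Idx) (z : ℂ) : ev τ (single k0) z = ch τ k0 z := by
  rw [ev, tsum_eq_single k0 fun k hk => by simp [single, hk]]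
  simp [single]

theorem deriv_aLink (n M K y : ℝ) :
    deriv (aLink n M K) y = (1 - n ^ 2 / M ^ 2) / K ^ 2 * K *
      ((1 + 4 * bLink n M K * Real.sin (K * y) ^ 2 +
        3 * bLink n M K ^ 2 * Real.sin (K * y) ^ 4) * Real.sin (2 * (K * y))) := by
  have h1 : HasDerivAt (fun y => Real.sin (K * y)) (Real.cos (K * y) * K) y := by
    simpa using ((hasDerivAt_id y).const_mul K).sin
  have h2 := (((h1.fun_add ((h1.fun_pow 3).const_mul (bLink n M K))).fun_pow 2).const_mul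
    ((1 - n ^ 2 / M ^ 2) / K ^ 2)).const_add (1 / M ^ 2)
  refine h2.deriv.trans ?_
  rw [Real.sin_two_mul]
  push_cast
  ring

/-- A periodic function with a zero of its derivative. -/
theorem exists_dz_eq_zero (hre : τ.re = 0) (hτ : τ.im ≠ 0) {c : Cf} (hc : Rapid τ c)
    (hreal : cj c = c) : ∃ z, ev τ (dz τ c) z = 0 := by
  set f : ℂ → ℝ := fun z => (ev τ c z).re with hf
  have hcont : Continuous f :=
    Complex.continuous_re.comp (contDiff_ev hc).continuous
  have hmk : Continuous fun p : ℝ × ℝ => (p.1 : ℂ) + (p.2 : ℂ) * τ := by fun_prop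
  obtain ⟨p, -, hmax⟩ := (isCompact_Icc.prod isCompact_Icc).exists_isMaxOn
    (s := Set.Icc (0 : ℝ) 1 ×ˢ Set.Icc (0 : ℝ) 1)
    ⟨(0, 0), by simp⟩ (hcont.comp hmk).continuousOn
  set z0 : ℂ := (p.1 : ℂ) + (p.2 : ℂ) * τ with hz0
  have key : ∀ q ∈ Set.Icc (0 : ℝ) 1 ×ˢ Set.Icc (0 : ℝ) 1,
      f ((q.1 : ℂ) + (q.2 : ℂ) * τ) ≤ f z0 := fun q hq => hmax hq
  have hper : ∀ (w : ℂ) (a b : ℤ), f (w + a + b * τ) = f w := fun w a b =>
    congrArg Complex.re (ev_period hτ c w a b)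
  have hle : ∀ z, f z ≤ f z0 := fun z => by
    have hz : z = ((Int.fract z.re : ℝ) : ℂ) + ((Int.fract (z.im / τ.im) : ℝ) : ℂ) * τ +
        ((⌊z.re⌋ : ℤ) : ℂ) + ((⌊z.im / τ.im⌋ : ℤ) : ℂ) * τ := by
      apply Complex.ext
      · simp [hre]
      · simp [← add_mul, Int.fract_add_floor]
        field_simp
    refine le_of_eq_of_le ((congrArg f hz).trans (hper _ _ _)) ?_
    exact key (Int.fract z.re, Int.fract (z.im / τ.im))
      ⟨⟨Int.fract_nonneg _, (Int.fract_lt_one _).le⟩,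
        ⟨Int.fract_nonneg _, (Int.fract_lt_one _).le⟩⟩
  refine ⟨z0, ?_⟩
  have hv : HW (ev τ c) (ev τ (dz τ c) z0) (conj (ev τ (dz τ c) z0)) z0 :=
    (hw_ev hc z0).congr rfl (by rw [dzb_eq_cj_dz hreal, ev_cj])
  have e := IsLocalMax.hasFDerivAt_eq_zero (f := f) (Filter.Eventually.of_forall hle)
    (hasFDerivAt_re hv)
  have e1 := DFunLike.congr_fun e 1
  have e2 := DFunLike.congr_fun e Complex.I
  rw [re_dlin_apply, zero_apply] at e1 e2
  simp at e1 e2
  exact Complex.ext e1 e2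

/-- A positive function whose corrected logarithm has constant mixed derivative is a constant
times an exponential. -/
theorem exp_of_mixed (hτ : τ.im ≠ 0) {J Q R V : Cf} {E : ℂ → ℂ} {κ : ℂ} (hJ : Rapid τ J)
    (hQ : Rapid τ Q) (hV : Rapid τ V) (hVr : cj V = V) (hJE : ∀ z, ev τ J z * E z = 1)
    (hEr : ∀ z, conj (E z) = E z) (hpos : ∃ z, 0 < (E z).re)
    (hE : ∀ z, HW E (ev τ Q z) (conj (ev τ Q z)) z)
    (hQR : ∀ z, ∃ a, HW (ev τ Q) a (ev τ R z) z)
    (hL : ∀ z, 2 * ev τ (dzb τ (dz τ V)) z = κ - (ev τ J z * ev τ R z -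
      ev τ J z * ev τ J z * (ev τ Q z * conj (ev τ Q z)))) :
    ∃ C : ℝ, 0 < C ∧ ∀ z, 2 * (E z).re = C * Real.exp (-2 * (ev τ V z).re) := by
  have hne : ∀ z, E z ≠ 0 := fun z h => by simpa [h] using hJE z
  have hEof : ∀ z, ((E z).re : ℂ) = E z := fun z => Complex.conj_eq_iff_re.1 (hEr z)
  have hcE : Continuous fun z => (E z).re :=
    Complex.continuous_re.comp (continuous_iff_continuousAt.2 fun z => (hE z).continuousAt)
  have hEpos : ∀ z, 0 < (E z).re := fun z => by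
    by_contra h
    obtain ⟨z1, hz1⟩ := hpos
    obtain ⟨z2, hz2⟩ := intermediate_value_univ z z1 hcE ⟨not_lt.1 h, hz1.le⟩
    exact hne z2 (by rw [← hEof z2]; simpa using hz2)
  set hh : Cf := conv J Q + (2 : ℂ) • dz τ V with hhh
  have rh : Rapid τ hh := (hJ.conv hQ).add (hV.dz.smul _)
  have ehh : ∀ z, ev τ hh z = ev τ J z * ev τ Q z + 2 * ev τ (dz τ V) z := fun z => by
    rw [hhh, ev_add (hJ.conv hQ).summable (hV.dz.smul (2 : ℂ)).summable,
      ev_conv hJ.summable hQ.summable, ev_smul]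
  have hb : ∀ z, ev τ (dzb τ hh) z = κ := fun z => by
    obtain ⟨a, hq⟩ := hQR z
    have hj := hw_ev hJ z
    have eJ := (hj.mul (hE z)).unique ((hw_const (1 : ℂ)).congr_fun fun w => (hJE w).symm)
    have h := ((hj.mul hq).add ((hw_ev hV.dz z).const_mul 2)).congr_fun fun w => (ehh w).symm
    rw [((hw_ev rh z).unique h).2, hL]
    linear_combination ev τ Q z * (ev τ J z * eJ.2 - ev τ (dzb τ J) z * hJE z)
  set g : ℂ → ℂ := fun w => ev τ hh w - κ * conj w with hg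
  have hgd : ∀ z, HasDerivAt g (ev τ (dz τ hh) z) z := fun z => by
    have h : HW g (ev τ (dz τ hh) z) 0 z :=
      ((hw_ev rh z).sub (((hw_id (z := z)).conj).const_mul κ)).congr (by simp) (by simp [hb z])
    rw [hasDerivAt_iff_hasFDerivAt]
    exact hasFDerivAt_of_restrictScalars ℝ h (ContinuousLinearMap.ext fun w => by simp [mul_comm])
  have hg' : Differentiable ℂ (fun z => ev τ (dz τ hh) z) := fun z => by
    have e0 := ((hw_ev rh.dzb z).unique ((hw_const κ).congr_fun fun w => (hb w).symm)).1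
    have h : HW (ev τ (dz τ hh)) (ev τ (dz τ (dz τ hh)) z) 0 z :=
      (hw_ev rh.dz z).congr rfl (by rw [dzb_dz, e0])
    have hd : HasDerivAt (fun w => ev τ (dz τ hh) w) (ev τ (dz τ (dz τ hh)) z) z :=
      hasDerivAt_iff_hasFDerivAt.2 (hasFDerivAt_of_restrictScalars ℝ h
        (ContinuousLinearMap.ext fun w => by simp [mul_comm]))
    exact hd.differentiableAt
  have hbd : Bornology.IsBounded (Set.range fun z => ev τ (dz τ hh) z) :=
    isBounded_iff_forall_norm_le.2 ⟨_, by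
      rintro _ ⟨z, rfl⟩
      exact norm_ev_le rh.dz.summable z⟩
  set α := ev τ (dz τ hh) 0 with hα
  have hconst : ∀ z, ev τ (dz τ hh) z = α := fun z => hg'.apply_eq_apply_of_bounded hbd z 0
  have haff : ∀ z, ev τ hh z - κ * conj z - α * z = ev τ hh 0 := fun z => by
    have hd : ∀ z, HasDerivAt (fun w => g w - α * w) 0 z := fun z => by
      simpa [hconst z] using (hgd z).fun_sub ((hasDerivAt_id z).const_mul α)
    have := is_const_of_deriv_eq_zero (fun z => (hd z).differentiableAt)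
      (fun z => (hd z).deriv) z 0
    simpa [hg] using this
  have e1 := haff 1
  have e2 := haff τ
  have p1 : ev τ hh 1 = ev τ hh 0 := by simpa using (ev_periods hτ hh 0).1
  have p2 : ev τ hh τ = ev τ hh 0 := by simpa using (ev_periods hτ hh 0).2
  rw [p1, map_one] at e1
  rw [p2] at e2
  have hτ' : τ - conj τ ≠ 0 := fun h => hτ (by
    have := congrArg Complex.im h
    simp at this
    linarith)
  have hκ0 : κ = 0 := by
    have : κ * (τ - conj τ) = 0 := by linear_combination e2 - τ * e1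
    exact (mul_eq_zero.1 this).resolve_right hτ'
  have hα0 : α = 0 := by linear_combination -e1 - hκ0
  set β := ev τ hh 0 with hβ
  have hH : ∀ z, ev τ hh z = β := fun z => by simpa [hκ0, hα0] using haff z
  set h : ℂ → ℝ := fun z => Real.log (E z).re + 2 * (ev τ V z).re with hh'
  have hd : ∀ z, HasFDerivAt (fun w => h w - 2 * (β * w).re) (0 : ℂ →L[ℝ] ℝ) z := fun z => by
    have h1 := (hasFDerivAt_re (hE z)).log (hEpos z).ne'
    have hv : HW (ev τ V) (ev τ (dz τ V) z) (conj (ev τ (dz τ V) z)) z :=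
      (hw_ev hV z).congr rfl (by rw [dzb_eq_cj_dz hVr, ev_cj])
    have h2 := (hasFDerivAt_re hv).const_mul (2 : ℝ)
    have h3 : HasFDerivAt (fun w : ℂ => 2 * (β * w).re)
        ((2 : ℝ) • Complex.reCLM.comp (β • ContinuousLinearMap.id ℝ ℂ)) z :=
      (Complex.reCLM.hasFDerivAt.comp z ((hasFDerivAt_id z).const_smul β)).const_mul 2
    refine ((h1.fun_add h2).fun_sub h3).congr_fderiv (ContinuousLinearMap.ext fun w => ?_)
    simp only [sub_apply, add_apply, zero_apply, smul_apply, smul_eq_mul, re_dlin_apply]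
    simp only [smul_apply, smul_eq_mul,
      ContinuousLinearMap.comp_apply, ContinuousLinearMap.id_apply, Complex.reCLM_apply]
    have eJ : ev τ J z = (((E z).re⁻¹ : ℝ) : ℂ) := by
      rw [Complex.ofReal_inv, hEof]
      exact eq_inv_of_mul_eq_one_left (hJE z)
    rw [← hH z, ehh, eJ]
    simp only [add_mul, Complex.add_re, mul_assoc, Complex.re_ofReal_mul]
    simp only [Complex.mul_re, Complex.mul_im, Complex.re_ofNat, Complex.im_ofNat]
    ring
  have hk : ∀ z, h z - 2 * (β * z).re = h 0 := fun z => by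
    have := is_const_of_fderiv_eq_zero (fun z => (hd z).differentiableAt)
      (fun z => (hd z).fderiv) z 0
    simpa using this
  have hp : ∀ z, h (z + 1) = h z ∧ h (z + τ) = h z := fun z => by
    have eE : ∀ w, E w = (ev τ J w)⁻¹ := fun w =>
      (inv_eq_of_mul_eq_one_right (hJE w)).symm
    constructor <;>
      simp only [hh', eE, (ev_periods hτ J z).1, (ev_periods hτ J z).2, (ev_periods hτ V z).1,
        (ev_periods hτ V z).2]
  have b1 : (β * 1).re = 0 := by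
    have := hk 1
    rw [← zero_add (1 : ℂ), (hp 0).1, zero_add] at this
    linarith
  have b2 : (β * τ).re = 0 := by
    have := hk τ
    rw [← zero_add τ, (hp 0).2, zero_add] at this
    linarith
  have hβ0 : β = 0 := by
    simp at b1 b2
    rw [b1, zero_mul, zero_sub, neg_eq_zero] at b2
    exact Complex.ext b1 ((mul_eq_zero.1 b2).resolve_right hτ)
  refine ⟨2 * Real.exp (h 0), by positivity, fun z => ?_⟩
  have := hk z
  rw [hβ0, zero_mul, Complex.zero_re, mul_zero, sub_zero] at this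
  rw [mul_assoc, ← Real.exp_add, ← this, hh']
  rw [show Real.log (E z).re + 2 * (ev τ V z).re + -2 * (ev τ V z).re = Real.log (E z).re by ring,
    Real.exp_log (hEpos z)]

/-! ### The functions of a solution -/

variable (τ X) in
/-- The holomorphic derivative. -/
def TT (z : ℂ) : ℂ := 1 + ev τ (bq τ X) z - X.q 0

variable (τ X) in
/-- The near-identity map. -/
def Th (z : ℂ) : ℂ := z + X.q 0 * (conj z - z) + ev τ (pp τ X) z

variable (τ X) in
/-- The height. -/
def hgt (z : ℂ) : ℂ := (2 * Complex.I)⁻¹ * (Th τ X z - conj (Th τ X z))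

variable (τ c0 P X) in
/-- The energy. -/
def EE (z : ℂ) : ℂ :=
  (2 : ℂ)⁻¹ * (TT τ X z * conj (TT τ X z) + ev τ X.q z * conj (ev τ X.q z)) +
    ev τ (aa τ P X) z * (ev τ (uz τ c0 X) z * conj (ev τ (uz τ c0 X) z)) +
    (2 : ℂ)⁻¹ * (ev τ (uz τ c0 X) z * conj (ev τ (bz τ P X) z) +
      conj (ev τ (uz τ c0 X) z) * ev τ (bz τ P X) z)

/-- The standing hypotheses. -/
structure Hyp (τ : ℂ) (c0 : Cf) (P : Par) (X : St) : Prop where
  re : τ.re = 0
  im : τ.im ≠ 0
  rapid : Rapid τ c0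
  real : cj c0 = c0
  sol : Solves τ c0 P X
  shape : P.K * (τ.im * (1 - 2 * (X.q 0).re)) = 2 * Real.pi * P.j

namespace Hyp

variable (H : Hyp τ c0 P X)
include H

theorem d_eq : X.d = dMap τ c0 P X := (congrArg St.d H.sol.fixed).symm

theorem q_eq : X.q = qMap τ c0 P X := (congrArg St.q H.sol.fixed).symm

theorem i_eq : X.i = iMap τ X := (congrArg St.i H.sol.fixed).symm

theorem j_eq : X.j = jMap τ c0 P X := (congrArg St.j H.sol.fixed).symm

theorem cj_d : cj X.d = X.d := by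
  funext k
  rw [H.d_eq]
  by_cases hk : k = 0
  · simp [cj, dMap, noMean, hk]
  · simp [cj, dMap, noMean, hk, neg_eq_zero, sym, map_ofNat, add_comm]

theorem d_zero : X.d 0 = 0 := by
  rw [H.d_eq]
  simp [dMap, noMean]

theorem q0_real : conj (X.q 0) = X.q 0 := by
  have e : flip X.q 0 = cj X.q 0 := congrFun H.sol.flip_q 0
  simpa [flip, cj, Prod.mk_zero_zero] using e.symm

theorem cj_c : cj (c0 + vv τ X) = c0 + vv τ X := by rw [cj_add, H.real, cj_vv H.cj_d]

/-! Rapid decrease -/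

theorem r_vv : Rapid τ (vv τ X) := rapid_vv H.im H.sol.rapid_d

theorem r_c : Rapid τ (c0 + vv τ X) := H.rapid.add H.r_vv

theorem r_uz : Rapid τ (uz τ c0 X) := H.r_c.dz

theorem r_uzz : Rapid τ (uzz τ c0 X) := H.r_c.dz.dz

theorem r_uzb : Rapid τ (uzb τ c0 X) := H.r_c.dzb.dz

theorem r_bq : Rapid τ (bq τ X) := rapid_bq H.sol.rapid_q

theorem r_bk : Rapid τ (bk τ X) := rapid_sub H.r_bq ((rapid_one (τ := τ)).smul _)

theorem r_pp : Rapid τ (pp τ X) :=
  H.sol.rapid_q.mult (C := (2 / omMin τ).toNNReal) (p := 0) fun k => by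
    have := omMin_pos H.im
    rw [pow_zero, mul_one, ← NNReal.coe_le_coe, coe_nnnorm, Real.coe_toNNReal _ (by positivity)]
    by_cases hk : k = 0
    · simp [hk, mzb, om_zero]
      positivity
    · have e : ‖mzb τ k‖ = ‖om τ k‖ / 2 := by
        simpa using congrArg NNReal.toReal (nnnorm_mzb (τ := τ) k)
      rw [norm_inv, e, inv_div]
      exact div_le_div_of_nonneg_left two_pos.le this (le_norm_om H.im hk)

theorem r_imp : Rapid τ (imp τ X) := (rapid_sub H.r_pp H.r_pp.cj).smul _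

theorem r_expc : Rapid τ (expc ((2 * P.K * Complex.I) • imp τ X)) :=
  (expThm.2.2.1 τ _ (H.r_imp.smul _)).1

theorem r_wave : Rapid τ (wave τ P X) := (rapid_single _).conv H.r_expc

theorem r_cos2 : Rapid τ (cos2 τ P X) := (H.r_wave.add H.r_wave.cj).smul _

theorem r_sin2 : Rapid τ (sin2 τ P X) := (rapid_sub H.r_wave H.r_wave.cj).smul _

theorem r_tt : Rapid τ (tt τ P X) := (rapid_sub rapid_one H.r_cos2).smul _

theorem r_hp1 : Rapid τ (hp1 τ P X) :=
  ((rapid_one (τ := τ)).add (H.r_tt.smul _)).add ((H.r_tt.conv H.r_tt).smul _)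

theorem r_hp2 : Rapid τ (hp2 τ P X) := ((rapid_one (τ := τ)).smul _).add (H.r_tt.smul _)

theorem r_lin : Rapid τ (one + (bLink P.n P.M P.K : ℂ) • tt τ P X) :=
  (rapid_one (τ := τ)).add (H.r_tt.smul _)

theorem r_aa : Rapid τ (aa τ P X) :=
  ((rapid_one (τ := τ)).smul _).add ((H.r_tt.conv (H.r_lin.conv H.r_lin)).smul _)

theorem r_a1 : Rapid τ (a1 τ P X) := (H.r_hp1.conv H.r_sin2).smul _

theorem r_a2 : Rapid τ (a2 τ P X) :=
  ((H.r_hp2.conv (H.r_sin2.conv H.r_sin2)).add ((H.r_hp1.conv H.r_cos2).smul _)).smul _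

theorem r_th : Rapid τ (th τ X) :=
  (rapid_sub ((rapid_one (τ := τ)).add H.r_bk) H.sol.rapid_q.cj).smul _

theorem r_thz : Rapid τ (thz τ X) := (rapid_sub H.r_bq.dz H.sol.rapid_q.dzb.cj).smul _

theorem r_thb : Rapid τ (thb τ X) := (rapid_sub H.sol.rapid_q.dz H.sol.rapid_q.dz.cj).smul _

theorem r_bz : Rapid τ (bz τ P X) := H.r_a1.conv H.r_th

theorem r_bzz : Rapid τ (bzz τ P X) :=
  (H.r_a2.conv (H.r_th.conv H.r_th)).add (H.r_a1.conv H.r_thz)

theorem r_bzb : Rapid τ (bzb τ P X) :=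
  (H.r_a2.conv (H.r_th.conv H.r_th.cj)).add (H.r_a1.conv H.r_thb)

theorem r_jj : Rapid τ (jj X) := ((rapid_one (τ := τ)).smul _).add H.sol.rapid_j

/-! The height -/

theorem hw_Th (z : ℂ) : HW (Th τ X) (TT τ X z) (ev τ X.q z) z := by
  refine (((hw_id (z := z)).add (((hw_id (z := z)).conj.sub hw_id).const_mul (X.q 0))).add
    (hw_ev H.r_pp z)).congr ?_ ?_
  · have e : dz τ (pp τ X) = bq τ X := by
      funext k
      by_cases hk : k = 0
      · simp [dz, pp, bq, mult, mz, mzb, hk, om_zero]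
      have hom : om τ k ≠ 0 := fun h => by
        have := le_norm_om H.im hk
        rw [h, norm_zero] at this
        linarith [omMin_pos H.im]
      simp only [dz, pp, bq, mult, mz, mzb]
      field_simp
    rw [e, TT]
    simp
    ring
  · have e : dzb τ (pp τ X) = X.q - X.q 0 • one := by
      funext k
      by_cases hk : k = 0
      · simp [dzb, pp, mult, mzb, hk, om_zero, one]
      have hom : om τ k ≠ 0 := fun h => by
        have := le_norm_om H.im hk
        rw [h, norm_zero] at this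
        linarith [omMin_pos H.im]
      simp only [dzb, pp, mult, mzb, Pi.sub_apply, Pi.smul_apply, one, hk, if_false, smul_eq_mul,
        mul_zero, sub_zero]
      field_simp
    rw [e, ev_sub H.sol.rapid_q.summable ((rapid_one (τ := τ)).smul _).summable, ev_smul, ev_one]
    simp

theorem ev_bk (z : ℂ) : ev τ (bk τ X) z = TT τ X z - 1 := by
  rw [bk, ev_sub H.r_bq.summable ((rapid_one (τ := τ)).smul _).summable, ev_smul, ev_one, TT]
  ring

theorem ev_th (z : ℂ) :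
    ev τ (th τ X) z = (2 * Complex.I)⁻¹ * (TT τ X z - conj (ev τ X.q z)) := by
  rw [th, ev_smul, ev_sub ((rapid_one (τ := τ)).add H.r_bk).summable H.sol.rapid_q.cj.summable,
    ev_add (rapid_one (τ := τ)).summable H.r_bk.summable, ev_one, ev_cj, H.ev_bk]
  ring

theorem hw_hgt (z : ℂ) : HW (hgt τ X) (ev τ (th τ X) z) (conj (ev τ (th τ X) z)) z :=
  (((H.hw_Th z).sub (H.hw_Th z).conj).const_mul (2 * Complex.I)⁻¹).congr (H.ev_th z).symm (by
    rw [H.ev_th]
    simp [Complex.inv_I, map_ofNat]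
    ring)

omit H in
theorem hgt_eq (z : ℂ) : hgt τ X z = ((Th τ X z).im : ℂ) := by
  rw [hgt, Complex.sub_conj]
  push_cast
  field_simp

theorem ev_wave (z : ℂ) :
    ev τ (wave τ P X) z = Complex.exp (2 * P.K * Complex.I * hgt τ X z) := by
  have hph : ph τ (0, 2 * (P.j : ℤ)) z = 2 * P.K * ((1 - 2 * (X.q 0).re) * z.im) := by
    have h1 : P.K * (1 - 2 * (X.q 0).re) = 2 * Real.pi * P.j / τ.im := by
      rw [← H.shape]
      field_simp [H.im]
    rw [mul_assoc, ← mul_assoc P.K, h1]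
    simp [ph, Complex.mul_re, om_re, om_im]
    ring
  have hz : z - conj z = 2 * Complex.I * (z.im : ℂ) := by
    rw [Complex.sub_conj]
    push_cast
    ring
  have hq : X.q 0 = ((X.q 0).re : ℂ) := (Complex.conj_eq_iff_re.1 H.q0_real).symm
  rw [wave, ev_conv (rapid_single (τ := τ) _).summable H.r_expc.summable, ev_single,
    (expThm.2.2.1 τ _ (H.r_imp.smul (2 * P.K * Complex.I))).2, ch, hph, ← Complex.exp_add, ev_smul, imp, ev_smul,
    ev_sub H.r_pp.summable H.r_pp.cj.summable, ev_cj, hgt, Th, map_add, map_add, map_mul, map_sub,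
    Complex.conj_conj, H.q0_real]
  congr 1
  push_cast
  rw [← hq]
  have hI : (2 * Complex.I)⁻¹ * (2 * Complex.I) = 1 := inv_mul_cancel₀ (by simp)
  linear_combination -(2 * (P.K : ℂ) * Complex.I * (1 - 2 * X.q 0) * (2 * Complex.I)⁻¹) * hz -
    2 * (P.K : ℂ) * Complex.I * (1 - 2 * X.q 0) * (z.im : ℂ) * hI

theorem hw_wave (z : ℂ) : HW (ev τ (wave τ P X))
    (2 * P.K * Complex.I * ev τ (wave τ P X) z * ev τ (th τ X) z)
    (2 * P.K * Complex.I * ev τ (wave τ P X) z * conj (ev τ (th τ X) z)) z :=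
  ((hw_cexp ((H.hw_hgt z).const_mul (2 * P.K * Complex.I))).congr_fun
    fun w => (H.ev_wave w).symm).congr (by rw [H.ev_wave]; ring) (by rw [H.ev_wave]; ring)

theorem ev_cos2 (z : ℂ) : ev τ (cos2 τ P X) z =
    (2 : ℂ)⁻¹ * (ev τ (wave τ P X) z + conj (ev τ (wave τ P X) z)) := by
  rw [cos2, ev_smul, ev_add H.r_wave.summable H.r_wave.cj.summable, ev_cj]

theorem ev_sin2 (z : ℂ) : ev τ (sin2 τ P X) z =
    (2 * Complex.I)⁻¹ * (ev τ (wave τ P X) z - conj (ev τ (wave τ P X) z)) := by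
  rw [sin2, ev_smul, ev_sub H.r_wave.summable H.r_wave.cj.summable, ev_cj]

theorem ev_tt (z : ℂ) : ev τ (tt τ P X) z = (2 : ℂ)⁻¹ * (1 - ev τ (cos2 τ P X) z) := by
  rw [tt, ev_smul, ev_sub (rapid_one (τ := τ)).summable H.r_cos2.summable, ev_one]

theorem ev_hp1 (z : ℂ) : ev τ (hp1 τ P X) z = 1 + 4 * (bLink P.n P.M P.K : ℂ) * ev τ (tt τ P X) z +
    3 * (bLink P.n P.M P.K : ℂ) ^ 2 * (ev τ (tt τ P X) z * ev τ (tt τ P X) z) := by
  rw [hp1, ev_add ((rapid_one (τ := τ)).add (H.r_tt.smul _)).summable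
      ((H.r_tt.conv H.r_tt).smul _).summable,
    ev_add (rapid_one (τ := τ)).summable (H.r_tt.smul _).summable, ev_one, ev_smul, ev_smul,
    ev_conv H.r_tt.summable H.r_tt.summable]
  push_cast
  ring

theorem ev_hp2 (z : ℂ) : ev τ (hp2 τ P X) z =
    4 * (bLink P.n P.M P.K : ℂ) + 6 * (bLink P.n P.M P.K : ℂ) ^ 2 * ev τ (tt τ P X) z := by
  rw [hp2, ev_add ((rapid_one (τ := τ)).smul _).summable (H.r_tt.smul _).summable, ev_smul, ev_smul,
    ev_one]
  push_cast
  ring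

theorem ev_aa (z : ℂ) : ev τ (aa τ P X) z = (1 / (P.M : ℂ) ^ 2) + (amp P : ℂ) *
    (ev τ (tt τ P X) z * ((1 + (bLink P.n P.M P.K : ℂ) * ev τ (tt τ P X) z) *
      (1 + (bLink P.n P.M P.K : ℂ) * ev τ (tt τ P X) z))) := by
  rw [aa, ev_add ((rapid_one (τ := τ)).smul _).summable
      ((H.r_tt.conv (H.r_lin.conv H.r_lin)).smul _).summable, ev_smul, ev_smul, ev_one,
    ev_conv H.r_tt.summable (H.r_lin.conv H.r_lin).summable,
    ev_conv H.r_lin.summable H.r_lin.summable,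
    ev_add (rapid_one (τ := τ)).summable (H.r_tt.smul _).summable, ev_smul, ev_one]
  push_cast
  ring

theorem ev_a1 (z : ℂ) : ev τ (a1 τ P X) z =
    (amp P : ℂ) * P.K * (ev τ (hp1 τ P X) z * ev τ (sin2 τ P X) z) := by
  rw [a1, ev_smul, ev_conv H.r_hp1.summable H.r_sin2.summable]
  push_cast
  ring

theorem ev_a2 (z : ℂ) : ev τ (a2 τ P X) z = (amp P : ℂ) * (P.K : ℂ) ^ 2 *
    (ev τ (hp2 τ P X) z * (ev τ (sin2 τ P X) z * ev τ (sin2 τ P X) z) +
      2 * (ev τ (hp1 τ P X) z * ev τ (cos2 τ P X) z)) := by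
  rw [a2, ev_smul, ev_add (H.r_hp2.conv (H.r_sin2.conv H.r_sin2)).summable
      ((H.r_hp1.conv H.r_cos2).smul _).summable, ev_smul,
    ev_conv H.r_hp2.summable (H.r_sin2.conv H.r_sin2).summable,
    ev_conv H.r_sin2.summable H.r_sin2.summable, ev_conv H.r_hp1.summable H.r_cos2.summable]
  push_cast
  ring

theorem conj_cos2 (z : ℂ) : conj (ev τ (cos2 τ P X) z) = ev τ (cos2 τ P X) z := by
  simp [H.ev_cos2, map_ofNat, add_comm]

theorem conj_sin2 (z : ℂ) : conj (ev τ (sin2 τ P X) z) = ev τ (sin2 τ P X) z := by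
  simp [H.ev_sin2, Complex.inv_I, map_ofNat]
  ring

theorem conj_tt (z : ℂ) : conj (ev τ (tt τ P X) z) = ev τ (tt τ P X) z := by
  simp [H.ev_tt, H.conj_cos2, map_ofNat]

theorem conj_aa (z : ℂ) : conj (ev τ (aa τ P X) z) = ev τ (aa τ P X) z := by
  simp [H.ev_aa, H.conj_tt]

theorem conj_a1 (z : ℂ) : conj (ev τ (a1 τ P X) z) = ev τ (a1 τ P X) z := by
  simp [H.ev_a1, H.ev_hp1, H.conj_tt, H.conj_sin2, map_ofNat]

theorem conj_a2 (z : ℂ) : conj (ev τ (a2 τ P X) z) = ev τ (a2 τ P X) z := by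
  simp [H.ev_a2, H.ev_hp1, H.ev_hp2, H.conj_tt, H.conj_sin2, H.conj_cos2, map_ofNat]

theorem hw_tt (z : ℂ) : HW (ev τ (tt τ P X)) (P.K * ev τ (sin2 τ P X) z * ev τ (th τ X) z)
    (P.K * ev τ (sin2 τ P X) z * conj (ev τ (th τ X) z)) z := by
  refine ((((hw_const (1 : ℂ)).sub (((H.hw_wave z).add (H.hw_wave z).conj).const_mul
    (2 : ℂ)⁻¹)).const_mul (2 : ℂ)⁻¹).congr_fun fun w => ?_).congr ?_ ?_
  · rw [H.ev_tt, H.ev_cos2]
  all_goals
    simp [H.ev_sin2, Complex.inv_I, map_ofNat]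
    ring

theorem hw_sin2 (z : ℂ) : HW (ev τ (sin2 τ P X))
    (2 * P.K * ev τ (cos2 τ P X) z * ev τ (th τ X) z)
    (2 * P.K * ev τ (cos2 τ P X) z * conj (ev τ (th τ X) z)) z := by
  refine ((((H.hw_wave z).sub (H.hw_wave z).conj).const_mul (2 * Complex.I)⁻¹).congr_fun
    fun w => (H.ev_sin2 w).symm).congr ?_ ?_
  all_goals
    simp [H.ev_cos2, Complex.inv_I, map_ofNat]
    ring_nf
    simp [Complex.I_sq]

theorem hw_aa (z : ℂ) : HW (ev τ (aa τ P X)) (ev τ (bz τ P X) z) (conj (ev τ (bz τ P X) z)) z := by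
  have hl := (hw_const (1 : ℂ) (z := z)).add ((H.hw_tt z).const_mul (bLink P.n P.M P.K : ℂ))
  refine (((hw_const (1 / (P.M : ℂ) ^ 2)).add (((H.hw_tt z).mul (hl.mul hl)).const_mul
    (amp P : ℂ))).congr_fun fun w => (H.ev_aa w).symm).congr ?_ ?_
  all_goals
    simp only [bz, ev_conv H.r_a1.summable H.r_th.summable, map_mul, H.conj_a1]
    simp only [H.ev_a1, H.ev_hp1]
    ring

theorem hw_a1 (z : ℂ) : HW (ev τ (a1 τ P X)) (ev τ (a2 τ P X) z * ev τ (th τ X) z)
    (ev τ (a2 τ P X) z * conj (ev τ (th τ X) z)) z := by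
  have h1 := ((hw_const (1 : ℂ) (z := z)).add ((H.hw_tt z).const_mul
    (4 * (bLink P.n P.M P.K : ℂ)))).add (((H.hw_tt z).mul (H.hw_tt z)).const_mul
    (3 * (bLink P.n P.M P.K : ℂ) ^ 2))
  refine (((h1.mul (H.hw_sin2 z)).const_mul ((amp P : ℂ) * P.K)).congr_fun fun w => ?_).congr ?_ ?_
  · rw [H.ev_a1, H.ev_hp1]
  all_goals
    rw [H.ev_a2, H.ev_hp1, H.ev_hp2]
    ring

theorem hw_TT (z : ℂ) : HW (TT τ X) (ev τ (dz τ (bq τ X)) z) (ev τ (dz τ X.q) z) z :=
  (((hw_const (1 : ℂ)).add (hw_ev H.r_bq z)).sub (hw_const (X.q 0))).congr (by simp)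
    (by rw [dzb_bq]; simp)

theorem ev_thz (z : ℂ) : ev τ (thz τ X) z =
    (2 * Complex.I)⁻¹ * (ev τ (dz τ (bq τ X)) z - conj (ev τ (dzb τ X.q) z)) := by
  rw [thz, ev_smul, ev_sub H.r_bq.dz.summable H.sol.rapid_q.dzb.cj.summable, ev_cj]

theorem ev_thb (z : ℂ) : ev τ (thb τ X) z =
    (2 * Complex.I)⁻¹ * (ev τ (dz τ X.q) z - conj (ev τ (dz τ X.q) z)) := by
  rw [thb, ev_smul, ev_sub H.sol.rapid_q.dz.summable H.sol.rapid_q.dz.cj.summable, ev_cj]

theorem conj_thb (z : ℂ) : conj (ev τ (thb τ X) z) = ev τ (thb τ X) z := by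
  simp [H.ev_thb, Complex.inv_I, map_ofNat]
  ring

theorem hw_th (z : ℂ) : HW (ev τ (th τ X)) (ev τ (thz τ X) z) (ev τ (thb τ X) z) z :=
  ((((H.hw_TT z).sub (hw_ev H.sol.rapid_q z).conj).const_mul (2 * Complex.I)⁻¹).congr_fun
    fun w => (H.ev_th w).symm).congr (H.ev_thz z).symm (H.ev_thb z).symm

theorem ev_bz (z : ℂ) : ev τ (bz τ P X) z = ev τ (a1 τ P X) z * ev τ (th τ X) z := by
  rw [bz, ev_conv H.r_a1.summable H.r_th.summable]

theorem ev_bzz (z : ℂ) : ev τ (bzz τ P X) z =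
    ev τ (a2 τ P X) z * (ev τ (th τ X) z * ev τ (th τ X) z) +
      ev τ (a1 τ P X) z * ev τ (thz τ X) z := by
  rw [bzz, ev_add (H.r_a2.conv (H.r_th.conv H.r_th)).summable (H.r_a1.conv H.r_thz).summable,
    ev_conv H.r_a2.summable (H.r_th.conv H.r_th).summable,
    ev_conv H.r_th.summable H.r_th.summable, ev_conv H.r_a1.summable H.r_thz.summable]

theorem ev_bzb (z : ℂ) : ev τ (bzb τ P X) z =
    ev τ (a2 τ P X) z * (ev τ (th τ X) z * conj (ev τ (th τ X) z)) +
      ev τ (a1 τ P X) z * ev τ (thb τ X) z := by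
  rw [bzb, ev_add (H.r_a2.conv (H.r_th.conv H.r_th.cj)).summable (H.r_a1.conv H.r_thb).summable,
    ev_conv H.r_a2.summable (H.r_th.conv H.r_th.cj).summable,
    ev_conv H.r_th.summable H.r_th.cj.summable, ev_conv H.r_a1.summable H.r_thb.summable, ev_cj]

theorem conj_bzb (z : ℂ) : conj (ev τ (bzb τ P X) z) = ev τ (bzb τ P X) z := by
  simp [H.ev_bzb, H.conj_a1, H.conj_a2, H.conj_thb, mul_comm]

theorem hw_bz (z : ℂ) :
    HW (ev τ (bz τ P X)) (ev τ (bzz τ P X) z) (ev τ (bzb τ P X) z) z :=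
  (((H.hw_a1 z).mul (H.hw_th z)).congr_fun fun w => (H.ev_bz w).symm).congr
    (by rw [H.ev_bzz]; ring) (by rw [H.ev_bzb]; ring)

theorem ev_dz_bz (z : ℂ) : ev τ (dz τ (bz τ P X)) z = ev τ (bzz τ P X) z :=
  ((hw_ev H.r_bz z).unique (H.hw_bz z)).1

theorem ev_dzb_bz (z : ℂ) : ev τ (dzb τ (bz τ P X)) z = ev τ (bzb τ P X) z :=
  ((hw_ev H.r_bz z).unique (H.hw_bz z)).2

theorem hw_bzz (z : ℂ) : HW (ev τ (bzz τ P X)) (ev τ (dz τ (dz τ (bz τ P X))) z)
    (ev τ (dz τ (dzb τ (bz τ P X))) z) z :=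
  ((hw_ev H.r_bz.dz z).congr rfl (by rw [dzb_dz])).congr_fun H.ev_dz_bz

theorem hw_bzb (z : ℂ) : HW (ev τ (bzb τ P X)) (ev τ (dz τ (dzb τ (bz τ P X))) z)
    (ev τ (dzb τ (dzb τ (bz τ P X))) z) z :=
  (hw_ev H.r_bz.dzb z).congr_fun H.ev_dzb_bz

theorem hw_uz (z : ℂ) : HW (ev τ (uz τ c0 X)) (ev τ (uzz τ c0 X) z) (ev τ (uzb τ c0 X) z) z :=
  (hw_ev H.r_uz z).congr rfl (by rw [uz, dzb_dz]; rfl)

theorem hw_uzz (z : ℂ) : HW (ev τ (uzz τ c0 X)) (ev τ (dz τ (uzz τ c0 X)) z)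
    (ev τ (dz τ (uzb τ c0 X)) z) z :=
  (hw_ev H.r_uzz z).congr rfl (by rw [uzz, uzb, dzb_dz, dzb_dz])

theorem conj_uzb (z : ℂ) : conj (ev τ (uzb τ c0 X) z) = ev τ (uzb τ c0 X) z :=
  ev_real (cj_fzb_fam H.cj_c) z

/-! The equations -/

theorem conj_T_ne (z : ℂ) : conj (TT τ X z) * (1 + ev τ X.i z) = 1 := by
  have e := congrArg (fun c => ev τ c z) H.i_eq
  simp only [iMap] at e
  rw [ev_neg, ev_conv H.r_bk.cj.summable ((rapid_one (τ := τ)).add H.sol.rapid_i).summable,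
    ev_add (rapid_one (τ := τ)).summable H.sol.rapid_i.summable, ev_one, ev_cj, H.ev_bk, map_sub,
    map_one] at e
  linear_combination e

theorem T_ne (z : ℂ) : TT τ X z ≠ 0 := fun h => by simpa [h] using H.conj_T_ne z

/-- The pullback of the quadratic differential vanishes. -/
theorem G_eq (z : ℂ) : TT τ X z * conj (ev τ X.q z) +
    ev τ (aa τ P X) z * (ev τ (uz τ c0 X) z * ev τ (uz τ c0 X) z) +
    ev τ (uz τ c0 X) z * ev τ (bz τ P X) z = 0 := by
  have r1 := H.r_aa.conv (H.r_uz.cj.conv H.r_uz.cj)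
  have r2 := H.r_uz.cj.conv H.r_bz.cj
  have e := congrArg (fun c => ev τ c z) H.q_eq
  simp only [qMap] at e
  rw [ev_neg, ev_conv (r1.add r2).summable ((rapid_one (τ := τ)).add H.sol.rapid_i).summable,
    ev_add r1.summable r2.summable, ev_conv H.r_aa.summable (H.r_uz.cj.conv H.r_uz.cj).summable,
    ev_conv H.r_uz.cj.summable H.r_uz.cj.summable, ev_conv H.r_uz.cj.summable H.r_bz.cj.summable,
    ev_add (rapid_one (τ := τ)).summable H.sol.rapid_i.summable, ev_one, ev_cj, ev_cj] at e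
  have e' : conj (TT τ X z) * ev τ X.q z +
      ev τ (aa τ P X) z * (conj (ev τ (uz τ c0 X) z) * conj (ev τ (uz τ c0 X) z)) +
      conj (ev τ (uz τ c0 X) z) * conj (ev τ (bz τ P X) z) = 0 := by
    linear_combination conj (TT τ X z) * e -
      (ev τ (aa τ P X) z * (conj (ev τ (uz τ c0 X) z) * conj (ev τ (uz τ c0 X) z)) +
        conj (ev τ (uz τ c0 X) z) * conj (ev τ (bz τ P X) z)) * H.conj_T_ne z
  simpa [H.conj_aa] using congrArg conj e'

/-- The fourth unknown inverts the energy. -/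
theorem J_mul (z : ℂ) : ev τ (jj X) z * EE τ c0 P X z = 1 := by
  have hq := H.sol.rapid_q
  have r1 := H.r_bk.add H.r_bk.cj
  have r2 := (H.r_bk.conv H.r_bk.cj).add (hq.conv hq.cj)
  have r3 := H.r_aa.conv (H.r_uz.conv H.r_uz.cj)
  have r4 := r2.add (r3.smul (2 : ℂ))
  have r5 := (H.r_uz.conv H.r_bz.cj).sym.smul (2 : ℂ)
  have e := congrArg (fun c => ev τ c z) H.j_eq
  simp only [jMap] at e
  rw [ev_neg, ev_conv (c := e2 τ c0 P X) (r1.add (r4.add r5)).summable H.r_jj.summable] at e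
  have e2v : ev τ (e2 τ c0 P X) z = 2 * EE τ c0 P X z - 1 := by
    simp only [e2]
    rw [ev_add r1.summable (r4.add r5).summable, ev_add r4.summable r5.summable,
      ev_add r2.summable (r3.smul (2 : ℂ)).summable,
      ev_add (H.r_bk.conv H.r_bk.cj).summable (hq.conv hq.cj).summable,
      ev_add H.r_bk.summable H.r_bk.cj.summable, ev_smul, ev_smul,
      ev_conv H.r_bk.summable H.r_bk.cj.summable, ev_conv hq.summable hq.cj.summable,
      ev_conv H.r_aa.summable (H.r_uz.conv H.r_uz.cj).summable,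
      ev_conv H.r_uz.summable H.r_uz.cj.summable, sym, ev_smul,
      ev_add (H.r_uz.conv H.r_bz.cj).summable (H.r_uz.conv H.r_bz.cj).cj.summable, ev_cj, ev_cj,
      ev_cj, ev_cj, ev_conv H.r_uz.summable H.r_bz.cj.summable, ev_cj, map_mul, Complex.conj_conj,
      H.ev_bk, EE, map_sub, map_one]
    ring
  have ej : ev τ (jj X) z = 2 + ev τ X.j z := by
    rw [jj, ev_add ((rapid_one (τ := τ)).smul (2 : ℂ)).summable H.sol.rapid_j.summable, ev_smul,
      ev_one, mul_one]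
  rw [e2v, ej] at e
  rw [ej]
  linear_combination (1 / 2 : ℂ) * e

theorem conj_E (z : ℂ) : conj (EE τ c0 P X z) = EE τ c0 P X z := by
  simp [EE, map_ofNat, H.conj_aa]
  ring

theorem conj_J (z : ℂ) : conj (ev τ (jj X) z) = ev τ (jj X) z := by
  have hne : EE τ c0 P X z ≠ 0 := fun h => by simpa [h] using H.J_mul z
  have e := congrArg conj (H.J_mul z)
  rw [map_mul, map_one, H.conj_E] at e
  exact mul_right_cancel₀ hne (e.trans (H.J_mul z).symm)

theorem E_pos : ∃ z, 0 < (EE τ c0 P X z).re := by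
  obtain ⟨z, hz⟩ := exists_dz_eq_zero H.re H.im H.r_c H.cj_c
  refine ⟨z, ?_⟩
  have h : 0 < Complex.normSq (TT τ X z) := Complex.normSq_pos.2 (H.T_ne z)
  have e : (EE τ c0 P X z).re =
      (Complex.normSq (TT τ X z) + Complex.normSq (ev τ X.q z)) / 2 := by
    simp [EE, uz, hz, Complex.mul_conj]
    ring
  rw [e]
  linarith [Complex.normSq_nonneg (ev τ X.q z)]

/-- The antiholomorphic derivative of the quadratic differential vanishes. -/
theorem Gb_eq (z : ℂ) : conj (ev τ (dz τ X.q) z) * ev τ X.q z +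
    conj (TT τ X z) * ev τ (dz τ X.q) z +
    ev τ (bz τ P X) z * (conj (ev τ (uz τ c0 X) z) * conj (ev τ (uz τ c0 X) z)) +
    2 * ev τ (aa τ P X) z * (conj (ev τ (uz τ c0 X) z) * ev τ (uzb τ c0 X) z) +
    ev τ (uzb τ c0 X) z * conj (ev τ (bz τ P X) z) +
    conj (ev τ (uz τ c0 X) z) * ev τ (bzb τ P X) z = 0 := by
  have h := (((H.hw_TT z).mul (hw_ev H.sol.rapid_q z).conj).add
    ((H.hw_aa z).mul ((H.hw_uz z).mul (H.hw_uz z)))).add ((H.hw_uz z).mul (H.hw_bz z))
  have e := (h.unique ((hw_const (0 : ℂ)).congr_fun fun w => (H.G_eq w).symm)).2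
  have e' := congrArg conj e
  simp only [map_add, map_mul, Complex.conj_conj, map_zero, H.conj_uzb, H.conj_bzb, H.conj_aa] at e'
  linear_combination e'

theorem ev_ez (w : ℂ) : ev τ (ez τ c0 P X) w =
    (2 : ℂ)⁻¹ * (ev τ (dz τ (bq τ X)) w * conj (TT τ X w) +
      conj (ev τ (dzb τ X.q) w) * ev τ X.q w) +
    ev τ (bz τ P X) w * (ev τ (uz τ c0 X) w * conj (ev τ (uz τ c0 X) w)) +
    ev τ (aa τ P X) w * (ev τ (uzz τ c0 X) w * conj (ev τ (uz τ c0 X) w)) +
    (2 : ℂ)⁻¹ * (ev τ (uzz τ c0 X) w * conj (ev τ (bz τ P X) w) +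
      conj (ev τ (uz τ c0 X) w) * ev τ (bzz τ P X) w) -
    (2 : ℂ)⁻¹ * (conj (ev τ (bz τ P X) w) * (ev τ (uz τ c0 X) w * ev τ (uz τ c0 X) w)) := by
  have hq := H.sol.rapid_q
  have r1 := H.r_bq.dz.conv ((rapid_one (τ := τ)).add H.r_bk.cj)
  have r2 := hq.dzb.cj.conv hq
  have r12 := (r1.add r2).smul (2 : ℂ)⁻¹
  have r3 := H.r_bz.conv (H.r_uz.conv H.r_uz.cj)
  have r4 := H.r_aa.conv (H.r_uzz.conv H.r_uz.cj)
  have r5 := H.r_uzz.conv H.r_bz.cj
  have r6 := H.r_uz.cj.conv H.r_bzz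
  have r56 := (r5.add r6).smul (2 : ℂ)⁻¹
  have r7 := (H.r_bz.cj.conv (H.r_uz.conv H.r_uz)).smul (2 : ℂ)⁻¹
  rw [ez, ev_sub (((r12.add r3).add r4).add r56).summable r7.summable,
    ev_add ((r12.add r3).add r4).summable r56.summable, ev_add (r12.add r3).summable r4.summable,
    ev_add r12.summable r3.summable, ev_smul, ev_smul, ev_smul, ev_add r1.summable r2.summable,
    ev_add r5.summable r6.summable,
    ev_conv H.r_bq.dz.summable ((rapid_one (τ := τ)).add H.r_bk.cj).summable,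
    ev_add (rapid_one (τ := τ)).summable H.r_bk.cj.summable, ev_one,
    ev_conv hq.dzb.cj.summable hq.summable,
    ev_conv H.r_bz.summable (H.r_uz.conv H.r_uz.cj).summable,
    ev_conv H.r_uz.summable H.r_uz.cj.summable,
    ev_conv H.r_aa.summable (H.r_uzz.conv H.r_uz.cj).summable,
    ev_conv H.r_uzz.summable H.r_uz.cj.summable, ev_conv H.r_uzz.summable H.r_bz.cj.summable,
    ev_conv H.r_uz.cj.summable H.r_bzz.summable,
    ev_conv H.r_bz.cj.summable (H.r_uz.conv H.r_uz).summable,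
    ev_conv H.r_uz.summable H.r_uz.summable]
  simp only [ev_cj, H.ev_bk, map_sub, map_one]
  ring

theorem r_ez : Rapid τ (ez τ c0 P X) :=
  rapid_sub
    (((((H.r_bq.dz.conv ((rapid_one (τ := τ)).add H.r_bk.cj)).add
        (H.sol.rapid_q.dzb.cj.conv H.sol.rapid_q)).smul _).add
      (H.r_bz.conv (H.r_uz.conv H.r_uz.cj))).add
      (H.r_aa.conv (H.r_uzz.conv H.r_uz.cj)) |>.add
      (((H.r_uzz.conv H.r_bz.cj).add (H.r_uz.cj.conv H.r_bzz)).smul _))
    ((H.r_bz.cj.conv (H.r_uz.conv H.r_uz)).smul _)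

theorem hw_E (z : ℂ) :
    HW (EE τ c0 P X) (ev τ (ez τ c0 P X) z) (conj (ev τ (ez τ c0 P X) z)) z := by
  have hq := hw_ev H.sol.rapid_q z
  have h := (((((H.hw_TT z).mul (H.hw_TT z).conj).add (hq.mul hq.conj)).const_mul (2 : ℂ)⁻¹).add
    ((H.hw_aa z).mul ((H.hw_uz z).mul (H.hw_uz z).conj))).add
    ((((H.hw_uz z).mul (H.hw_bz z).conj).add ((H.hw_uz z).conj.mul (H.hw_bz z))).const_mul
      (2 : ℂ)⁻¹)
  have eG := congrArg conj (H.Gb_eq z)
  simp only [map_add, map_mul, Complex.conj_conj, map_zero, map_ofNat, H.conj_uzb, H.conj_bzb,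
    H.conj_aa] at eG
  refine h.congr ?_ ?_
  · rw [H.ev_ez, H.conj_uzb, H.conj_bzb]
    linear_combination (1 / 2 : ℂ) * eG
  · rw [H.ev_ez]
    simp only [map_add, map_sub, map_mul, Complex.conj_conj, map_inv₀, map_ofNat, H.conj_aa]
    linear_combination (1 / 2 : ℂ) * H.Gb_eq z

theorem ev_ezb (z : ℂ) : ev τ (ezb τ c0 P X) z =
    (2 : ℂ)⁻¹ * (ev τ (dz τ (bq τ X)) z * conj (ev τ (dz τ (bq τ X)) z) +
      ev τ (dzb τ X.q) z * conj (ev τ (dzb τ X.q) z)) -
    ev τ (dz τ X.q) z * conj (ev τ (dz τ X.q) z) +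
    ev τ (aa τ P X) z * (ev τ (uzz τ c0 X) z * conj (ev τ (uzz τ c0 X) z) -
      ev τ (uzb τ c0 X) z * ev τ (uzb τ c0 X) z) +
    ((2 : ℂ)⁻¹ * (ev τ (uzz τ c0 X) z * conj (ev τ (bzz τ P X) z) +
        conj (ev τ (uzz τ c0 X) z) * ev τ (bzz τ P X) z) -
      ev τ (uzb τ c0 X) z * ev τ (bzb τ P X) z +
      ev τ (bzb τ P X) z * (ev τ (uz τ c0 X) z * conj (ev τ (uz τ c0 X) z)) -
      (2 : ℂ)⁻¹ * (ev τ (bzz τ P X) z *
          (conj (ev τ (uz τ c0 X) z) * conj (ev τ (uz τ c0 X) z)) +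
        conj (ev τ (bzz τ P X) z) * (ev τ (uz τ c0 X) z * ev τ (uz τ c0 X) z)) +
      (ev τ (bz τ P X) z * (ev τ (uz τ c0 X) z * conj (ev τ (uzz τ c0 X) z)) +
        conj (ev τ (bz τ P X) z) * (conj (ev τ (uz τ c0 X) z) * ev τ (uzz τ c0 X) z)) -
      (ev τ (bz τ P X) z * conj (ev τ (uz τ c0 X) z) +
        conj (ev τ (bz τ P X) z) * ev τ (uz τ c0 X) z) * ev τ (uzb τ c0 X) z) := by
  have hq := H.sol.rapid_q
  have a1' := H.r_bq.dz.conv H.r_bq.dz.cj
  have a2' := hq.dzb.conv hq.dzb.cj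
  have a12 := (a1'.add a2').smul (2 : ℂ)⁻¹
  have a3 := hq.dz.conv hq.dz.cj
  have b1 := H.r_uzz.conv H.r_uzz.cj
  have b2 := H.r_uzb.conv H.r_uzb
  have b12 := H.r_aa.conv (rapid_sub b1 b2)
  have c1 := H.r_uzz.conv H.r_bzz.cj
  have c2 := H.r_uzb.conv H.r_bzb
  have c3 := H.r_bzb.conv (H.r_uz.conv H.r_uz.cj)
  have c4 := H.r_bzz.conv (H.r_uz.cj.conv H.r_uz.cj)
  have c5 := H.r_bz.conv (H.r_uz.conv H.r_uzz.cj)
  have c6 := H.r_bz.conv (H.r_uz.cj.conv H.r_uzb)
  have d1 := rapid_sub c1.sym c2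
  have d2 := d1.add c3
  have d3 := rapid_sub d2 c4.sym
  have d4 := d3.add (c5.sym.smul (2 : ℂ))
  rw [ezb, ev_add ((rapid_sub a12 a3).add b12).summable
      (rapid_sub d4 (c6.sym.smul (2 : ℂ))).summable,
    ev_add (rapid_sub a12 a3).summable b12.summable, ev_sub a12.summable a3.summable,
    ev_sub d4.summable (c6.sym.smul (2 : ℂ)).summable,
    ev_add d3.summable (c5.sym.smul (2 : ℂ)).summable, ev_sub d2.summable c4.sym.summable,
    ev_add d1.summable c3.summable, ev_sub c1.sym.summable c2.summable,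
    ev_conv H.r_aa.summable (rapid_sub b1 b2).summable, ev_sub b1.summable b2.summable]
  simp only [sym, ev_smul]
  rw [ev_add a1'.summable a2'.summable, ev_add c1.summable c1.cj.summable,
    ev_add c4.summable c4.cj.summable, ev_add c5.summable c5.cj.summable,
    ev_add c6.summable c6.cj.summable]
  simp only [ev_cj]
  rw [ev_conv H.r_bq.dz.summable H.r_bq.dz.cj.summable, ev_conv hq.dzb.summable hq.dzb.cj.summable,
    ev_conv hq.dz.summable hq.dz.cj.summable, ev_conv H.r_uzz.summable H.r_uzz.cj.summable,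
    ev_conv H.r_uzb.summable H.r_uzb.summable, ev_conv H.r_uzz.summable H.r_bzz.cj.summable,
    ev_conv H.r_uzb.summable H.r_bzb.summable,
    ev_conv H.r_bzb.summable (H.r_uz.conv H.r_uz.cj).summable,
    ev_conv H.r_uz.summable H.r_uz.cj.summable,
    ev_conv H.r_bzz.summable (H.r_uz.cj.conv H.r_uz.cj).summable,
    ev_conv H.r_uz.cj.summable H.r_uz.cj.summable,
    ev_conv H.r_bz.summable (H.r_uz.conv H.r_uzz.cj).summable,
    ev_conv H.r_uz.summable H.r_uzz.cj.summable,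
    ev_conv H.r_bz.summable (H.r_uz.cj.conv H.r_uzb).summable,
    ev_conv H.r_uz.cj.summable H.r_uzb.summable]
  simp only [ev_cj, map_mul, Complex.conj_conj, H.conj_uzb]
  ring

theorem conj_ezb (z : ℂ) : conj (ev τ (ezb τ c0 P X) z) = ev τ (ezb τ c0 P X) z := by
  rw [H.ev_ezb]
  simp only [map_add, map_sub, map_mul, Complex.conj_conj, map_inv₀, map_ofNat, H.conj_uzb,
    H.conj_bzb, H.conj_aa]
  ring

/-- The mixed derivative of the energy. -/
theorem hw_ez (z : ℂ) : ∃ a, HW (ev τ (ez τ c0 P X)) a (ev τ (ezb τ c0 P X) z) z := by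
  have hq := H.sol.rapid_q
  have hS : HW (ev τ (dz τ (bq τ X))) (ev τ (dz τ (dz τ (bq τ X))) z)
      (ev τ (dz τ (dz τ X.q)) z) z :=
    (hw_ev H.r_bq.dz z).congr rfl (by rw [dzb_dz, dzb_bq])
  have hu := H.hw_uz z
  have hb := H.hw_bz z
  have h := (((((hS.mul (H.hw_TT z).conj).add
        ((hw_ev hq.dzb z).conj.mul (hw_ev hq z))).const_mul (2 : ℂ)⁻¹).add
      (hb.mul (hu.mul hu.conj))).add
      ((H.hw_aa z).mul ((H.hw_uzz z).mul hu.conj))).add
      ((((H.hw_uzz z).mul hb.conj).add (hu.conj.mul (H.hw_bzz z))).const_mul (2 : ℂ)⁻¹) |>.sub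
      ((hb.conj.mul (hu.mul hu)).const_mul (2 : ℂ)⁻¹)
  have hqz : HW (ev τ (dz τ X.q)) (ev τ (dz τ (dz τ X.q)) z) (ev τ (dz τ (dzb τ X.q)) z) z :=
    (hw_ev hq.dz z).congr rfl (by rw [dzb_dz])
  have hub : HW (ev τ (uzb τ c0 X)) (ev τ (dz τ (uzb τ c0 X)) z)
      (ev τ (dzb τ (uzb τ c0 X)) z) z := hw_ev H.r_uzb z
  have hG := (((((hqz.conj).mul (hw_ev hq z)).add ((H.hw_TT z).conj.mul hqz)).add
    (hb.mul (hu.conj.mul hu.conj))).add (((H.hw_aa z).const_mul 2).mul (hu.conj.mul hub))).add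
    (hub.mul hb.conj) |>.add (hu.conj.mul (H.hw_bzb z))
  have e2 := (hG.unique ((hw_const (0 : ℂ)).congr_fun fun w => (H.Gb_eq w).symm)).1
  simp only [H.conj_uzb, H.conj_bzb] at e2
  refine ⟨_, (h.congr rfl ?_).congr_fun fun w => (H.ev_ez w).symm⟩
  rw [H.ev_ezb]
  linear_combination (1 / 2 : ℂ) * e2

theorem r_ezb : Rapid τ (ezb τ c0 P X) :=
  ((rapid_sub ((((H.r_bq.dz.conv H.r_bq.dz.cj).add
      (H.sol.rapid_q.dzb.conv H.sol.rapid_q.dzb.cj)).smul _))
      (H.sol.rapid_q.dz.conv H.sol.rapid_q.dz.cj)).add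
    (H.r_aa.conv (rapid_sub (H.r_uzz.conv H.r_uzz.cj) (H.r_uzb.conv H.r_uzb)))).add
    (rapid_sub ((rapid_sub ((rapid_sub (H.r_uzz.conv H.r_bzz.cj).sym
        (H.r_uzb.conv H.r_bzb)).add (H.r_bzb.conv (H.r_uz.conv H.r_uz.cj)))
        (H.r_bzz.conv (H.r_uz.cj.conv H.r_uz.cj)).sym).add
      ((H.r_bz.conv (H.r_uz.conv H.r_uzz.cj)).sym.smul _))
      ((H.r_bz.conv (H.r_uz.cj.conv H.r_uzb)).sym.smul _))

theorem r_lapLog : Rapid τ (lapLog τ c0 P X) :=
  rapid_sub (H.r_jj.conv H.r_ezb) ((H.r_jj.conv H.r_jj).conv (H.r_ez.conv H.r_ez.cj))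

/-- The energy is the conformal factor up to a constant. -/
theorem energy_eq : ∃ C : ℝ, 0 < C ∧
    ∀ z, 2 * (EE τ c0 P X z).re = C * Real.exp (-2 * (ev τ (vv τ X) z).re) := by
  refine exp_of_mixed (κ := sym (lapLog τ c0 P X) 0) H.im H.r_jj H.r_ez H.r_vv (cj_vv H.cj_d)
    H.J_mul H.conj_E H.E_pos H.hw_E H.hw_ez fun z => ?_
  have eL : ev τ (lapLog τ c0 P X) z = ev τ (jj X) z * ev τ (ezb τ c0 P X) z -
      ev τ (jj X) z * ev τ (jj X) z *
        (ev τ (ez τ c0 P X) z * conj (ev τ (ez τ c0 P X) z)) := by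
    rw [lapLog, ev_sub (H.r_jj.conv H.r_ezb).summable
        ((H.r_jj.conv H.r_jj).conv (H.r_ez.conv H.r_ez.cj)).summable,
      ev_conv H.r_jj.summable H.r_ezb.summable,
      ev_conv (H.r_jj.conv H.r_jj).summable (H.r_ez.conv H.r_ez.cj).summable,
      ev_conv H.r_jj.summable H.r_jj.summable, ev_conv H.r_ez.summable H.r_ez.cj.summable, ev_cj]
  have eR : conj (ev τ (lapLog τ c0 P X) z) = ev τ (lapLog τ c0 P X) z := by
    rw [eL]
    simp only [map_sub, map_mul, Complex.conj_conj, H.conj_J, H.conj_ezb]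
    ring
  have hn : noMean (sym (lapLog τ c0 P X)) =
      sym (lapLog τ c0 P X) - sym (lapLog τ c0 P X) 0 • one := by
    funext k
    by_cases hk : k = 0 <;> simp [noMean, one, hk]
  have hs : ev τ (sym (lapLog τ c0 P X)) z = ev τ (lapLog τ c0 P X) z := by
    rw [sym, ev_smul, ev_add H.r_lapLog.summable H.r_lapLog.cj.summable, ev_cj, eR]
    ring
  rw [dzb_dz_vv H.d_zero H.im, ev_smul, H.d_eq, dMap, ev_smul, hn,
    ev_sub H.r_lapLog.sym.summable ((rapid_one (τ := τ)).smul _).summable, ev_smul, ev_one, hs, eL]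
  ring

theorem flip_vv : flip (vv τ X) = vv τ X := by
  funext k
  have e : (-1 : ℂ) ^ k.1 * X.d (k.1, -k.2) = X.d k := congrFun H.sol.flip_d k
  simp only [flip, vv, mult, ← conj_om H.re, RCLike.norm_conj]
  linear_combination -(((‖om τ k‖ ^ 2 : ℝ) : ℂ))⁻¹ * e

theorem Th_flip (z : ℂ) : Th τ X (conj z + 1 / 2) = conj (Th τ X z) + 1 / 2 := by
  have hp : flip (pp τ X) = cj (pp τ X) := by
    funext k
    have e : (-1 : ℂ) ^ k.1 * X.q (k.1, -k.2) = conj (X.q (-k)) := congrFun H.sol.flip_q k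
    simp only [flip, cj, pp, mult, mzb, ← conj_om H.re, map_mul, map_inv₀, map_div₀, map_ofNat,
      Complex.conj_I, om_neg, map_neg]
    linear_combination (Complex.I / 2 * conj (om τ k))⁻¹ * e
  simp only [Th, ev_flip H.re, hp, ev_cj, map_add, map_mul, map_sub, Complex.conj_conj, H.q0_real,
    map_div₀, map_one, map_ofNat]
  ring

theorem deriv_aLink_hgt (z : ℂ) :
    ((deriv (aLink P.n P.M P.K) (Th τ X z).im : ℝ) : ℂ) = ev τ (a1 τ P X) z := by
  set x : ℝ := P.K * (Th τ X z).im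
  have hW : ev τ (wave τ P X) z = Complex.exp (((2 * x : ℝ) : ℂ) * Complex.I) := by
    rw [H.ev_wave, hgt_eq]
    congr 1
    push_cast [x]
    ring
  have hsin : ev τ (sin2 τ P X) z = (Real.sin (2 * x) : ℂ) := by
    rw [H.ev_sin2, hW, Complex.sub_conj, Complex.exp_ofReal_mul_I_im]
    push_cast
    field_simp
  have hcos : ev τ (cos2 τ P X) z = (Real.cos (2 * x) : ℂ) := by
    rw [H.ev_cos2, hW, Complex.add_conj, Complex.exp_ofReal_mul_I_re]
    push_cast
    ring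
  have htt : ev τ (tt τ P X) z = ((Real.sin x ^ 2 : ℝ) : ℂ) := by
    rw [H.ev_tt, hcos, Real.sin_sq_eq_half_sub]
    push_cast
    ring
  rw [deriv_aLink, H.ev_a1, H.ev_hp1, hsin, htt]
  simp only [amp, x]
  push_cast
  ring

end Hyp

end Conf

open Vale.Agent.P205.Klein.Conf in
/-- A solution whose lattice fits gives a conformal pair. -/
theorem conformalThm : ConformalThm := by
  intro T hT c0 hc hreal hflip P X hs hshape
  set τ : ℂ := T * Complex.I with hτd
  have hre : τ.re = 0 := by simp [hτd]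
  have him : τ.im = T := by simp [hτd]
  have H : Hyp τ c0 P X :=
    ⟨hre, by rw [him]; exact hT.ne', hc, hreal, hs, by rw [him]; exact hshape⟩
  obtain ⟨C, hC, hE⟩ := H.energy_eq
  set U : ℂ → ℝ := fun z => (ev τ (c0 + vv τ X) z).re with hU
  have hdU : ∀ z w, fderiv ℝ U z w = 2 * (ev τ (uz τ c0 X) z * w).re := fun z w => by
    have hv : HW (ev τ (c0 + vv τ X)) (ev τ (dz τ (c0 + vv τ X)) z)
        (conj (ev τ (dz τ (c0 + vv τ X)) z)) z :=
      (hw_ev H.r_c z).congr rfl (by rw [dzb_eq_cj_dz H.cj_c, ev_cj])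
    rw [hU, (hasFDerivAt_re hv).fderiv, re_dlin_apply, uz]
  refine ⟨Th τ X, U, C, hC, ?_, ?_, ?_, ?_, ?_, ?_, ?_, H.Th_flip, ?_⟩
  · exact (contDiff_id.add (contDiff_const.mul (Complex.conjCLE.contDiff.sub contDiff_id))).add
      (contDiff_ev H.r_pp)
  · exact Complex.reCLM.contDiff.comp (contDiff_ev H.r_c)
  · exact fun z => by simp only [hU, (ev_periods H.im _ z).1]
  · exact fun z => by simp only [hU, (ev_periods H.im _ z).2]
  · intro z
    have e : flip (c0 + vv τ X) = c0 + vv τ X := by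
      funext k
      have e1 := congrFun hflip k
      have e2 := congrFun H.flip_vv k
      simp only [flip] at e1 e2
      simp only [flip, Pi.add_apply, mul_add, e1, e2]
    simp only [hU, ev_flip hre, e]
  · intro z
    simp only [Th, map_add, map_one, (ev_periods H.im _ z).1]
    ring
  · intro z
    have hq : X.q 0 = ((X.q 0).re : ℂ) := (Complex.conj_eq_iff_re.1 H.q0_real).symm
    have hc' : conj τ = -τ := by apply Complex.ext <;> simp [hre]
    simp only [Th, map_add, (ev_periods H.im _ z).2, hc']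
    push_cast
    rw [← hq, hτd]
    ring
  intro z w
  rw [(H.hw_Th z).fderiv, hdU, dlin_apply]
  have hu : (ev τ c0 z).re - U z = -(ev τ (vv τ X) z).re := by
    simp only [hU, ev_add hc.summable H.r_vv.summable, Complex.add_re]
    ring
  rw [hu, mul_neg, ← neg_mul, ← hE z]
  have ha : (aLink P.n P.M P.K (Th τ X z).im : ℂ) = ev τ (aa τ P X) z := by
    set x : ℝ := P.K * (Th τ X z).im
    have htt : ev τ (tt τ P X) z = ((Real.sin x ^ 2 : ℝ) : ℂ) := by
      rw [H.ev_tt, H.ev_cos2, H.ev_wave, Hyp.hgt_eq, Complex.add_conj,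
        show 2 * (P.K : ℂ) * Complex.I * ((Th τ X z).im : ℂ) = ((2 * x : ℝ) : ℂ) * Complex.I by
          push_cast [x]; ring,
        Complex.exp_ofReal_mul_I_re, Real.sin_sq_eq_half_sub]
      push_cast
      ring
    rw [H.ev_aa, htt, aLink, amp]
    push_cast [x]
    ring
  have hsq : ∀ u : ℂ, ((‖u‖ : ℂ)) ^ 2 = u * conj u := fun u => by
    rw [Complex.mul_conj, Complex.normSq_eq_norm_sq]
    push_cast
    rfl
  have hrv : ∀ u : ℂ, ((u.re : ℝ) : ℂ) = (2 : ℂ)⁻¹ * (u + conj u) := fun u => by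
    rw [Complex.add_conj]
    push_cast
    ring
  have hiv : ∀ u : ℂ, ((u.im : ℝ) : ℂ) = (2 * Complex.I)⁻¹ * (u - conj u) := fun u => by
    rw [Complex.sub_conj]
    push_cast
    field_simp
  apply Complex.ofReal_injective
  push_cast
  rw [ha, H.deriv_aLink_hgt, hrv, hiv, hsq, hsq, Complex.conj_eq_iff_re.1 (H.conj_E z)]
  set E := ev τ (uz τ c0 X) z
  set q := ev τ X.q z
  have g := H.G_eq z
  have g' := congrArg conj g
  have hB := H.ev_bz z
  rw [H.ev_th] at hB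
  have hB' := congrArg conj hB
  simp only [map_add, map_mul, map_sub, map_inv₀, map_ofNat, Complex.conj_I, Complex.conj_conj,
    map_zero, H.conj_aa, H.conj_a1] at g' hB' ⊢
  rw [EE]
  simp only [mul_inv, inv_neg, Complex.inv_I] at hB hB' ⊢
  linear_combination w * w * g + conj w * conj w * g' -
    (E * w * w + conj E * conj w * w) * hB - (E * w * conj w + conj E * conj w * conj w) * hB'

end Vale.Agent.P205.Klein
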