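import Vale.Agent.P205.Torus.Pins

/-!
Klein bottles: the explicit squared radius of the base immersion, and the statements of the two
self-contained pieces (the base immersion and the exponential in the algebra).
-/

noncomputable section

open ComplexConjugate
open scoped ContDiff ENNReal NNReal
open Vale.Agent.P205.Torus

namespace Vale.Agent.P205.Klein

/-- The cubic correction in the first radius. -/
def bLink (n M K : ℝ) : ℝ := (1 - n ^ 4 / (M ^ 2 * K ^ 2)) / 6

/-- The squared radius of the base immersion, as a function of the height. -/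
def aLink (n M K y : ℝ) : ℝ :=
  1 / M ^ 2 + (1 - n ^ 2 / M ^ 2) / K ^ 2 *
    (Real.sin (K * y) + bLink n M K * Real.sin (K * y) ^ 3) ^ 2

/-- Flat Klein bottles of almost constant radius, in the universal cover. -/
def LinkThm : Prop :=
  ∀ (m : ℕ) (n M K : ℝ), n = 2 * Real.pi * (2 * m + 1) → M = n + 2 * Real.pi →
    2 * n ≤ K → K ≤ 3 * n → ∃ R : ℂ → EuclideanSpace ℝ (Fin 4), ContDiff ℝ ∞ R ∧
      (∀ z, R (z + 1) = R z) ∧ (∀ z, R (z + (2 * Real.pi / K : ℝ) * Complex.I) = R z) ∧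
      (∀ z, R (conj z + 1 / 2) = R z) ∧ (∀ z w, ‖fderiv ℝ R z w‖ = ‖w‖) ∧
      ∀ z, ‖R z‖ ^ 2 = aLink n M K z.im

/-- Powers in the algebra. -/
def cpow (P : Cf) : ℕ → Cf
  | 0 => one
  | N + 1 => conv P (cpow P N)

/-- The exponential in the algebra. -/
def expc (P : Cf) : Cf := fun k => ∑' N : ℕ, (N.factorial : ℂ)⁻¹ * cpow P N k

/-- The glide reflection on families. -/
def flip (c : Cf) : Cf := fun k => (-1 : ℂ) ^ k.1 * c (k.1, -k.2)

/-- The properties of the exponential that are used. -/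
def ExpThm : Prop :=
  (∀ (w : Idx → ℝ≥0) (P : Cf) (r : ℝ≥0), IsW w → nw w P ≤ r →
    nw w (expc P) ≤ ENNReal.ofReal (Real.exp r)) ∧
  (∀ (w : Idx → ℝ≥0) (P Q : Cf) (r : ℝ≥0), IsW w → nw w P ≤ r → nw w Q ≤ r →
    nw w (expc P - expc Q) ≤ ENNReal.ofReal (Real.exp r) * nw w (P - Q)) ∧
  (∀ (τ : ℂ) (P : Cf), Rapid τ P →
    Rapid τ (expc P) ∧ ∀ z, ev τ (expc P) z = Complex.exp (ev τ P z)) ∧
  (∀ P : Cf, cj (expc P) = expc (cj P)) ∧
  ∀ P : Cf, flip (expc P) = expc (flip P)

end Vale.Agent.P205.Klein
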