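import Vale.Agent.P205.Klein.Grade

/-!
The grades of the coefficients and of the four components of the Klein bottle map.
-/

noncomputable section

open ComplexConjugate
open scoped ENNReal NNReal
open Vale.Agent.P205.Torus

namespace Vale.Agent.P205.Klein.Fix

variable {e : Env} {x : Ctx} {p d : ℕ} {f : Par → St → Cf}

/-! ### Scalars -/

theorem Ok.facts (h : Ok e x) : 1 ≤ x.P.n ∧ x.P.n ≤ x.P.M ∧ (x.θ : ℝ) = 1 / x.P.n := by
  have hθ : (0 : ℝ) < x.θ := by exact_mod_cast h.pos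
  have hθ1 : (x.θ : ℝ) ≤ 1 := by exact_mod_cast h.θ_le
  refine ⟨?_, by rw [h.hM]; linarith [Real.two_pi_pos], ?_⟩
  · nlinarith [h.inv]
  · rw [eq_div_iff]
    · exact h.inv
    · intro h0; simpa [h0] using h.inv

theorem scl_ofReal {g : Par → ℝ} (A : ℝ≥0)
    (h : ∀ x, Ok e x → |g x.P| ≤ A * (x.θ : ℝ) ^ p ∧ |g x.P'| ≤ A * (x.θ : ℝ) ^ p ∧
      |g x.P - g x.P'| ≤ A * (x.θ : ℝ) ^ p * x.D) : Scl e p fun P => (g P : ℂ) := by
  refine ⟨A, fun x hx => ?_⟩
  simp only [← Complex.ofReal_sub, Complex.nnnorm_real, ← NNReal.coe_le_coe, coe_nnnorm,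
    Real.norm_eq_abs, NNReal.coe_mul, NNReal.coe_pow]
  exact h x hx

theorem scl_nK : Scl e 0 fun P => ((P.n / P.K : ℝ) : ℂ) := by
  refine scl_ofReal 1 fun x hx => ?_
  obtain ⟨h1, -, hθ⟩ := hx.facts
  obtain ⟨a, -⟩ := hx.hK
  obtain ⟨a', -⟩ := hx.hK'
  simp only [NNReal.coe_one, one_mul, pow_zero, hx.eq_n]
  have hn : 0 < x.P.n := by linarith
  have b : ∀ K, 2 * x.P.n ≤ K → |x.P.n / K| ≤ 1 := fun K hK => by
    rw [abs_of_nonneg (div_nonneg hn.le (by linarith)), div_le_one (by linarith)]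
    linarith
  refine ⟨b _ a, b _ a', ?_⟩
  have k : 0 < x.P.K := by linarith
  have k' : 0 < x.P'.K := by linarith
  rw [div_sub_div _ _ k.ne' k'.ne', abs_div, abs_of_pos (mul_pos k k'),
    show x.P.n * x.P'.K - x.P.K * x.P.n = -(x.P.n * (x.P.K - x.P'.K)) by ring, abs_neg, abs_mul,
    abs_of_pos hn, div_le_iff₀ (mul_pos k k')]
  have hd := hx.hdK
  rw [hθ, div_mul_eq_mul_div, one_mul, div_le_iff₀ hn] at hd
  calc x.P.n * |x.P.K - x.P'.K| ≤ x.P.n * (x.D * x.P.n) := mul_le_mul_of_nonneg_left hd hn.le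
    _ = x.D * (x.P.n * x.P.n) := by ring
    _ ≤ x.D * (x.P.K * x.P'.K) := mul_le_mul_of_nonneg_left
      (mul_le_mul (by linarith) (by linarith) hn.le k.le) x.D.coe_nonneg

theorem scl_invn : Scl e 1 fun P => ((1 / P.n : ℝ) : ℂ) := by
  refine scl_ofReal 1 fun x hx => ?_
  obtain ⟨h1, -, hθ⟩ := hx.facts
  simp [hx.eq_n, hθ, abs_of_pos (show 0 < x.P.n by linarith)]
  positivity

theorem scl_nM : Scl e 0 fun P => ((P.n / P.M : ℝ) : ℂ) := by
  refine scl_ofReal 1 fun x hx => ?_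
  obtain ⟨h1, h2, -⟩ := hx.facts
  simp [hx.eq_n, hx.eq_M, abs_of_pos (div_pos (show 0 < x.P.n by linarith)
    (show 0 < x.P.M by linarith)), div_le_one (show 0 < x.P.M by linarith), h2]

theorem scl_gap : Scl e 1 fun P => ((1 - P.n ^ 2 / P.M ^ 2 : ℝ) : ℂ) := by
  refine scl_ofReal (4 * Real.pi).toNNReal fun x hx => ?_
  obtain ⟨h1, h2, hθ⟩ := hx.facts
  simp only [hx.eq_n, hx.eq_M, sub_self, abs_zero, pow_one, hθ,
    Real.coe_toNNReal _ (by positivity : (0 : ℝ) ≤ 4 * Real.pi)]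
  have hM : 0 < x.P.M := by linarith
  have key : |1 - x.P.n ^ 2 / x.P.M ^ 2| ≤ 4 * Real.pi * (1 / x.P.n) := by
    rw [one_sub_div (by positivity), abs_div, abs_of_pos (pow_pos hM 2),
      abs_of_nonneg (by nlinarith), ← mul_div_assoc, mul_one, div_le_div_iff₀ (by positivity)
      (by linarith), hx.hM]
    nlinarith [Real.pi_pos, mul_pos Real.pi_pos Real.pi_pos]
  exact ⟨key, key, mul_nonneg ((abs_nonneg _).trans key) x.D.coe_nonneg⟩

theorem scl_invK : Scl e 1 fun P => ((1 / P.K : ℝ) : ℂ) := by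
  refine (scl_invn.mul scl_nK).congr fun x hx => ?_
  obtain ⟨h1, -, -⟩ := hx.facts
  have := hx.hK.1
  have := hx.hK'.1
  simp only [hx.eq_n, ← Complex.ofReal_mul]
  constructor <;> congr 1 <;> field_simp

theorem scl_invM2 : Scl e 2 fun P => ((1 / P.M ^ 2 : ℝ) : ℂ) := by
  refine ((scl_invn.mul scl_invn).mul (scl_nM.mul scl_nM)).congr fun x hx => ?_
  obtain ⟨h1, -, -⟩ := hx.facts
  simp only [hx.eq_n, hx.eq_M, ← Complex.ofReal_mul]
  constructor <;> congr 1 <;> field_simp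

theorem scl_bLink : Scl e 0 fun P => (bLink P.n P.M P.K : ℂ) := by
  refine ((Scl.const (1 / 6)).mul ((Scl.const 1).add
    ((Scl.const (-1)).mul ((scl_nM.mul scl_nM).mul (scl_nK.mul scl_nK))))).congr fun x _ => ?_
  constructor <;> simp only [bLink] <;> push_cast <;> ring

theorem scl_amp : Scl e 3 fun P => (amp P : ℂ) := by
  refine ((scl_gap.mul scl_invK).mul scl_invK).congr fun x _ => ?_
  constructor <;> simp only [amp] <;> push_cast <;> ring

theorem scl_ampK : Scl e 2 fun P => ((amp P * P.K : ℝ) : ℂ) := by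
  refine (scl_gap.mul scl_invK).congr fun x hx => ?_
  obtain ⟨h1, -, -⟩ := hx.facts
  have := hx.hK.1
  have := hx.hK'.1
  simp only [amp, ← Complex.ofReal_mul]
  have k : x.P.K ≠ 0 := by linarith
  have k' : x.P'.K ≠ 0 := by linarith
  constructor <;> congr 1
  · field_simp
  · field_simp

theorem scl_ampK2 : Scl e 1 fun P => ((amp P * P.K ^ 2 : ℝ) : ℂ) := by
  refine scl_gap.congr fun x hx => ?_
  obtain ⟨h1, -, -⟩ := hx.facts
  have := hx.hK.1
  have := hx.hK'.1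
  simp only [amp]
  constructor <;> congr 1 <;> rw [div_mul_cancel₀] <;> apply pow_ne_zero <;> linarith

/-- The phase gains one power. -/
theorem cls_byK (h : Cls e wA (p + 1) d f) :
    Cls e wA p d fun P X => (2 * P.K * Complex.I : ℂ) • f P X := by
  obtain ⟨A, hA⟩ := h
  refine ⟨12 * A, fun x hx => ?_⟩
  obtain ⟨h1, -, hθ⟩ := hx.facts
  have hn : 0 < x.P.n := by linarith
  have bd : ∀ K, K ∈ Set.Icc (2 * x.P.n) (3 * x.P.n) →
      ‖(2 * K * Complex.I : ℂ)‖₊ ≤ 6 / x.θ := fun K hK => by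
    rw [← NNReal.coe_le_coe, coe_nnnorm, NNReal.coe_div, hθ, NNReal.coe_ofNat, div_div_eq_mul_div,
      div_one]
    simp [abs_of_nonneg (show 0 ≤ K by linarith [hK.1])]
    linarith [hK.2]
  convert (hA x hx).smul hx (bd _ hx.hK) (bd _ hx.hK') ?_ using 1
  · field_simp [hx.pos.ne']
    ring
  · rw [← NNReal.coe_le_coe, coe_nnnorm, NNReal.coe_mul, NNReal.coe_div, NNReal.coe_ofNat,
      show (2 * x.P.K * Complex.I : ℂ) - 2 * x.P'.K * Complex.I
        = ((2 * (x.P.K - x.P'.K) : ℝ) : ℂ) * Complex.I by push_cast; ring]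
    simp only [norm_mul, Complex.norm_I, mul_one, Complex.norm_real, Real.norm_eq_abs,
      abs_two]
    rw [div_mul_eq_mul_div, le_div_iff₀ (by exact_mod_cast hx.pos)]
    nlinarith [hx.hdK, x.D.coe_nonneg]

/-! ### The unknowns -/

theorem cls_d : Cls e w0 0 1 fun _ X => X.d := by
  refine ⟨1, fun x hx => ⟨?_, ?_, ?_⟩⟩ <;> simp only [one_mul, pow_zero, sz, lp, w0]
  · simpa using hx.szX.d
  · simpa using hx.szY.d
  · exact hx.near.d

theorem cls_q : Cls e wA 0 1 fun _ X => X.q := by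
  refine ⟨1, fun x hx => ⟨?_, ?_, ?_⟩⟩ <;> simp only [one_mul, pow_zero, sz, lp, wA]
  · simpa using hx.szX.q1
  · simpa using hx.szY.q1
  · exact hx.near.q1

theorem cls_q0 : Cls e w0 1 1 fun _ X => X.q := by
  refine ⟨1, fun x hx => ⟨?_, ?_, ?_⟩⟩ <;> simp only [one_mul, mul_one, pow_one, sz, lp, w0]
  · simpa using hx.szX.q
  · simpa using hx.szY.q
  · exact hx.near.q

theorem cls_i : Cls e wA 0 1 fun _ X => X.i := by
  refine ⟨64, fun x hx => ⟨?_, ?_, ?_⟩⟩ <;> simp only [mul_one, pow_zero, sz, lp, wA]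
  · simpa using hx.szX.i
  · simpa using hx.szY.i
  · exact hx.near.i

theorem cls_j : Cls e w0 0 1 fun _ X => X.j := by
  refine ⟨1, fun x hx => ⟨?_, ?_, ?_⟩⟩ <;> simp only [one_mul, pow_zero, sz, lp, w0]
  · simpa using hx.szX.j
  · simpa using hx.szY.j
  · exact hx.near.j

/-- The multiplier of the holomorphic derivative minus one. -/
def bkm (τ : ℂ) : Idx → ℂ := fun k => if k = 0 then -1 else conj (om τ k) / om τ k

theorem bk_eq (τ : ℂ) (X : St) : bk τ X = mult (bkm τ) X.q := by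
  funext k
  by_cases h : k = 0
  · simp [h, bk, bkm, bq, mult, one, om_zero]
  · simp [h, bk, bkm, bq, mult, one]

theorem nnnorm_bkm_le (τ : ℂ) (k : Idx) : ‖bkm τ k‖₊ ≤ 1 := by
  unfold bkm
  split_ifs
  · simp
  · exact nnnorm_bq_mult k

theorem cls_bk : Cls e wA 0 1 fun _ X => bk e.τ X := by
  simp only [bk_eq]
  exact cls_q.mult (K := 1) fun x _ k => (mul_le_mul_right (nnnorm_bkm_le _ k) _).trans_eq (by simp)

theorem cls_bk0 : Cls e w0 1 1 fun _ X => bk e.τ X := by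
  simp only [bk_eq]
  exact cls_q0.mult (K := 1) fun x _ k => (mul_le_mul_right (nnnorm_bkm_le _ k) _).trans_eq (by simp)

theorem Cls.half (h : Cls e wA p d f) {m : Idx → ℂ} (hm : ∀ k, ‖m k‖₊ = ‖om e.τ k‖₊ / 2) :
    Cls e w0 p d fun P X => Torus.mult m (f P X) :=
  h.mult (K := 1) fun x _ k => by
    rw [hm, one_mul]
    exact mul_le_mul_right ((half_le_self zero_le).trans le_add_self) _

theorem cls_dzb_q : Cls e w0 0 1 fun _ X => dzb e.τ X.q := cls_q.half nnnorm_mzb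

theorem cls_dz_q : Cls e w0 0 1 fun _ X => dz e.τ X.q := cls_q.half nnnorm_mz

theorem cls_dz_bq : Cls e w0 0 1 fun _ X => dz e.τ (bq e.τ X) :=
  (cls_q.mult (W' := wA) (m := fun k => conj (om e.τ k) / om e.τ k) (K := 1) fun x _ k =>
    (mul_le_mul_right (nnnorm_bq_mult k) _).trans_eq (by simp)).half nnnorm_mz

/-- The logarithm of the radius, differentiated. -/
theorem cls_rad {W : Wt} [GoodW W] {m : Idx → ℂ} (hR : ∀ x, Ok e x → nw (W e x) (mult m e.c0) ≤ e.R)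
    (hm : ∀ x, Ok e x → ∀ k, W e x k * ‖m k * -((‖om e.τ k‖ ^ 2 : ℝ) : ℂ)⁻¹‖₊ ≤
      invBd e.τ * x.w k) :
    Cls e W 0 0 fun _ X => mult m (e.c0 + vv e.τ X) := by
  have h : Cls e W 0 0 fun _ X => mult m e.c0 +
      mult (fun k => m k * -((‖om e.τ k‖ ^ 2 : ℝ) : ℂ)⁻¹) X.d :=
    (cls_const hR).add (cls_d.drop.mult hm)
  convert h using 3 with P X
  rw [mult_add]; congr 1; funext k; simp [vv, mult, mul_assoc]

theorem nnnorm_vvm (τ : ℂ) (k : Idx) :
    ‖-((‖om τ k‖ ^ 2 : ℝ) : ℂ)⁻¹‖₊ = (‖om τ k‖₊ ^ 2)⁻¹ := by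
  rw [nnnorm_neg, nnnorm_inv, Complex.nnnorm_real]; congr 1; ext; simp

theorem dz_dz (m m' : Idx → ℂ) (c : Cf) : mult m (mult m' c) = mult (fun k => m k * m' k) c := by
  funext k; simp [mult, mul_assoc]

theorem cls_uz : Cls e wA 0 0 fun _ X => uz e.τ e.c0 X :=
  cls_rad (m := mz e.τ) (fun _ hx => hx.dat.1) fun x hx k => by
    rw [nnnorm_mul, nnnorm_vvm, nnnorm_mz, wA, w1, mul_comm (invBd e.τ), mul_assoc]
    exact mul_le_mul_right (mult_vv_bound hx.hτ k).1 _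

theorem cls_uzz : Cls e w0 0 0 fun _ X => uzz e.τ e.c0 X := by
  simp only [uzz, dz, dz_dz]
  refine cls_rad (fun x hx => ?_) fun x hx k => ?_
  · have := hx.dat.2.1; rwa [dz, dz, dz_dz] at this
  · rw [nnnorm_mul, nnnorm_vvm, nnnorm_mul, nnnorm_mz, mul_comm (invBd e.τ)]
    exact mul_le_mul_right (mult_vv_bound hx.hτ k).2 _

theorem cls_uzb : Cls e w0 0 0 fun _ X => uzb e.τ e.c0 X := by
  simp only [uzb, dz, dzb, dz_dz]
  refine cls_rad (fun x hx => ?_) fun x hx k => ?_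
  · have := hx.dat.2.2; rwa [dz, dzb, dz_dz] at this
  · rw [nnnorm_mul, nnnorm_vvm, nnnorm_mul, nnnorm_mz, nnnorm_mzb, mul_comm (invBd e.τ)]
    exact mul_le_mul_right (mult_vv_bound hx.hτ k).2 _

/-! ### The wave -/

theorem cls_imp : Cls e wA 1 1 fun _ X => imp e.τ X := by
  have h : Cls e wA 1 1 fun _ X => pp e.τ X := cls_q0.mult (K := 2 * invBd e.τ) fun x hx k => by
    rw [wA, w1, mul_assoc, nnnorm_inv, nnnorm_mzb, inv_div, mul_comm _ (w0 e x k)]
    refine mul_le_mul_right ?_ _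
    by_cases hk : k = 0
    · simp [hk, om_zero]
    have hm := omMin_pos hx.hτ
    have hle := le_norm_om hx.hτ hk
    have hxk : (0 : ℝ) < ‖om e.τ k‖ := hm.trans_le hle
    rw [← NNReal.coe_le_coe]
    simp only [invBd, NNReal.coe_mul, NNReal.coe_add, NNReal.coe_one, NNReal.coe_div,
      NNReal.coe_ofNat, coe_nnnorm, Real.coe_toNNReal _ (inv_nonneg.2 hm.le)]
    rw [show (1 + ‖om e.τ k‖) * (2 / ‖om e.τ k‖) = 2 * (‖om e.τ k‖⁻¹ + 1) by field_simp]
    linarith [inv_anti₀ hm hle]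
  exact (h.sub h.cj).smul _

theorem cls_expc (hE : ExpThm) (h : Cls e wS 0 d f) : Cls e wS 0 0 fun P X => expc (f P X) := by
  obtain ⟨A, hA⟩ := h
  refine ⟨Real.toNNReal (Real.exp A) * (1 + A), fun x hx => ?_⟩
  have g := hA x hx
  have hr : ∀ {c : Cf}, nw (wS e x) c ≤ ((A * x.θ ^ 0 * sz x.θ x.η d : ℝ≥0) : ℝ≥0∞) →
      nw (wS e x) c ≤ A := fun hc => hc.trans (ENNReal.coe_le_coe.2 (by
    rw [pow_zero, mul_one]; exact mul_le_of_le_one_right' (sz_le_one hx d)))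
  have hw := isW_ws (τ := e.τ) (θ := x.θ) hx.hw
  refine ⟨(hE.1 _ _ _ hw (hr g.left)).trans (ENNReal.coe_le_coe.2 ?_),
    (hE.1 _ _ _ hw (hr g.right)).trans (ENNReal.coe_le_coe.2 ?_),
    (hE.2.1 _ _ _ _ hw (hr g.left) (hr g.right)).trans ?_⟩
  · simpa [sz] using le_mul_of_one_le_right' (le_add_self : (1:ℝ≥0) ≤ A + 1) |>.trans_eq (by rw [add_comm])
  · simpa [sz] using le_mul_of_one_le_right' (le_add_self : (1:ℝ≥0) ≤ A + 1) |>.trans_eq (by rw [add_comm])
  · refine (mul_le_mul_right g.diff _).trans ?_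
    rw [ENNReal.ofReal, ← ENNReal.coe_mul, ENNReal.coe_le_coe]
    simp only [lp, pow_zero, mul_one, mul_assoc]
    gcongr
    · exact le_add_self
    · exact mul_le_of_le_one_left' (lp_le_one hx d)

theorem cls_single : Cls e wS 0 0 fun P _ => single (0, 2 * (P.j : ℤ)) := by
  refine ⟨14, fun x hx => ?_⟩
  have h : nw (wS e x) (single (0, 2 * (x.P.j : ℤ))) ≤ ((14 : ℝ≥0) : ℝ≥0∞) := by
    rw [nw, tsum_eq_single (0, 2 * (x.P.j : ℤ)) fun k hk => by simp [single, hk]]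
    simp only [single, if_true, enorm_one, mul_one, wS, ws, ENNReal.coe_le_coe]
    calc _ ≤ (2 : ℝ≥0) * (1 + 6) := by gcongr; exacts [hx.hk0, hx.hom]
      _ = 14 := by norm_num
  refine ⟨h.trans_eq (by simp [sz]), ?_, ?_⟩
  · simp only [hx.eq_j]; exact h.trans_eq (by simp [sz])
  · simp only [hx.eq_j, sub_self, nw_zero]; exact zero_le

theorem cls_wave (hE : ExpThm) : Cls e wS 0 0 fun P X => wave e.τ P X :=
  cls_single.conv (cls_expc hE (cls_byK cls_imp).toS)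

theorem cls_cos2 (hE : ExpThm) : Cls e wS 0 0 fun P X => cos2 e.τ P X :=
  ((cls_wave hE).add (cls_wave hE).cj).smul _

theorem cls_sin2 (hE : ExpThm) : Cls e wS 0 0 fun P X => sin2 e.τ P X :=
  ((cls_wave hE).sub (cls_wave hE).cj).smul _

theorem cls_tt (hE : ExpThm) : Cls e wS 0 0 fun P X => tt e.τ P X :=
  (cls_one.sub (cls_cos2 hE)).smul _

theorem cls_hp1 (hE : ExpThm) : Cls e wS 0 0 fun P X => hp1 e.τ P X := by
  have h := (cls_one.add ((cls_tt hE).scl ((Scl.const 4).mul (scl_bLink (e := e))))).add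
    (((cls_tt hE).conv (cls_tt hE)).scl ((Scl.const 3).mul (scl_bLink.mul (scl_bLink (e := e)))))
  convert h using 3 with P X
  simp [hp1, sq]

theorem cls_hp2 (hE : ExpThm) : Cls e wS 0 0 fun P X => hp2 e.τ P X := by
  have h := (cls_one.scl ((Scl.const 4).mul (scl_bLink (e := e)))).add
    ((cls_tt hE).scl ((Scl.const 6).mul (scl_bLink.mul (scl_bLink (e := e)))))
  convert h using 3 with P X
  simp [hp2, sq]

theorem cls_aa (hE : ExpThm) : Cls e wS 2 0 fun P X => aa e.τ P X :=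
  (cls_one.scl scl_invM2).add (((cls_tt hE).conv ((cls_one.add ((cls_tt hE).scl scl_bLink)).conv
    (cls_one.add ((cls_tt hE).scl scl_bLink)))).scl scl_amp).dropP

theorem cls_a1 (hE : ExpThm) : Cls e wS 2 0 fun P X => a1 e.τ P X :=
  ((cls_hp1 hE).conv (cls_sin2 hE)).scl scl_ampK

theorem cls_a2 (hE : ExpThm) : Cls e w0 0 2 fun P X => a2 e.τ P X :=
  ((((cls_hp2 hE).conv ((cls_sin2 hE).conv (cls_sin2 hE))).add
    (((cls_hp1 hE).conv (cls_cos2 hE)).smul 2)).scl scl_ampK2).small.ofS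

/-! ### The derivatives along the map -/

theorem cls_th : Cls e wA 0 0 fun _ X => th e.τ X :=
  ((cls_one.add cls_bk.drop).sub cls_q.cj.drop).smul _

theorem cls_thz : Cls e w0 0 1 fun _ X => thz e.τ X :=
  (cls_dz_bq.sub cls_dzb_q.cj).smul _

theorem cls_thb : Cls e w0 0 1 fun _ X => thb e.τ X :=
  (cls_dz_q.sub cls_dz_q.cj).smul _

theorem cls_bz (hE : ExpThm) : Cls e wA 0 2 fun P X => bz e.τ P X :=
  (((cls_a1 hE).toA).conv cls_th).small

theorem cls_bz0 (hE : ExpThm) : Cls e w0 1 2 fun P X => bz e.τ P X :=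
  (((cls_a1 hE).ofS).conv cls_th.ofA).small

theorem cls_bzz (hE : ExpThm) : Cls e w0 0 2 fun P X => bzz e.τ P X :=
  ((cls_a2 hE).conv (cls_th.ofA.conv cls_th.ofA)).add
    ((cls_a1 hE).ofS.conv cls_thz).dropP.small

theorem cls_bzb (hE : ExpThm) : Cls e w0 0 2 fun P X => bzb e.τ P X :=
  ((cls_a2 hE).conv (cls_th.ofA.conv cls_th.ofA.cj)).add
    ((cls_a1 hE).ofS.conv cls_thb).dropP.small

/-! ### The map -/

theorem cls_qMap (hE : ExpThm) : Cls e wA 0 2 fun P X => qMap e.τ e.c0 P X :=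
  ((((cls_aa hE).toA.small).conv (cls_uz.cj.conv cls_uz.cj)).add
    (cls_uz.cj.conv (cls_bz hE).cj)).conv (cls_one.add cls_i.drop) |>.neg

theorem cls_qMap0 (hE : ExpThm) : Cls e w0 1 2 fun P X => qMap e.τ e.c0 P X :=
  ((((cls_aa hE).ofS.small).conv (cls_uz.ofA.cj.conv cls_uz.ofA.cj)).add
    (cls_uz.ofA.cj.conv (cls_bz0 hE).cj)).conv (cls_one.add cls_i.ofA.drop) |>.neg

theorem cls_e2 (hE : ExpThm) : Cls e w0 0 2 fun P X => e2 e.τ e.c0 P X := by
  have b : Cls e w0 0 2 fun _ X => bk e.τ X := cls_bk0.small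
  have a : Cls e w0 0 2 fun P X => aa e.τ P X := (cls_aa hE).ofS.dropP.small
  have u : Cls e w0 0 0 fun _ X => uz e.τ e.c0 X := cls_uz.ofA
  exact (b.add b.cj).add ((((cls_bk.ofA.conv cls_bk.ofA.cj).add (cls_q.ofA.conv cls_q.ofA.cj)).add
    ((a.conv (u.conv u.cj)).smul 2)).add (((u.conv (cls_bz0 hE).dropP.cj).sym).smul 2))

theorem cls_jMap (hE : ExpThm) : Cls e w0 0 2 fun P X => jMap e.τ e.c0 P X :=
  ((cls_e2 hE).conv ((cls_one.smul 2).add cls_j.drop)).neg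

theorem cls_ez (hE : ExpThm) : Cls e w0 0 1 fun P X => ez e.τ e.c0 P X := by
  have u : Cls e w0 0 0 fun _ X => uz e.τ e.c0 X := cls_uz.ofA
  have a : Cls e w0 0 2 fun P X => aa e.τ P X := (cls_aa hE).ofS.dropP.small
  have b : Cls e w0 0 2 fun P X => bz e.τ P X := (cls_bz0 hE).dropP
  exact (((((cls_dz_bq.conv (cls_one.add cls_bk.ofA.cj.drop)).add
    (cls_dzb_q.cj.conv cls_q.ofA).drop).smul _).add (b.conv (u.conv u.cj)).drop).add
    (a.conv (cls_uzz.conv u.cj)).drop).add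
    (((cls_uzz.conv b.cj).add (u.cj.conv (cls_bzz hE))).smul _).drop |>.sub
    ((b.cj.conv (u.conv u)).smul _).drop

theorem cls_ezb (hE : ExpThm) : Cls e w0 0 2 fun P X => ezb e.τ e.c0 P X := by
  have u : Cls e w0 0 0 fun _ X => uz e.τ e.c0 X := cls_uz.ofA
  have a : Cls e w0 0 2 fun P X => aa e.τ P X := (cls_aa hE).ofS.dropP.small
  have b : Cls e w0 0 2 fun P X => bz e.τ P X := (cls_bz0 hE).dropP
  have z := cls_uzz (e := e)
  have zb := cls_uzb (e := e)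
  exact ((((cls_dz_bq.conv cls_dz_bq.cj).add (cls_dzb_q.conv cls_dzb_q.cj)).smul _).sub
    (cls_dz_q.conv cls_dz_q.cj)).add (a.conv ((z.conv z.cj).sub (zb.conv zb))) |>.add
    ((((((z.conv (cls_bzz hE).cj).sym).sub (zb.conv (cls_bzb hE))).add
      ((cls_bzb hE).conv (u.conv u.cj))).sub (((cls_bzz hE).conv (u.cj.conv u.cj)).sym)).add
      (((b.conv (u.conv z.cj)).sym).smul 2) |>.sub (((b.conv (u.cj.conv zb)).sym).smul 2))

theorem cls_jj : Cls e w0 0 0 fun _ X => Torus.jj X := (cls_one.smul 2).add cls_j.drop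

theorem cls_dMap (hE : ExpThm) : Cls e w0 0 2 fun P X => dMap e.τ e.c0 P X :=
  (((cls_jj.conv (cls_ezb hE)).sub ((cls_jj.conv cls_jj).conv
    ((cls_ez hE).conv (cls_ez hE).cj))).sym.noMean).smul _

theorem cls_iRest : Cls e wA 0 2 fun _ X => conv (cj (bk e.τ X)) X.i :=
  cls_bk.cj.conv cls_i

end Vale.Agent.P205.Klein.Fix
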