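import Vale.Agent.P205.Klein.Pins
import Vale.Agent.P205.Klein.Exp

/-!
The glide reflection: the map sends families with reflection equal to the conjugate to such
families.
-/

noncomputable section

open ComplexConjugate
open Vale.Agent.P205.Torus

namespace Vale.Agent.P205.Klein.Fix

/-- The reflection is the conjugate. -/
def Re1 (c : Cf) : Prop := flip c = cj c

/-- The reflection is minus the conjugate. -/
def Ro1 (c : Cf) : Prop := flip c = -cj c

variable {c d : Cf}

theorem flip_add' (c d : Cf) : flip (c + d) = flip c + flip d := by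
  funext k; simp [flip, mul_add]

theorem flip_neg (c : Cf) : flip (-c) = -flip c := by funext k; simp [flip]

theorem flip_smul' (s : ℂ) (c : Cf) : flip (s • c) = s • flip c := by
  funext k; simp [flip]; ring

theorem cj_add' (c d : Cf) : cj (c + d) = cj c + cj d := by funext k; simp [cj]

theorem cj_neg' (c : Cf) : cj (-c) = -cj c := by funext k; simp [cj]

theorem cj_smul' (s : ℂ) (c : Cf) : cj (s • c) = conj s • cj c := by funext k; simp [cj]

theorem cj_cj' (c : Cf) : cj (cj c) = c := by funext k; simp [cj]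

theorem flip_cj' (c : Cf) : flip (cj c) = cj (flip c) := by
  funext k
  simp [cj, flip, Prod.fst_neg, Prod.snd_neg]
  left
  rw [← inv_zpow, inv_neg, inv_one]

theorem conv_neg_left (c d : Cf) : conv (-c) d = -conv c d := by
  funext k; simp [conv, tsum_neg]

theorem conv_neg_right (c d : Cf) : conv c (-d) = -conv c d := by
  funext k; simp [conv, tsum_neg]

theorem Re1.add (h : Re1 c) (h' : Re1 d) : Re1 (c + d) := by
  rw [Re1, flip_add', cj_add', h, h']

theorem Re1.neg (h : Re1 c) : Re1 (-c) := by rw [Re1, flip_neg, cj_neg', h]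

theorem Re1.sub (h : Re1 c) (h' : Re1 d) : Re1 (c - d) := sub_eq_add_neg c d ▸ h.add h'.neg

theorem Re1.cj (h : Re1 c) : Re1 (Torus.cj c) := by rw [Re1, flip_cj', h]

theorem Ro1.cj (h : Ro1 c) : Ro1 (Torus.cj c) := by rw [Ro1, flip_cj', h, cj_neg']

theorem Re1.smul (h : Re1 c) {s : ℂ} (hs : conj s = s) : Re1 (s • c) := by
  rw [Re1, flip_smul', cj_smul', h, hs]

theorem Ro1.smul (h : Ro1 c) {s : ℂ} (hs : conj s = s) : Ro1 (s • c) := by
  rw [Ro1, flip_smul', cj_smul', h, hs, smul_neg]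

theorem Re1.smulI (h : Re1 c) {s : ℂ} (hs : conj s = -s) : Ro1 (s • c) := by
  rw [Ro1, flip_smul', cj_smul', h, hs, neg_smul, neg_neg]

theorem Ro1.smulI (h : Ro1 c) {s : ℂ} (hs : conj s = -s) : Re1 (s • c) := by
  rw [Re1, flip_smul', cj_smul', h, hs, neg_smul, smul_neg]

theorem Re1.conv (h : Re1 c) (h' : Re1 d) : Re1 (Torus.conv c d) := by
  rw [Re1, flip_conv, cj_conv, h, h']

theorem Re1.convO (h : Re1 c) (h' : Ro1 d) : Ro1 (Torus.conv c d) := by
  rw [Ro1, flip_conv, cj_conv, h, h', conv_neg_right]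

theorem Ro1.convE (h : Ro1 c) (h' : Re1 d) : Ro1 (Torus.conv c d) := by
  rw [Ro1, flip_conv, cj_conv, h, h', conv_neg_left]

theorem Ro1.conv (h : Ro1 c) (h' : Ro1 d) : Re1 (Torus.conv c d) := by
  rw [Re1, flip_conv, cj_conv, h, h', conv_neg_left, conv_neg_right, neg_neg]

theorem re1_zero : Re1 0 := by funext k; simp [flip, Torus.cj]

theorem re1_one : Re1 one := by
  funext k
  obtain ⟨a, b⟩ := k
  by_cases h : a = 0 ∧ b = 0
  · obtain ⟨rfl, rfl⟩ := h; simp [flip, Torus.cj, one]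
  · simp only [flip, Torus.cj, one, Prod.neg_mk, Prod.mk_eq_zero, neg_eq_zero]
    simp [h]

theorem re1_single (j : ℤ) : Re1 (single (0, j)) := by
  funext k
  obtain ⟨a, b⟩ := k
  by_cases h : a = 0 ∧ -b = j
  · obtain ⟨rfl, rfl⟩ := h; simp [flip, Torus.cj, single]
  · simp only [flip, Torus.cj, single, Prod.neg_mk, Prod.mk.injEq, neg_eq_zero]
    simp [h]

theorem Re1.sym (h : Re1 c) : Re1 (Torus.sym c) := (h.add h.cj).smul (by simp [map_ofNat])

theorem Re1.mult (h : Re1 c) {m : Idx → ℂ} (hm : ∀ k : Idx, m (k.1, -k.2) = conj (m (-k))) :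
    Re1 (Torus.mult m c) := by
  funext k
  have := congrFun h k
  simp only [flip, Torus.cj] at this
  simp only [flip, Torus.cj, Torus.mult, map_mul, hm]
  rw [← this]
  ring

theorem Re1.noMean (h : Re1 c) : Re1 (Torus.noMean c) := by
  have e : Torus.noMean c = Torus.mult (fun k => if k = 0 then 0 else 1) c :=
    funext fun k => by by_cases hk : k = 0 <;> simp [Torus.noMean, Torus.mult, hk]
  rw [e]
  refine h.mult fun k => ?_
  obtain ⟨a, b⟩ := k
  by_cases hk : a = 0 ∧ b = 0 <;> simp [Prod.mk_eq_zero, hk]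

/-- A reflected lattice. -/
def RefLat (τ : ℂ) : Prop := ∀ k : Idx, om τ (k.1, -k.2) = conj (om τ k)

theorem refLat_mul_I (T : ℝ) : RefLat (T * Complex.I) := fun k => by
  apply Complex.ext
  · rw [Complex.conj_re, om_re, om_re]
  · rw [Complex.conj_im, om_im, om_im]
    simp
    ring

variable {τ : ℂ}

theorem Re1.dz (h : Re1 c) (ht : RefLat τ) : Re1 (dz τ c) :=
  h.mult fun k => by simp [mz, ht k, om_neg, map_ofNat]; ring

theorem Re1.dzb (h : Re1 c) (ht : RefLat τ) : Re1 (dzb τ c) :=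
  h.mult fun k => by simp [mzb, ht k, om_neg, map_ofNat]; ring

/-- The symmetric states. -/
structure SymSt (X : St) : Prop where
  d : Re1 X.d
  q : Re1 X.q
  i : Re1 X.i
  j : Re1 X.j

variable {c0 : Cf} {P : Par} {X : St}

/-- The step keeps the symmetry. -/
theorem step_symSt (hE : ExpThm) (ht : RefLat τ) (hc : Re1 c0) (hX : SymSt X) :
    SymSt (step τ c0 P X) := by
  have I2 : conj (2 * Complex.I)⁻¹ = -(2 * Complex.I)⁻¹ := by simp [map_ofNat]
  have hbq : Re1 (bq τ X) := hX.q.mult fun k => by simp [ht k, om_neg, neg_div_neg_eq]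
  have hbk : Re1 (bk τ X) := by
    refine hbq.sub (re1_one.smul ?_)
    have h := congrFun hX.q 0
    simpa [flip, Torus.cj, Prod.mk_zero_zero] using h.symm
  have hpp : Re1 (pp τ X) := hX.q.mult fun k => by
    simp [mzb, ht k, om_neg, map_ofNat]
  have himp : Ro1 (imp τ X) := (hpp.sub hpp.cj).smulI I2
  have hexp : Re1 (expc ((2 * P.K * Complex.I) • imp τ X)) := by
    rw [Re1, hE.2.2.2.2, hE.2.2.2.1, himp.smulI (s := (2 * P.K * Complex.I : ℂ)) (by simp [map_ofNat])]
  have hw : Re1 (wave τ P X) := (re1_single _).conv hexp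
  have hcos : Re1 (cos2 τ P X) := (hw.add hw.cj).smul (by simp [map_ofNat])
  have hsin : Ro1 (sin2 τ P X) := (hw.sub hw.cj).smulI I2
  have htt : Re1 (tt τ P X) := (re1_one.sub hcos).smul (by simp [map_ofNat])
  have hh1 : Re1 (hp1 τ P X) := (re1_one.add (htt.smul (Complex.conj_ofReal _))).add
    ((htt.conv htt).smul (Complex.conj_ofReal _))
  have hh2 : Re1 (hp2 τ P X) :=
    (re1_one.smul (Complex.conj_ofReal _)).add (htt.smul (Complex.conj_ofReal _))
  have haa : Re1 (aa τ P X) := (re1_one.smul (Complex.conj_ofReal _)).add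
    ((htt.conv ((re1_one.add (htt.smul (Complex.conj_ofReal _))).conv
      (re1_one.add (htt.smul (Complex.conj_ofReal _))))).smul (Complex.conj_ofReal _))
  have ha1 : Ro1 (a1 τ P X) := (hh1.convO hsin).smul (Complex.conj_ofReal _)
  have ha2 : Re1 (a2 τ P X) := ((hh2.conv (hsin.conv hsin)).add
    ((hh1.conv hcos).smul (by simp [map_ofNat]))).smul (Complex.conj_ofReal _)
  have hth : Ro1 (th τ X) := ((re1_one.add hbk).sub hX.q.cj).smulI I2
  have hthz : Ro1 (thz τ X) := ((hbq.dz ht).sub (hX.q.dzb ht).cj).smulI I2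
  have hthb : Ro1 (thb τ X) := ((hX.q.dz ht).sub (hX.q.dz ht).cj).smulI I2
  have hbz : Re1 (bz τ P X) := ha1.conv hth
  have hbzz : Re1 (bzz τ P X) := (ha2.conv (hth.conv hth)).add (ha1.conv hthz)
  have hbzb : Re1 (bzb τ P X) := (ha2.conv (hth.conv hth.cj)).add (ha1.conv hthb)
  have hv : Re1 (c0 + vv τ X) := hc.add (hX.d.mult fun k => by
    simp [ht k, om_neg])
  have hu : Re1 (uz τ c0 X) := hv.dz ht
  have hzz : Re1 (uzz τ c0 X) := (hv.dz ht).dz ht
  have hzb : Re1 (uzb τ c0 X) := (hv.dzb ht).dz ht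
  have hjj : Re1 (Torus.jj X) := (re1_one.smul (by simp [map_ofNat])).add hX.j
  have h2 : conj (2 : ℂ) = 2 := by simp [map_ofNat]
  have h2' : conj (2 : ℂ)⁻¹ = 2⁻¹ := by simp [map_ofNat]
  have he2 : Re1 (e2 τ c0 P X) := (hbk.add hbk.cj).add (((((hbk.conv hbk.cj).add
    (hX.q.conv hX.q.cj)).add ((haa.conv (hu.conv hu.cj)).smul h2))).add
      ((hu.conv hbz.cj).sym.smul h2))
  have hez : Re1 (ez τ c0 P X) := (((((((hbq.dz ht).conv (re1_one.add hbk.cj)).add
    ((hX.q.dzb ht).cj.conv hX.q)).smul h2').add (hbz.conv (hu.conv hu.cj))).add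
    (haa.conv (hzz.conv hu.cj))).add (((hzz.conv hbz.cj).add (hu.cj.conv hbzz)).smul h2')).sub
    ((hbz.cj.conv (hu.conv hu)).smul h2')
  have hezb : Re1 (ezb τ c0 P X) :=
    ((((((hbq.dz ht).conv (hbq.dz ht).cj).add ((hX.q.dzb ht).conv (hX.q.dzb ht).cj)).smul h2').sub
      ((hX.q.dz ht).conv (hX.q.dz ht).cj)).add
        (haa.conv ((hzz.conv hzz.cj).sub (hzb.conv hzb)))).add
      ((((((hzz.conv hbzz.cj).sym.sub (hzb.conv hbzb)).add (hbzb.conv (hu.conv hu.cj))).sub
        (hbzz.conv (hu.cj.conv hu.cj)).sym).add ((hbz.conv (hu.conv hzz.cj)).sym.smul h2)).sub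
        ((hbz.conv (hu.cj.conv hzb)).sym.smul h2))
  exact ⟨(((hjj.conv hezb).sub ((hjj.conv hjj).conv (hez.conv hez.cj))).sym.noMean).smul
      (by simp [map_ofNat]),
    (((haa.conv (hu.cj.conv hu.cj)).add (hu.cj.conv hbz.cj)).conv (re1_one.add hX.i)).neg,
    (hbk.cj.conv (re1_one.add hX.i)).neg, (he2.conv hjj).neg⟩

end Vale.Agent.P205.Klein.Fix
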