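import Vale.Agent.P205.Klein.Estimates
import Vale.Agent.P205.Klein.Exp
import Vale.Agent.P205.Klein.Symm

/-!
The contraction: for large frequencies the step is a half contraction of a small ball, uniformly in
the shape, so the fixed point decreases rapidly, is symmetric under the glide reflection and
depends Lipschitz continuously on the shape.
-/

noncomputable section

open ComplexConjugate Filter Topology
open scoped ENNReal NNReal
open Vale.Agent.P205.Torus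

namespace Vale.Agent.P205.Klein

namespace Fix

variable {τ : ℂ} {w : Idx → ℝ≥0} {θ η D D' : ℝ≥0} {X Y Z : St} {e : Env} {x : Ctx}

theorem Near.refl (X : St) : Near τ w θ D X X := by constructor <;> simp [nw_zero]

theorem Near.symm (h : Near τ w θ D X Y) : Near τ w θ D Y X :=
  ⟨nw_sub_comm.trans_le h.d, nw_sub_comm.trans_le h.q1, nw_sub_comm.trans_le h.q,
    nw_sub_comm.trans_le h.i, nw_sub_comm.trans_le h.j⟩

theorem Near.mono (h : Near τ w θ D X Y) (hD : D ≤ D') : Near τ w θ D' X Y :=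
  ⟨h.d.trans (ENNReal.coe_le_coe.2 hD), h.q1.trans (ENNReal.coe_le_coe.2 hD),
    h.q.trans (ENNReal.coe_le_coe.2 (by gcongr)), h.i.trans (ENNReal.coe_le_coe.2 (by gcongr)),
    h.j.trans (ENNReal.coe_le_coe.2 hD)⟩

theorem Near.trans (h : Near τ w θ D X Y) (h' : Near τ w θ D' Y Z) :
    Near τ w θ (D + D') X Z := by
  have key : ∀ {v : Idx → ℝ≥0} {a b c : Cf} {s t : ℝ≥0}, nw v (a - b) ≤ s → nw v (b - c) ≤ t →
      nw v (a - c) ≤ (s + t : ℝ≥0) := fun {v a b c s t} hab hbc => by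
    rw [ENNReal.coe_add, ← sub_add_sub_cancel a b c]
    exact nw_add_le.trans (add_le_add hab hbc)
  exact ⟨key h.d h'.d, key h.q1 h'.q1, by rw [mul_add]; exact key h.q h'.q,
    by rw [mul_add]; exact key h.i h'.i, key h.j h'.j⟩

/-! ### One step -/

theorem iMap_eq (hw : IsW w) (h : nw w (cj (bk τ X)) ≠ ∞) (h' : nw w X.i ≠ ∞) :
    iMap τ X = -(cj (bk τ X) + conv (cj (bk τ X)) X.i) := by
  rw [iMap, conv_add_right hw h (by simp [nw_one hw]) h', conv_one_right]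

theorem step_est (hE : ExpThm) (e : Env) : ∃ A : ℝ≥0, ∀ x : Ctx, Ok e x → A * x.θ ≤ x.η →
    A * (x.θ + x.η) ≤ 1 / 2 → Sz e.τ x.w x.θ x.η (step e.τ e.c0 x.P x.X) ∧
      Near e.τ x.w x.θ (x.D / 2) (step e.τ e.c0 x.P x.X) (step e.τ e.c0 x.P' x.Y) := by
  obtain ⟨Ad, hd⟩ := cls_dMap hE (e := e)
  obtain ⟨Aq, hq⟩ := cls_qMap hE (e := e)
  obtain ⟨Ar, hr⟩ := cls_qMap0 hE (e := e)
  obtain ⟨Ai, hi⟩ := cls_iRest (e := e)
  obtain ⟨Aj, hj⟩ := cls_jMap hE (e := e)
  refine ⟨Ad + Aq + Ar + Ai + Aj, fun x hx h1 h2 => ?_⟩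
  set A := Ad + Aq + Ar + Ai + Aj with hA
  -- the bounds of one component
  have S1 : ∀ {B : ℝ≥0}, B ≤ A → B * x.θ ^ 0 * sz x.θ x.η 2 ≤ x.η := fun {B} hB => by
    rw [pow_zero, mul_one, sz]; exact (mul_le_mul_left hB _).trans h1
  have L1 : ∀ {B : ℝ≥0}, B ≤ A → B * x.θ ^ 0 * lp x.θ x.η 2 * x.D ≤ x.D / 2 := fun {B} hB => by
    rw [pow_zero, mul_one, lp]
    refine (mul_le_mul_left ((mul_le_mul_left hB _).trans h2) x.D).trans_eq ?_
    ring
  have bd : Ad ≤ A ∧ Aq ≤ A ∧ Ar ≤ A ∧ Ai ≤ A ∧ Aj ≤ A := by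
    simp only [hA, ← NNReal.coe_le_coe, NNReal.coe_add]
    refine ⟨?_, ?_, ?_, ?_, ?_⟩ <;>
      linarith [Ad.coe_nonneg, Aq.coe_nonneg, Ar.coe_nonneg, Ai.coe_nonneg, Aj.coe_nonneg]
  -- the linear part of the third component
  have hbk : ∀ c : Cf, nw (w1 e.τ x.w) (mult (bkm e.τ) c) ≤ nw (w1 e.τ x.w) c := fun c => by
    simpa using nw_mult_le (C := 1) (c := c) (w := w1 e.τ x.w) (w' := w1 e.τ x.w) fun k =>
      (mul_le_mul_right (nnnorm_bkm_le e.τ k) _).trans_eq (by simp)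
  have hb : ∀ Z, nw (w1 e.τ x.w) (cj (bk e.τ Z)) ≤ nw (w1 e.τ x.w) Z.q := fun Z => by
    rw [nw_cj hx.hw.w1, bk_eq]; exact hbk _
  have hbX := (hb x.X).trans (show nw (w1 e.τ x.w) x.X.q ≤ x.η by simpa using hx.szX.q1)
  have hbY := (hb x.Y).trans (show nw (w1 e.τ x.w) x.Y.q ≤ x.η by simpa using hx.szY.q1)
  have hbD : nw (w1 e.τ x.w) (cj (bk e.τ x.X) - cj (bk e.τ x.Y)) ≤ x.D := by
    rw [← cj_sub, nw_cj hx.hw.w1, bk_eq, bk_eq, ← mult_sub]
    exact (hbk _).trans hx.near.q1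
  have eX := iMap_eq hx.hw.w1 (ne_top_of_le_ne_top ENNReal.coe_ne_top hbX)
    (ne_top_of_le_ne_top ENNReal.coe_ne_top hx.szX.i |> fun h => by simpa using h)
  have eY := iMap_eq hx.hw.w1 (ne_top_of_le_ne_top ENNReal.coe_ne_top hbY)
    (ne_top_of_le_ne_top ENNReal.coe_ne_top hx.szY.i |> fun h => by simpa using h)
  have gi := hi x hx
  have ext : ∀ {v : Idx → ℝ≥0} {a : Cf} {s t : ℝ≥0}, nw v a ≤ s → s ≤ t → nw v (a - 0) ≤ t :=
    fun {v a s t} ha hst => by rw [sub_zero]; exact ha.trans (ENNReal.coe_le_coe.2 hst)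
  refine ⟨⟨ext (hd x hx).left (S1 bd.1), ext (hq x hx).left (S1 bd.2.1), ext (hr x hx).left ?_,
    ?_, ext (hj x hx).left (S1 bd.2.2.2.2)⟩,
    ⟨(hd x hx).diff.trans (ENNReal.coe_le_coe.2 (L1 bd.1)),
      (hq x hx).diff.trans (ENNReal.coe_le_coe.2 (L1 bd.2.1)),
      (hr x hx).diff.trans (ENNReal.coe_le_coe.2 ?_), ?_,
      (hj x hx).diff.trans (ENNReal.coe_le_coe.2 (L1 bd.2.2.2.2))⟩⟩
  · calc Ar * x.θ ^ 1 * sz x.θ x.η 2 = x.θ * (Ar * x.θ ^ 0 * sz x.θ x.η 2) := by ring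
      _ ≤ x.θ * x.η := mul_le_mul_right (S1 bd.2.2.1) _
  · simp only [step, sub_zero, eX, nw_neg]
    refine nw_add_le.trans ((add_le_add hbX gi.left).trans ?_)
    rw [← ENNReal.coe_add, ENNReal.coe_le_coe]
    refine (add_le_add le_rfl (S1 bd.2.2.2.1)).trans ?_
    rw [← two_mul]
    exact mul_le_mul_left (by norm_num) _
  · calc Ar * x.θ ^ 1 * lp x.θ x.η 2 * x.D
        = x.θ * (Ar * x.θ ^ 0 * lp x.θ x.η 2 * x.D) := by ring
      _ ≤ x.θ * (x.D / 2) := mul_le_mul_right (L1 bd.2.2.1) _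
  · simp only [step, eX, eY]
    rw [← nw_neg, neg_sub', neg_neg, neg_neg, add_sub_add_comm]
    refine nw_add_le.trans ((add_le_add hbD gi.diff).trans ?_)
    rw [← ENNReal.coe_add, ENNReal.coe_le_coe]
    refine (add_le_add le_rfl (L1 bd.2.2.2.1)).trans ?_
    rw [← NNReal.coe_le_coe]
    push_cast
    linarith [x.D.coe_nonneg]

/-! ### The iteration -/

/-- A half contraction of the ball, uniformly in the shape. -/
def Contr (τ : ℂ) (w : Idx → ℝ≥0) (θ η : ℝ≥0) (S : Set ℝ) (f : ℝ → St → St) : Prop :=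
  ∀ K ∈ S, ∀ K' ∈ S, ∀ (D : ℝ≥0) (X Y : St), (θ : ℝ) * |K - K'| ≤ D → Sz τ w θ η X →
    Sz τ w θ η Y → Near τ w θ D X Y →
      Sz τ w θ η (f K X) ∧ Near τ w θ (D / 2) (f K X) (f K' Y)

/-- The iterates. -/
def its (f : ℝ → St → St) (K : ℝ) : ℕ → St
  | 0 => ⟨0, 0, 0, 0⟩
  | n + 1 => f K (its f K n)

/-- Their limit. -/
def lim (f : ℝ → St → St) (K : ℝ) : St :=
  ⟨fun k => limUnder atTop fun n => (its f K n).d k,
    fun k => limUnder atTop fun n => (its f K n).q k,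
    fun k => limUnder atTop fun n => (its f K n).i k,
    fun k => limUnder atTop fun n => (its f K n).j k⟩

variable {S : Set ℝ} {f : ℝ → St → St} {K K' : ℝ}

theorem its_sz (h : Contr τ w θ η S f) (hK : K ∈ S) : ∀ n, Sz τ w θ η (its f K n)
  | 0 => Near.refl _
  | n + 1 => (h K hK K hK 0 _ _ (by simp) (its_sz h hK n) (its_sz h hK n) (Near.refl _)).1

theorem its_succ (h : Contr τ w θ η S f) (hK : K ∈ S) :
    ∀ n, Near τ w θ (η / 2 ^ n) (its f K n) (its f K (n + 1))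
  | 0 => by simpa [its] using (its_sz h hK 1).symm
  | n + 1 => ((h K hK K hK _ _ _ (by simp; positivity) (its_sz h hK n) (its_sz h hK (n + 1))
      (its_succ h hK n)).2).mono (le_of_eq (by rw [pow_succ, div_div]))

theorem its_add (h : Contr τ w θ η S f) (hK : K ∈ S) :
    ∀ N n, Near τ w θ (2 * η / 2 ^ n) (its f K n) (its f K (n + N))
  | 0, n => Near.refl _
  | N + 1, n => by
    have h' := (its_succ h hK n).trans (its_add h hK N (n + 1))
    rw [show n + 1 + N = n + (N + 1) by ring] at h'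
    refine h'.mono (le_of_eq ?_)
    rw [pow_succ]
    field_simp
    ring

theorem its_lip (h : Contr τ w θ η S f) (hK : K ∈ S) (hK' : K' ∈ S) :
    ∀ n, Near τ w θ (θ * ‖K - K'‖₊) (its f K n) (its f K' n)
  | 0 => Near.refl _
  | n + 1 => ((h K hK K' hK' _ _ _ (by simp) (its_sz h hK n) (its_sz h hK' n)
      (its_lip h hK hK' n)).2).mono (half_le_self zero_le)

theorem lim_tendsto (hw : IsW w) (h : Contr τ w θ η S f) (hK : K ∈ S) (k : Idx) :
    Tendsto (fun n => (its f K n).d k) atTop (𝓝 ((lim f K).d k)) ∧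
      Tendsto (fun n => (its f K n).q k) atTop (𝓝 ((lim f K).q k)) ∧
      Tendsto (fun n => (its f K n).i k) atTop (𝓝 ((lim f K).i k)) ∧
      Tendsto (fun n => (its f K n).j k) atTop (𝓝 ((lim f K).j k)) := by
  have s := its_succ h hK
  have cau : ∀ (u : ℕ → ℂ) (C : ℝ≥0), (∀ n, ‖u n - u (n + 1)‖ ≤ (C * (η / 2 ^ n) : ℝ≥0)) →
      Tendsto u atTop (𝓝 (limUnder atTop u)) := fun u C hu => by
    refine (cauchySeq_of_le_geometric (1 / 2) ((C : ℝ) * η) (by norm_num) fun n =>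
      ?_).tendsto_limUnder
    rw [dist_eq_norm]
    refine (hu n).trans (le_of_eq ?_)
    push_cast
    rw [one_div, inv_pow]
    ring
  refine ⟨cau _ 1 fun n => ?_, cau _ 1 fun n => ?_, cau _ 64 fun n => ?_, cau _ 1 fun n => ?_⟩
  · simpa using norm_le_of_nw hw (s n).d k
  · simpa using norm_le_of_nw hw.w1 (s n).q1 k
  · simpa using norm_le_of_nw hw.w1 (s n).i k
  · simpa using norm_le_of_nw hw (s n).j k

theorem lim_near (hw : IsW w) (h : Contr τ w θ η S f) (hK : K ∈ S) {B : St}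
    (hB : ∀ᶠ m in atTop, Near τ w θ D B (its f K m)) : Near τ w θ D B (lim f K) := by
  have t := lim_tendsto hw h hK
  exact ⟨nw_le_of_tendsto (fun k => tendsto_const_nhds.sub (t k).1) (hB.mono fun _ h => h.d),
    nw_le_of_tendsto (fun k => tendsto_const_nhds.sub (t k).2.1) (hB.mono fun _ h => h.q1),
    nw_le_of_tendsto (fun k => tendsto_const_nhds.sub (t k).2.1) (hB.mono fun _ h => h.q),
    nw_le_of_tendsto (fun k => tendsto_const_nhds.sub (t k).2.2.1) (hB.mono fun _ h => h.i),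
    nw_le_of_tendsto (fun k => tendsto_const_nhds.sub (t k).2.2.2) (hB.mono fun _ h => h.j)⟩

theorem lim_sz (hw : IsW w) (h : Contr τ w θ η S f) (hK : K ∈ S) : Sz τ w θ η (lim f K) :=
  (lim_near hw h hK (Eventually.of_forall fun m => (its_sz h hK m).symm)).symm

theorem lim_fixed (hw : IsW w) (h : Contr τ w θ η S f) (hK : K ∈ S) :
    f K (lim f K) = lim f K := by
  set X := lim f K
  have hn : ∀ n, Near τ w θ (2 * η / 2 ^ n) (its f K n) X := fun n =>
    lim_near hw h hK ((eventually_ge_atTop n).mono fun m hm => by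
      obtain ⟨N, rfl⟩ := Nat.exists_eq_add_of_le hm
      exact its_add h hK N n)
  have hs : ∀ n, Near τ w θ (4 * η / 2 ^ n) (f K X) X := fun n => by
    refine (((h K hK K hK _ _ _ (by simp; positivity) (its_sz h hK n) (lim_sz hw h hK)
      (hn n)).2).symm.trans (hn (n + 1))).mono ?_
    rw [← NNReal.coe_le_coe, pow_succ]
    push_cast
    field_simp
    nlinarith [NNReal.coe_nonneg η]
  have z : ∀ {v : Idx → ℝ≥0} {a b : Cf} {C : ℝ≥0}, IsW v →
      (∀ n, nw v (a - b) ≤ (C * (4 * η / 2 ^ n) : ℝ≥0)) → a = b := fun {v a b C} hv hab => by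
    funext k
    refine sub_eq_zero.1 (norm_le_zero_iff.1 (ge_of_tendsto' (x := atTop) ?_ fun n =>
      norm_le_of_nw hv (hab n) k))
    have := (tendsto_pow_atTop_nhds_zero_of_lt_one (r := (1 / 2 : ℝ)) (by norm_num)
      (by norm_num)).const_mul ((C : ℝ) * (4 * η))
    rw [mul_zero] at this
    refine this.congr fun n => ?_
    push_cast
    rw [one_div, inv_pow]
    ring
  have h1 : (f K X).d = X.d := z (C := 1) hw fun n => by simpa using (hs n).d
  have h2 : (f K X).q = X.q := z (C := 1) hw.w1 fun n => by simpa using (hs n).q1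
  have h3 : (f K X).i = X.i := z hw.w1 fun n => (hs n).i
  have h4 : (f K X).j = X.j := z (C := 1) hw fun n => by simpa using (hs n).j
  calc f K X = ⟨(f K X).d, (f K X).q, (f K X).i, (f K X).j⟩ := rfl
    _ = X := by rw [h1, h2, h3, h4]

theorem lim_symSt (hw : IsW w) (h : Contr τ w θ η S f) (hK : K ∈ S)
    (hs : ∀ Z, SymSt Z → SymSt (f K Z)) : SymSt (lim f K) := by
  have hi : ∀ n, SymSt (its f K n) := fun n => by
    induction n with
    | zero => exact ⟨re1_zero, re1_zero, re1_zero, re1_zero⟩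
    | succ n ih => exact hs _ ih
  have t := lim_tendsto hw h hK
  have key : ∀ {u : ℕ → Cf} {l : Cf}, (∀ k, Tendsto (fun n => u n k) atTop (𝓝 (l k))) →
      (∀ n, Re1 (u n)) → Re1 l := fun {u l} hu hn => by
    funext k
    refine tendsto_nhds_unique ((hu (k.1, -k.2)).const_mul ((-1 : ℂ) ^ k.1)) ?_
    exact ((Complex.continuous_conj.tendsto _).comp (hu (-k))).congr fun n => (congrFun (hn n) k).symm
  exact ⟨key (fun k => (t k).1) fun n => (hi n).d, key (fun k => (t k).2.1) fun n => (hi n).q,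
    key (fun k => (t k).2.2.1) fun n => (hi n).i, key (fun k => (t k).2.2.2) fun n => (hi n).j⟩

theorem rapid_of_wd {δ : ℕ → ℝ≥0} {c : Cf} {C : ℝ≥0} (h0 : ∀ m, 0 < δ m) (h1 : ∀ m, δ m ≤ 1)
    (h : ∀ m, nw (wd τ (δ m) m) c ≤ C) : Rapid τ c := fun m => by
  refine ne_top_of_le_ne_top (b := ((δ m ^ m)⁻¹ : ℝ≥0) * (C : ℝ≥0∞))
    (ENNReal.mul_ne_top ENNReal.coe_ne_top ENNReal.coe_ne_top)
    (le_trans ?_ (mul_le_mul_right (h m) _))
  rw [nw, nw, ← ENNReal.tsum_mul_left]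
  refine ENNReal.tsum_le_tsum fun k => ?_
  rw [← mul_assoc, ← ENNReal.coe_mul]
  refine mul_le_mul_left (ENNReal.coe_le_coe.2 ?_) _
  rw [le_inv_mul_iff₀ (pow_pos (h0 m) m), wp, wd, ← mul_pow]
  refine pow_le_pow_left₀ zero_le ?_ m
  rw [mul_add, mul_one]
  exact add_le_add (h1 m) le_rfl

theorem dat_small {R : ℝ≥0} {c0 : Cf} {δ δ' : ℝ≥0} {m : ℕ} (h : Torus.Dat τ (wd τ δ' m) R c0)
    (hle : δ ≤ δ') : Torus.Dat τ (wd τ δ m) R c0 := by
  have hk : ∀ k, wd τ δ m k ≤ wd τ δ' m k := fun k =>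
    pow_le_pow_left₀ zero_le (add_le_add le_rfl (mul_le_mul_left hle _)) m
  exact ⟨(nw_mono fun k => mul_le_mul_left (hk k) _).trans h.1, (nw_mono hk).trans h.2.1,
    (nw_mono hk).trans h.2.2⟩

/-- The equations are solvable, given the exponential in the algebra. -/
theorem fix_of_exp (hE : ExpThm) : FixThm := by
  intro T hT c0 hc0 hs0 hf0
  set τ : ℂ := T * Complex.I with hτdef
  have hτ : τ.im ≠ 0 := by simp [hτdef, hT.ne']
  obtain ⟨R, hR⟩ := dat_exists hc0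
  obtain ⟨A, hA⟩ := step_est hE ⟨τ, c0, R⟩
  set C : ℝ≥0 := A + 1 with hC
  refine ⟨⌈200 * ((C : ℝ) + 1) ^ 2⌉₊, fun m hm n M j hn hM hj => ?_⟩
  have hC1 : (1 : ℝ) ≤ C := by rw [hC]; push_cast; linarith [A.coe_nonneg]
  have hAC : (A : ℝ) ≤ C := by rw [hC]; push_cast; linarith
  have hnN : 200 * ((C : ℝ) + 1) ^ 2 ≤ n := by
    refine (Nat.ceil_le.1 hm).trans ?_
    have h3 := Real.pi_gt_three
    rw [hn]
    nlinarith [mul_nonneg (show (0 : ℝ) ≤ 4 * Real.pi - 1 by linarith) (Nat.cast_nonneg (α := ℝ) m)]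
  have hn0 : 0 < n := lt_of_lt_of_le (by positivity) hnN
  set θ : ℝ≥0 := n⁻¹.toNNReal with hθdef
  have hθ : (θ : ℝ) = n⁻¹ := Real.coe_toNNReal _ (inv_nonneg.2 hn0.le)
  set η : ℝ≥0 := C * θ with hηdef
  have hsmall : 200 * ((C : ℝ) + 1) ^ 2 * θ ≤ 1 := by
    rw [hθ, ← div_eq_mul_inv, div_le_one hn0]; exact hnN
  have hθ0 : (0 : ℝ) ≤ θ := θ.coe_nonneg
  have hs : ∀ {a : ℝ}, a ≤ ((C : ℝ) + 1) ^ 2 → a * θ ≤ 1 / 200 := fun {a} ha => by
    nlinarith [mul_le_mul_of_nonneg_right ha hθ0]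
  have hj2 : (θ : ℝ) * ‖om τ (0, 2 * (j : ℤ))‖ ≤ 6 := by
    have e : ‖om τ (0, 2 * (j : ℤ))‖ = 2 * Real.pi * (2 * j / T) := by
      have e' : om τ (0, 2 * (j : ℤ)) = ((2 * Real.pi * (2 * j / T) : ℝ) : ℂ) * Complex.I := by
        apply Complex.ext
        · rw [om_re, Complex.re_ofReal_mul, Complex.I_re]; simp
        · rw [om_im, Complex.im_ofReal_mul, Complex.I_im]; simp [hτdef]
      rw [e', norm_mul, Complex.norm_I, mul_one, Complex.norm_real,
        Real.norm_of_nonneg (by positivity)]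
    have h := hj.2
    rw [hθ, e]
    field_simp
    linarith
  -- weights
  have hδ : ∀ p : ℕ, ∃ δ : ℝ≥0, 0 < δ ∧ δ ≤ 1 ∧ wd τ δ p (0, 2 * (j : ℤ)) ≤ 2 ∧
      Torus.Dat τ (wd τ δ p) R c0 := fun p => by
    obtain ⟨δ, h0, h1, hD⟩ := hR p
    set s : ℝ≥0 := ((1 + ‖om τ (0, 2 * (j : ℤ))‖₊) ^ p)⁻¹ with hs'
    have hs0' : 0 < s := inv_pos.2 (pow_pos (lt_of_lt_of_le one_pos le_self_add) p)
    refine ⟨min δ s, lt_min h0 hs0', (min_le_left _ _).trans h1, ?_,
      dat_small hD (min_le_left _ _)⟩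
    refine (wd_le ((min_le_left _ _).trans h1) _ p).trans ?_
    refine (add_le_add le_rfl ((mul_le_mul_left (min_le_right _ _) _).trans_eq ?_)).trans_eq
      one_add_one_eq_two
    exact inv_mul_cancel₀ (pow_pos (lt_of_lt_of_le one_pos le_self_add) p).ne'
  choose δ hδ0 hδ1 hδk hδD using hδ
  set f : ℝ → St → St := fun K X => step τ c0 ⟨n, M, K, j⟩ X with hf
  have hcon : ∀ p, Contr τ (wd τ (δ p) p) θ η (Set.Icc (2 * n) (3 * n)) f := by
    intro p K hK K' hK' D X Y hD hX hY hXY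
    refine hA ⟨θ, η, D, wd τ (δ p) p, ⟨n, M, K, j⟩, ⟨n, M, K', j⟩, X, Y⟩
      ⟨hτ, isW_wd _ _, hδD p, ?_, ?_, ?_, ?_, ?_, rfl, rfl, rfl, hM, hK, hK', hD, hδk p, ?_, hX,
        hY, hXY⟩ ?_ ?_
    all_goals simp only [← NNReal.coe_le_coe, ← NNReal.coe_pos, hηdef]
    all_goals push_cast
    · rw [hθ]; exact inv_pos.2 hn0
    · exact le_mul_of_one_le_left hθ0 hC1
    · nlinarith [hs (a := (C : ℝ) + 1) (by nlinarith)]
    · calc (C : ℝ) * θ * (C * θ) = (C ^ 2 * θ) * θ := by ring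
        _ ≤ 1 * θ := by
          gcongr
          linarith [hs (a := (C : ℝ) ^ 2) (by nlinarith)]
        _ = θ := one_mul _
    · rw [hθ]; exact inv_mul_cancel₀ hn0.ne'
    · exact hj2
    · exact mul_le_mul_of_nonneg_right hAC hθ0
    · nlinarith [hs (a := (C : ℝ) * (C + 1)) (by nlinarith),
        mul_le_mul_of_nonneg_right hAC (show (0 : ℝ) ≤ θ + C * θ by positivity)]
  have hw0 := isW_wd (τ := τ) (δ 0) 0
  have hη : (η : ℝ) ≤ 1 / 100 := by
    rw [hηdef]; push_cast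
    linarith [hs (a := (C : ℝ)) (by nlinarith)]
  refine ⟨lim f, fun K hK => ?_, ?_⟩
  · have hfix := lim_fixed hw0 (hcon 0) hK
    have hre : Re1 c0 := by rw [Re1, hf0, hs0]
    have hsym := lim_symSt hw0 (hcon 0) hK fun Z hZ => step_symSt hE (refLat_mul_I T) hre hZ
    have sz' := fun p => lim_sz (isW_wd (δ p) p) (hcon p) hK
    have hd' : cj (lim f K).d = (lim f K).d := by
      have e : (lim f K).d = dMap τ c0 ⟨n, M, K, j⟩ (lim f K) := congrArg St.d hfix.symm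
      rw [e, dMap]
      funext k
      by_cases hk : k = 0 <;> simp [cj, noMean, Torus.sym, hk, map_ofNat]
      ring
    refine ⟨⟨hfix, rapid_of_wd (C := η) hδ0 hδ1 fun p => by simpa using (sz' p).d,
      rapid_of_wd (C := η) hδ0 hδ1 fun p => by simpa using nw_le_w1.trans (sz' p).q1,
      rapid_of_wd (C := 64 * η) hδ0 hδ1 fun p => by simpa using nw_le_w1.trans (sz' p).i,
      rapid_of_wd (C := η) hδ0 hδ1 fun p => by simpa using (sz' p).j,
      hsym.d.trans hd', hsym.q⟩, ?_⟩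
    have h := norm_le_of_nw hw0.w1 (show nw (w1 τ (wd τ (δ 0) 0)) (lim f K).q ≤ η by
      simpa using (sz' 0).q1) 0
    exact h.trans hη
  · refine (LipschitzOnWith.of_dist_le_mul (K := θ) fun K hK K' hK' => ?_).continuousOn
    rw [dist_eq_norm, dist_eq_norm]
    refine le_of_tendsto (((lim_tendsto hw0 (hcon 0) hK 0).2.1.sub
      (lim_tendsto hw0 (hcon 0) hK' 0).2.1).norm) (Eventually.of_forall fun i => ?_)
    simpa using norm_le_of_nw hw0.w1 (its_lip (hcon 0) hK hK' i).q1 0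

end Fix

/-- The equations of the Klein bottle map are solvable. -/
theorem fixThm : FixThm := Fix.fix_of_exp expThm

end Vale.Agent.P205.Klein
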