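import Vale.Agent.P205.Klein.Pins
import Vale.Agent.P205.Torus.Fix

/-!
The calculus of sizes for the Klein bottle map: families depending on the parameters and the
unknowns are graded by powers of the inverse frequency and by the number of small factors, both
for their size and for their variation.
-/

noncomputable section

open ComplexConjugate
open scoped ENNReal NNReal
open Vale.Agent.P205.Torus

namespace Vale.Agent.P205.Klein.Fix

/-- The weight with one derivative more, in the scale of the wave. -/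
def ws (τ : ℂ) (θ : ℝ≥0) (w : Idx → ℝ≥0) : Idx → ℝ≥0 := fun k => w k * (1 + θ * ‖om τ k‖₊)

theorem isW_ws {τ : ℂ} {θ : ℝ≥0} {w : Idx → ℝ≥0} (h : IsW w) : IsW (ws τ θ w) where
  zero := by simp [ws, h.zero, om_zero]
  one_le k := one_le_mul (h.one_le k) le_self_add
  mul_le j k := by
    refine (mul_le_mul' (h.mul_le j k) (?_ : 1 + θ * ‖om τ (j + k)‖₊ ≤ _)).trans_eq
      (mul_mul_mul_comm _ _ _ _)
    rw [om_add]
    refine (add_le_add le_rfl (mul_le_mul_right (nnnorm_add_le _ _) θ)).trans ?_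
    rw [← NNReal.coe_le_coe]
    push_cast
    nlinarith [mul_nonneg (mul_nonneg θ.coe_nonneg θ.coe_nonneg)
      (mul_nonneg (norm_nonneg (om τ j)) (norm_nonneg (om τ k)))]
  even k := by simp [ws, h.even, om_neg]

/-- The data that stay fixed. -/
structure Env where
  /-- The lattice. -/
  τ : ℂ
  /-- The prescribed conformal factor. -/
  c0 : Cf
  /-- The bound of the weighted data. -/
  R : ℝ≥0

/-- Two states are at most `D` apart. -/
structure Near (τ : ℂ) (w : Idx → ℝ≥0) (θ D : ℝ≥0) (X Y : St) : Prop where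
  d : nw w (X.d - Y.d) ≤ D
  q1 : nw (w1 τ w) (X.q - Y.q) ≤ D
  q : nw w (X.q - Y.q) ≤ (θ * D : ℝ≥0)
  i : nw (w1 τ w) (X.i - Y.i) ≤ (64 * D : ℝ≥0)
  j : nw w (X.j - Y.j) ≤ D

/-- The norms of a state are at most `η`. -/
def Sz (τ : ℂ) (w : Idx → ℝ≥0) (θ η : ℝ≥0) (X : St) : Prop := Near τ w θ η X ⟨0, 0, 0, 0⟩

/-- Two sets of parameters and states to be compared. -/
structure Ctx where
  /-- The inverse frequency. -/
  θ : ℝ≥0
  /-- The size of the states. -/
  η : ℝ≥0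
  /-- Their distance. -/
  D : ℝ≥0
  /-- The weight. -/
  w : Idx → ℝ≥0
  /-- The parameters. -/
  P : Par
  /-- The other parameters. -/
  P' : Par
  /-- The state. -/
  X : St
  /-- The other state. -/
  Y : St

/-- The standing assumptions. -/
structure Ok (e : Env) (x : Ctx) : Prop where
  hτ : e.τ.im ≠ 0
  hw : IsW x.w
  dat : Torus.Dat e.τ x.w e.R e.c0
  pos : 0 < x.θ
  le : x.θ ≤ x.η
  add_le : x.η + x.θ ≤ 1
  sq_le : x.η * x.η ≤ x.θ
  inv : (x.θ : ℝ) * x.P.n = 1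
  eq_n : x.P'.n = x.P.n
  eq_M : x.P'.M = x.P.M
  eq_j : x.P'.j = x.P.j
  hM : x.P.M = x.P.n + 2 * Real.pi
  hK : x.P.K ∈ Set.Icc (2 * x.P.n) (3 * x.P.n)
  hK' : x.P'.K ∈ Set.Icc (2 * x.P.n) (3 * x.P.n)
  hdK : (x.θ : ℝ) * |x.P.K - x.P'.K| ≤ x.D
  hk0 : x.w (0, 2 * (x.P.j : ℤ)) ≤ 2
  hom : x.θ * ‖om e.τ (0, 2 * (x.P.j : ℤ))‖₊ ≤ 6
  szX : Sz e.τ x.w x.θ x.η x.X
  szY : Sz e.τ x.w x.θ x.η x.Y
  near : Near e.τ x.w x.θ x.D x.X x.Y

/-- The sizes by number of small factors. -/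
def sz (θ η : ℝ≥0) : ℕ → ℝ≥0
  | 0 => 1
  | 1 => η
  | _ + 2 => θ

/-- The variations by number of small factors. -/
def lp (θ η : ℝ≥0) : ℕ → ℝ≥0
  | 0 => 1
  | 1 => 1
  | _ + 2 => θ + η

variable {e : Env} {x : Ctx}

theorem Ok.θ_le (h : Ok e x) : x.θ ≤ 1 := le_add_self.trans h.add_le

theorem Ok.η_le (h : Ok e x) : x.η ≤ 1 := le_self_add.trans h.add_le

theorem sz_le_one (h : Ok e x) : ∀ d, sz x.θ x.η d ≤ 1
  | 0 => le_rfl
  | 1 => h.η_le
  | _ + 2 => h.θ_le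

theorem lp_le_one (h : Ok e x) : ∀ d, lp x.θ x.η d ≤ 1
  | 0 => le_rfl
  | 1 => le_rfl
  | _ + 2 => by rw [lp, add_comm]; exact h.add_le

theorem sz_le_lp (h : Ok e x) : ∀ d, sz x.θ x.η d ≤ lp x.θ x.η d
  | 0 => le_rfl
  | 1 => h.η_le
  | _ + 2 => le_self_add

theorem sz_succ_le (h : Ok e x) : ∀ d, sz x.θ x.η (d + 1) ≤ sz x.θ x.η d
  | 0 => h.η_le
  | 1 => h.le
  | _ + 2 => le_rfl

theorem lp_succ_le (h : Ok e x) : ∀ d, lp x.θ x.η (d + 1) ≤ lp x.θ x.η d
  | 0 => le_rfl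
  | 1 => by rw [lp, lp, add_comm]; exact h.add_le
  | _ + 2 => le_rfl

theorem sz_mul (h : Ok e x) : ∀ a b, sz x.θ x.η a * sz x.θ x.η b ≤ sz x.θ x.η (a + b)
  | 0, b => by simp [sz]
  | a, 0 => by simp [sz]
  | 1, 1 => h.sq_le
  | 1, b + 2 => by
    rw [show 1 + (b + 2) = (b + 1) + 2 by omega]; simp only [sz]
    exact mul_le_of_le_one_left' h.η_le
  | a + 2, b + 1 => by
    rw [show a + 2 + (b + 1) = (a + b + 1) + 2 by omega]
    exact mul_le_of_le_one_right' (sz_le_one h _)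

theorem lp_mul (h : Ok e x) : ∀ a b, lp x.θ x.η a * sz x.θ x.η b ≤ lp x.θ x.η (a + b)
  | 0, b => by simpa [lp] using sz_le_lp h b
  | a, 0 => by simp [sz]
  | 1, 1 => by simp [lp, sz]
  | 1, b + 2 => by
    rw [show 1 + (b + 2) = (b + 1) + 2 by omega]; simp [lp, sz]
  | a + 2, b + 1 => by
    rw [show a + 2 + (b + 1) = (a + b + 1) + 2 by omega]
    exact mul_le_of_le_one_right' (sz_le_one h _)

/-- Two families of weighted norms at most `C` sizes, and `C` variations times `D` apart. -/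
structure Gd (x : Ctx) (v : Idx → ℝ≥0) (d : ℕ) (C : ℝ≥0) (a a' : Cf) : Prop where
  left : nw v a ≤ (C * sz x.θ x.η d : ℝ≥0)
  right : nw v a' ≤ (C * sz x.θ x.η d : ℝ≥0)
  diff : nw v (a - a') ≤ (C * lp x.θ x.η d * x.D : ℝ≥0)

variable {v v' : Idx → ℝ≥0} {d d' : ℕ} {C C' : ℝ≥0} {a a' b b' : Cf}

theorem Gd.ne_top (h : Gd x v d C a a') : nw v a ≠ ∞ ∧ nw v a' ≠ ∞ :=
  ⟨ne_top_of_le_ne_top ENNReal.coe_ne_top h.left, ne_top_of_le_ne_top ENNReal.coe_ne_top h.right⟩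

theorem Gd.mono' (h : Gd x v d C a a') (hs : C * sz x.θ x.η d ≤ C' * sz x.θ x.η d')
    (hl : C * lp x.θ x.η d ≤ C' * lp x.θ x.η d') : Gd x v d' C' a a' :=
  ⟨h.left.trans (ENNReal.coe_le_coe.2 hs), h.right.trans (ENNReal.coe_le_coe.2 hs),
    h.diff.trans (ENNReal.coe_le_coe.2 (mul_le_mul_left hl _))⟩

theorem Gd.map {F : Cf → Cf} {K : ℝ≥0} (h : Gd x v d C a a')
    (hF : ∀ c, nw v' (F c) ≤ K * nw v c) (hsub : F (a - a') = F a - F a') :
    Gd x v' d (K * C) (F a) (F a') := by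
  have key : ∀ {c : Cf} {y : ℝ≥0}, nw v c ≤ y → nw v' (F c) ≤ (K * y : ℝ≥0) := fun {c y} hc => by
    rw [ENNReal.coe_mul]
    exact (hF c).trans (mul_le_mul_right hc _)
  refine ⟨?_, ?_, ?_⟩
  · rw [mul_assoc]; exact key h.left
  · rw [mul_assoc]; exact key h.right
  · rw [← hsub, mul_assoc K, mul_assoc K]; exact key h.diff

theorem Gd.add (h : Gd x v d C a a') (h' : Gd x v d C' b b') :
    Gd x v d (C + C') (a + b) (a' + b') := by
  refine ⟨?_, ?_, ?_⟩
  · rw [add_mul, ENNReal.coe_add]; exact nw_add_le.trans (add_le_add h.left h'.left)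
  · rw [add_mul, ENNReal.coe_add]; exact nw_add_le.trans (add_le_add h.right h'.right)
  · rw [add_mul, add_mul, ENNReal.coe_add, add_sub_add_comm]
    exact nw_add_le.trans (add_le_add h.diff h'.diff)

theorem Gd.smul (h : Gd x v d C a a') (hx : Ok e x) {s s' : ℂ} {S : ℝ≥0} (hs : ‖s‖₊ ≤ S)
    (hs' : ‖s'‖₊ ≤ S) (hd : ‖s - s'‖₊ ≤ S * x.D) : Gd x v d (2 * S * C) (s • a) (s' • a') := by
  have key : ∀ {r : ℂ} {c : Cf} {T y : ℝ≥0}, ‖r‖₊ ≤ T → nw v c ≤ y →
      nw v (r • c) ≤ (T * y : ℝ≥0) := fun {r c T y} hr hc => by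
    rw [nw_smul, enorm_eq_nnnorm, ENNReal.coe_mul]
    exact mul_le_mul' (ENNReal.coe_le_coe.2 hr) hc
  have h2 : S * (C * sz x.θ x.η d) ≤ 2 * S * C * sz x.θ x.η d :=
    (le_mul_of_one_le_left zero_le one_le_two).trans_eq (by ring)
  refine ⟨(key hs h.left).trans (ENNReal.coe_le_coe.2 h2),
    (key hs' h.right).trans (ENNReal.coe_le_coe.2 h2), ?_⟩
  rw [show s • a - s' • a' = (s - s') • a + s' • (a - a') by rw [sub_smul, smul_sub]; abel]
  refine nw_add_le.trans ((add_le_add (key hd h.left) (key hs' h.diff)).trans ?_)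
  rw [← ENNReal.coe_add, ENNReal.coe_le_coe]
  calc S * x.D * (C * sz x.θ x.η d) + S * (C * lp x.θ x.η d * x.D)
      ≤ S * x.D * (C * lp x.θ x.η d) + S * (C * lp x.θ x.η d * x.D) := by
        gcongr; exact sz_le_lp hx d
    _ = _ := by ring

theorem Gd.conv (h : Gd x v d C a a') (h' : Gd x v d' C' b b') (hx : Ok e x) (hv : IsW v) :
    Gd x v (d + d') (2 * C * C') (conv a b) (conv a' b') := by
  have key : ∀ {c c' : Cf} {s t : ℝ≥0}, nw v c ≤ s → nw v c' ≤ t →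
      nw v (Torus.conv c c') ≤ (s * t : ℝ≥0) := fun {c c' s t} hc hc' => by
    rw [ENNReal.coe_mul]
    exact (nw_conv_le hv).trans (mul_le_mul' hc hc')
  have h2 : C * sz x.θ x.η d * (C' * sz x.θ x.η d') ≤ 2 * C * C' * sz x.θ x.η (d + d') :=
    calc C * sz x.θ x.η d * (C' * sz x.θ x.η d')
        = 1 * (C * C') * (sz x.θ x.η d * sz x.θ x.η d') := by ring
      _ ≤ 2 * (C * C') * sz x.θ x.η (d + d') := by
        gcongr
        · exact one_le_two
        · exact sz_mul hx d d'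
      _ = _ := by ring
  refine ⟨(key h.left h'.left).trans (ENNReal.coe_le_coe.2 h2),
    (key h.right h'.right).trans (ENNReal.coe_le_coe.2 h2), ?_⟩
  rw [conv_sub_conv hv h.ne_top.1 h.ne_top.2 h'.ne_top.1 h'.ne_top.2]
  refine nw_add_le.trans ((add_le_add (key h.diff h'.left) (key h.right h'.diff)).trans ?_)
  rw [← ENNReal.coe_add, ENNReal.coe_le_coe]
  calc C * lp x.θ x.η d * x.D * (C' * sz x.θ x.η d') +
        C * sz x.θ x.η d * (C' * lp x.θ x.η d' * x.D)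
      = C * C' * x.D * (lp x.θ x.η d * sz x.θ x.η d' + lp x.θ x.η d' * sz x.θ x.η d) := by ring
    _ ≤ C * C' * x.D * (lp x.θ x.η (d + d') + lp x.θ x.η (d + d')) := by
        gcongr
        · exact lp_mul hx d d'
        · rw [add_comm d]; exact lp_mul hx d' d
    _ = _ := by ring

/-! ### Families of the parameters and the unknowns -/

/-- A choice of weight. -/
abbrev Wt := Env → Ctx → Idx → ℝ≥0

/-- The weight itself. -/
def w0 : Wt := fun _ x => x.w

/-- One derivative more. -/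
def wA : Wt := fun e x => w1 e.τ x.w

/-- One derivative more, in the scale of the wave. -/
def wS : Wt := fun e x => ws e.τ x.θ x.w

/-- The weights of a choice are admissible. -/
class GoodW (W : Wt) : Prop where
  isW : ∀ {e : Env} {x : Ctx}, Ok e x → IsW (W e x)

instance : GoodW w0 := ⟨fun h => h.hw⟩
instance : GoodW wA := ⟨fun h => h.hw.w1⟩
instance : GoodW wS := ⟨fun h => isW_ws h.hw⟩

/-- A family of size and variation `O(θ^p)` with `d` small factors. -/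
def Cls (e : Env) (W : Wt) (p d : ℕ) (f : Par → St → Cf) : Prop :=
  ∃ A : ℝ≥0, ∀ x : Ctx, Ok e x → Gd x (W e x) d (A * x.θ ^ p) (f x.P x.X) (f x.P' x.Y)

/-- A scalar of size and variation `O(θ^p)`. -/
def Scl (e : Env) (p : ℕ) (g : Par → ℂ) : Prop :=
  ∃ A : ℝ≥0, ∀ x : Ctx, Ok e x → ‖g x.P‖₊ ≤ A * x.θ ^ p ∧ ‖g x.P'‖₊ ≤ A * x.θ ^ p ∧
    ‖g x.P - g x.P'‖₊ ≤ A * x.θ ^ p * x.D

variable {W W' : Wt} {p p' : ℕ} {f f' : Par → St → Cf} {g g' : Par → ℂ}

theorem Cls.add (h : Cls e W p d f) (h' : Cls e W p d f') :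
    Cls e W p d fun P X => f P X + f' P X := by
  obtain ⟨A, hA⟩ := h
  obtain ⟨B, hB⟩ := h'
  exact ⟨A + B, fun x hx => by rw [add_mul]; exact (hA x hx).add (hB x hx)⟩

theorem Cls.map {F : Cf → Cf} {K : ℝ≥0} (h : Cls e W p d f)
    (hF : ∀ x, Ok e x → ∀ c, nw (W' e x) (F c) ≤ K * nw (W e x) c)
    (hsub : ∀ a b, F (a - b) = F a - F b) : Cls e W' p d fun P X => F (f P X) := by
  obtain ⟨A, hA⟩ := h
  exact ⟨K * A, fun x hx => by rw [mul_assoc]; exact (hA x hx).map (hF x hx) (hsub _ _)⟩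

theorem Cls.neg (h : Cls e W p d f) : Cls e W p d fun P X => -f P X :=
  h.map (F := fun c => -c) (K := 1) (fun _ _ _ => by rw [nw_neg]; simp) fun a b => by abel

theorem Cls.sub (h : Cls e W p d f) (h' : Cls e W p d f') :
    Cls e W p d fun P X => f P X - f' P X := by
  simpa [sub_eq_add_neg] using h.add h'.neg

theorem Cls.cj [GoodW W] (h : Cls e W p d f) : Cls e W p d fun P X => Torus.cj (f P X) :=
  h.map (F := Torus.cj) (K := 1) (fun _ hx _ => by rw [nw_cj (GoodW.isW hx)]; simp) cj_sub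

theorem Cls.sym [GoodW W] (h : Cls e W p d f) : Cls e W p d fun P X => Torus.sym (f P X) :=
  h.map (F := Torus.sym) (K := 1)
    (fun _ hx _ => by simpa using nw_sym_le (GoodW.isW (W := W) hx)) sym_sub

theorem Cls.noMean (h : Cls e W p d f) : Cls e W p d fun P X => Torus.noMean (f P X) :=
  h.map (F := Torus.noMean) (K := 1) (fun _ _ _ => by simpa using nw_noMean_le) noMean_sub

theorem Cls.mult {m : Idx → ℂ} {K : ℝ≥0} (h : Cls e W p d f)
    (hm : ∀ x, Ok e x → ∀ k, W' e x k * ‖m k‖₊ ≤ K * W e x k) :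
    Cls e W' p d fun P X => Torus.mult m (f P X) :=
  h.map (fun x hx _ => nw_mult_le (hm x hx)) (mult_sub m)

theorem Cls.weight (h : Cls e W p d f) (hw : ∀ x, Ok e x → ∀ k, W' e x k ≤ W e x k) :
    Cls e W' p d f :=
  h.map (F := id) (K := 1) (fun x hx _ => by simpa using nw_mono (hw x hx)) fun _ _ => rfl

theorem Cls.ofA (h : Cls e wA p d f) : Cls e w0 p d f :=
  h.weight fun _ _ _ => le_mul_of_one_le_right' le_self_add

theorem Cls.ofS (h : Cls e wS p d f) : Cls e w0 p d f :=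
  h.weight fun _ _ _ => le_mul_of_one_le_right' le_self_add

theorem Cls.toS (h : Cls e wA p d f) : Cls e wS p d f :=
  h.weight fun _ hx _ => mul_le_mul_right
    (add_le_add le_rfl (mul_le_of_le_one_left' hx.θ_le)) _

/-- One derivative in the scale of the wave costs one power. -/
theorem Cls.toA (h : Cls e wS (p + 1) d f) : Cls e wA p d f := by
  obtain ⟨A, hA⟩ := h
  refine ⟨A, fun x hx => ?_⟩
  have h2 : Gd x (wA e x) d (x.θ⁻¹ * (A * x.θ ^ (p + 1))) (f x.P x.X) (f x.P' x.Y) := by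
    refine (hA x hx).map (F := id) (fun c => ?_) rfl
    refine (nw_mono (w := fun k => x.θ⁻¹ * wS e x k) fun k => ?_).trans_eq ?_
    · simp only [wA, wS, w1, ws]
      rw [le_inv_mul_iff₀ hx.pos, mul_left_comm, mul_add, mul_one]
      exact mul_le_mul_right (add_le_add hx.θ_le le_rfl) _
    · simp only [nw, ← ENNReal.tsum_mul_left, ENNReal.coe_mul, mul_assoc, id]
  convert h2 using 1
  rw [pow_succ]
  field_simp [hx.pos.ne']

theorem Cls.drop (h : Cls e W p (d + 1) f) : Cls e W p d f := by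
  obtain ⟨A, hA⟩ := h
  exact ⟨A, fun x hx => (hA x hx).mono' (mul_le_mul_right (sz_succ_le hx d) _)
    (mul_le_mul_right (lp_succ_le hx d) _)⟩

theorem Cls.dropP (h : Cls e W (p + 1) d f) : Cls e W p d f := by
  obtain ⟨A, hA⟩ := h
  refine ⟨A, fun x hx => (hA x hx).mono' (mul_le_mul_left ?_ _) (mul_le_mul_left ?_ _)⟩ <;>
    exact mul_le_mul_right (pow_le_pow_of_le_one zero_le hx.θ_le p.le_succ) A

/-- A power of the inverse frequency counts as two small factors. -/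
theorem Cls.small (h : Cls e W (p + 1) d f) : Cls e W p 2 f := by
  obtain ⟨A, hA⟩ := h
  refine ⟨A, fun x hx => (hA x hx).mono' ?_ ?_⟩ <;> rw [pow_succ, mul_assoc A, mul_assoc A,
    mul_assoc (x.θ ^ p)] <;> refine mul_le_mul_right (mul_le_mul_right ?_ _) _
  · exact mul_le_of_le_one_right' (sz_le_one hx d)
  · exact (mul_le_of_le_one_right' (lp_le_one hx d)).trans le_self_add

theorem Cls.conv [GoodW W] (h : Cls e W p d f) (h' : Cls e W p' d' f') :
    Cls e W (p + p') (d + d') fun P X => Torus.conv (f P X) (f' P X) := by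
  obtain ⟨A, hA⟩ := h
  obtain ⟨B, hB⟩ := h'
  refine ⟨2 * A * B, fun x hx => ?_⟩
  convert (hA x hx).conv (hB x hx) hx (GoodW.isW hx) using 1
  ring

theorem Cls.scl (h : Cls e W p' d f) (hg : Scl e p g) :
    Cls e W (p + p') d fun P X => g P • f P X := by
  obtain ⟨A, hA⟩ := hg
  obtain ⟨B, hB⟩ := h
  refine ⟨2 * A * B, fun x hx => ?_⟩
  obtain ⟨a, b, c⟩ := hA x hx
  convert (hB x hx).smul hx a b c using 1
  ring

theorem Scl.const (s : ℂ) : Scl e 0 fun _ => s :=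
  ⟨‖s‖₊, fun _ _ => ⟨by simp, by simp, by simp⟩⟩

theorem Cls.smul (h : Cls e W p d f) (s : ℂ) : Cls e W p d fun P X => s • f P X := by
  simpa using h.scl (Scl.const s)

theorem cls_const [GoodW W] {c : Cf} {C : ℝ≥0} (h : ∀ x, Ok e x → nw (W e x) c ≤ C) :
    Cls e W 0 0 fun _ _ => c :=
  ⟨C, fun x hx => ⟨(h x hx).trans_eq (by simp [sz]), (h x hx).trans_eq (by simp [sz]),
    by rw [sub_self, nw_zero]; exact zero_le⟩⟩

theorem cls_one [GoodW W] : Cls e W 0 0 fun _ _ => one :=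
  cls_const (C := 1) fun _ hx => by simp [nw_one (GoodW.isW (W := W) hx)]

theorem Scl.add (h : Scl e p g) (h' : Scl e p g') : Scl e p fun P => g P + g' P := by
  obtain ⟨A, hA⟩ := h
  obtain ⟨B, hB⟩ := h'
  refine ⟨A + B, fun x hx => ⟨?_, ?_, ?_⟩⟩ <;> rw [add_mul]
  · exact (nnnorm_add_le _ _).trans (add_le_add (hA x hx).1 (hB x hx).1)
  · exact (nnnorm_add_le _ _).trans (add_le_add (hA x hx).2.1 (hB x hx).2.1)
  · rw [add_mul, add_sub_add_comm]
    exact (nnnorm_add_le _ _).trans (add_le_add (hA x hx).2.2 (hB x hx).2.2)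

theorem Scl.mul (h : Scl e p g) (h' : Scl e p' g') : Scl e (p + p') fun P => g P * g' P := by
  obtain ⟨A, hA⟩ := h
  obtain ⟨B, hB⟩ := h'
  refine ⟨2 * A * B, fun x hx => ?_⟩
  obtain ⟨a1, a2, a3⟩ := hA x hx
  obtain ⟨b1, b2, b3⟩ := hB x hx
  have e2 : A * x.θ ^ p * (B * x.θ ^ p') ≤ 2 * A * B * x.θ ^ (p + p') :=
    (le_mul_of_one_le_left zero_le one_le_two).trans_eq (by ring)
  refine ⟨?_, ?_, ?_⟩
  · rw [nnnorm_mul]; exact (mul_le_mul' a1 b1).trans e2
  · rw [nnnorm_mul]; exact (mul_le_mul' a2 b2).trans e2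
  · rw [show g x.P * g' x.P - g x.P' * g' x.P' =
      (g x.P - g x.P') * g' x.P + g x.P' * (g' x.P - g' x.P') by ring]
    refine (nnnorm_add_le _ _).trans ?_
    rw [nnnorm_mul, nnnorm_mul]
    exact (add_le_add (mul_le_mul' a3 b1) (mul_le_mul' a2 b3)).trans_eq (by ring)

theorem Scl.congr (h : Scl e p g) (hgg : ∀ x, Ok e x → g x.P = g' x.P ∧ g x.P' = g' x.P') :
    Scl e p g' := by
  obtain ⟨A, hA⟩ := h
  refine ⟨A, fun x hx => ?_⟩
  rw [← (hgg x hx).1, ← (hgg x hx).2]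
  exact hA x hx

end Vale.Agent.P205.Klein.Fix
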