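import Vale.Agent.P205.Klein.Map

/-!
The statements of the pieces of the proof that every Klein bottle immerses isometrically in
four-space.
-/

noncomputable section

open ComplexConjugate
open scoped ContDiff RealInnerProductSpace
open Vale.Agent.P205.Torus

namespace Vale.Agent.P205.Klein

/-- The equations are solvable for large frequencies, continuously in the shape. -/
def FixThm : Prop :=
  ∀ T : ℝ, 0 < T → ∀ c0 : Cf, Rapid (T * Complex.I) c0 → cj c0 = c0 → flip c0 = c0 →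
    ∃ m0 : ℕ, ∀ m, m0 ≤ m → ∀ (n M : ℝ) (j : ℕ), n = 2 * Real.pi * (2 * m + 1) →
      M = n + 2 * Real.pi → (2 * Real.pi * j : ℝ) ∈ Set.Icc (2 * n * T) (3 * n * T) →
      ∃ X : ℝ → St,
        (∀ K ∈ Set.Icc (2 * n) (3 * n),
          Solves (T * Complex.I) c0 ⟨n, M, K, j⟩ (X K) ∧ ‖(X K).q 0‖ ≤ 1 / 100) ∧
        ContinuousOn (fun K => (X K).q 0) (Set.Icc (2 * n) (3 * n))

/-- A solution whose lattice fits gives a conformal pair. -/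
def ConformalThm : Prop :=
  ∀ T : ℝ, 0 < T → ∀ c0 : Cf, Rapid (T * Complex.I) c0 → cj c0 = c0 → flip c0 = c0 →
    ∀ (P : Par) (X : St), Solves (T * Complex.I) c0 P X →
      P.K * (T * (1 - 2 * (X.q 0).re)) = 2 * Real.pi * P.j →
      ∃ (Θ : ℂ → ℂ) (U : ℂ → ℝ) (C : ℝ), 0 < C ∧ ContDiff ℝ ∞ Θ ∧ ContDiff ℝ ∞ U ∧
        (∀ z, U (z + 1) = U z) ∧ (∀ z, U (z + T * Complex.I) = U z) ∧
        (∀ z, U (conj z + 1 / 2) = U z) ∧ (∀ z, Θ (z + 1) = Θ z + 1) ∧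
        (∀ z, Θ (z + T * Complex.I) = Θ z + (T * (1 - 2 * (X.q 0).re) : ℝ) * Complex.I) ∧
        (∀ z, Θ (conj z + 1 / 2) = conj (Θ z) + 1 / 2) ∧
        ∀ z w, aLink P.n P.M P.K (Θ z).im * fderiv ℝ U z w ^ 2 +
            fderiv ℝ U z w * (deriv (aLink P.n P.M P.K) (Θ z).im * (fderiv ℝ Θ z w).im) +
            ‖fderiv ℝ Θ z w‖ ^ 2 =
          C * Real.exp (2 * ((ev (T * Complex.I) c0 z).re - U z)) * ‖w‖ ^ 2

/-- Isothermal coordinates for a metric with the symmetries of the Klein bottle. -/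
def IsothermalThm : Prop :=
  ∀ E F G : ℝ × ℝ → ℝ, ContDiff ℝ ∞ E → ContDiff ℝ ∞ F → ContDiff ℝ ∞ G →
    (∀ p, E (p + (0, 1)) = E p ∧ F (p + (0, 1)) = F p ∧ G (p + (0, 1)) = G p) →
    (∀ x y : ℝ, E (x + 1 / 2, -y) = E (x, y) ∧ F (x + 1 / 2, -y) = -F (x, y) ∧
      G (x + 1 / 2, -y) = G (x, y)) →
    (∀ p, 0 < E p) → (∀ p, 0 < E p * G p - F p ^ 2) →
    ∃ T : ℝ, 0 < T ∧ ∃ (Φ : ℝ × ℝ → ℂ) (lam : ℂ → ℝ), ContDiff ℝ ∞ Φ ∧ ContDiff ℝ ∞ lam ∧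
      (∀ p, Φ (p + (0, 1)) = Φ p + T * Complex.I) ∧
      (∀ x y : ℝ, Φ (x + 1 / 2, -y) = conj (Φ (x, y)) + 1 / 2) ∧
      (∀ z, 0 < lam z) ∧ (∀ z, lam (z + 1) = lam z) ∧ (∀ z, lam (z + T * Complex.I) = lam z) ∧
      (∀ z, lam (conj z + 1 / 2) = lam z) ∧
      ∀ p v w, lam (Φ p) * (conj (fderiv ℝ Φ p v) * fderiv ℝ Φ p w).re =
        E p * (v.1 * w.1) + F p * (v.1 * w.2 + v.2 * w.1) + G p * (v.2 * w.2)

/-- Every smooth metric of the Klein bottle has a smooth isometric immersion in four-space. -/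
def EveryKleinBottleImmerses : Prop :=
  ∀ E F G : ℝ × ℝ → ℝ, ContDiff ℝ ∞ E → ContDiff ℝ ∞ F → ContDiff ℝ ∞ G →
    (∀ p, E (p + (0, 1)) = E p ∧ F (p + (0, 1)) = F p ∧ G (p + (0, 1)) = G p) →
    (∀ x y : ℝ, E (x + 1 / 2, -y) = E (x, y) ∧ F (x + 1 / 2, -y) = -F (x, y) ∧
      G (x + 1 / 2, -y) = G (x, y)) →
    (∀ p, 0 < E p) → (∀ p, 0 < E p * G p - F p ^ 2) →
    ∃ X : ℝ × ℝ → EuclideanSpace ℝ (Fin 4), ContDiff ℝ ∞ X ∧
      (∀ p, X (p + (0, 1)) = X p) ∧ (∀ x y : ℝ, X (x + 1 / 2, -y) = X (x, y)) ∧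
      ∀ p v w, ⟪fderiv ℝ X p v, fderiv ℝ X p w⟫ =
        E p * (v.1 * w.1) + F p * (v.1 * w.2 + v.2 * w.1) + G p * (v.2 * w.2)

end Vale.Agent.P205.Klein
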