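import Vale.Agent.P205.Torus.Isothermal
import Vale.Agent.P205.Klein.Pins

/-!
Isothermal coordinates with the glide symmetry: the mirrored chart solves the same Beltrami
equation as the chart, and periodic solutions with equal energies are constant.
-/

namespace Vale.Agent.P205.Iso

open scoped ContDiff Real
open MeasureTheory Set Filter Complex Fou

noncomputable section

theorem msq_add_const {w : ℝ × ℝ → ℂ} (hw : SP w) (h0 : ∫ p in box, w p = 0) (α : ℂ) :
    msq (fun p => w p + α) = msq w + ‖α‖ ^ 2 := by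
  have e : ∀ p, ‖w p + α‖ ^ 2 = ‖w p‖ ^ 2 + ‖α‖ ^ 2 + 2 * ((starRingEnd ℂ) α * w p).re :=
    fun p => by simp [Complex.sq_norm, Complex.normSq_apply]; ring
  have hi : IntegrableOn (fun p => (starRingEnd ℂ) α * w p) box :=
    integrableOn_box (continuous_const.mul hw.continuous)
  have hre : ∫ p in box, ((starRingEnd ℂ) α * w p).re = 0 := by
    have h := Complex.reCLM.integral_comp_comm hi
    simp only [Complex.reCLM_apply] at h
    rw [h, integral_const_mul, h0, mul_zero, Complex.zero_re]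
  have h1 : IntegrableOn (fun p => ‖w p‖ ^ 2) box := integrableOn_box (hw.continuous.norm.pow 2)
  have h2 : IntegrableOn (fun _ : ℝ × ℝ => ‖α‖ ^ 2) box := integrableOn_box continuous_const
  have h3 : IntegrableOn (fun p => 2 * ((starRingEnd ℂ) α * w p).re) box :=
    integrableOn_box (continuous_const.mul (Complex.continuous_re.comp
      (continuous_const.mul hw.continuous)))
  simp only [msq, e]
  rw [integral_add (h1.fun_add h2) h3, integral_add h1 h2, setIntegral_const, volume_box, one_smul,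
    integral_const_mul, hre, mul_zero, add_zero]

theorem msq_dZ_eq {u : ℝ × ℝ → ℂ} (hu : SP u) : msq (dZ u) = msq (dB u) := by
  have hB : SP (dB u) := by
    refine ⟨((hu.dv _).1.add (contDiff_const.mul (hu.dv _).1)).div_const _, fun p => ?_⟩
    simp [dB, ((hu.dv _).2 p).1, ((hu.dv _).2 p).2]
  refine (parseval (sp_dZ hu)).unique ?_
  rw [msq]
  convert parseval hB using 2 with k
  rw [cf_dZ hu, cf_dB hu, norm_mul, norm_mul, az_bz, norm_neg, RCLike.norm_conj]

/-- The energy identity of a solution with linear periods. -/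
theorem energy {μ u g : ℝ × ℝ → ℂ} {a b : ℂ} {c : ℝ} (hμ : SP μ) (hu : SP u) (hg : SP g)
    (hc : ∀ p, ‖μ p‖ ^ 2 ≤ c)
    (h : ∀ p v, lat a b v + dv v u p = g p * (v.1 * (1 + μ p) + v.2 * I * (1 - μ p))) :
    (1 - c) * msq g ≤ ‖(a - I * b) / 2‖ ^ 2 - ‖(a + I * b) / 2‖ ^ 2 := by
  have e : ∀ p, g p = dZ u p + (a - I * b) / 2 ∧ μ p * g p = dB u p + (a + I * b) / 2 := fun p => by
    have h1 := h p (1, 0)
    have h2 := h p (0, 1)
    simp [lat_apply] at h1 h2
    simp only [dZ, dB]
    constructor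
    · linear_combination (-1 / 2 : ℂ) * h1 + (I / 2) * h2 + (g p * (1 - μ p) / 2) * I_sq
    · linear_combination (-1 / 2 : ℂ) * h1 - (I / 2) * h2 - (g p * (1 - μ p) / 2) * I_sq
  have h1 : msq g = msq (dZ u) + ‖(a - I * b) / 2‖ ^ 2 := by
    rw [← msq_add_const (sp_dZ hu) (integral_dZ hu)]
    simp only [msq, (e _).1]
  have hB : SP (dB u) := by
    refine ⟨((hu.dv _).1.add (contDiff_const.mul (hu.dv _).1)).div_const _, fun p => ?_⟩
    simp [dB, ((hu.dv _).2 p).1, ((hu.dv _).2 p).2]
  have h2 : msq (fun p => μ p * g p) = msq (dB u) + ‖(a + I * b) / 2‖ ^ 2 := by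
    rw [← msq_add_const hB (integral_dB hu)]
    simp only [msq, (e _).2]
  have h3 := msq_mul hμ hg hc
  rw [msq_dZ_eq hu] at h1
  linarith

theorem eq_zero_of_msq {g : ℝ × ℝ → ℂ} (hg : SP g) (h : msq g ≤ 0) (p : ℝ × ℝ) : g p = 0 := by
  have hz : ∀ k, cf g k = 0 := fun k => by
    have h1 := (le_hasSum (parseval hg) k fun j _ => sq_nonneg _).trans h
    simpa using le_antisymm h1 (sq_nonneg _)
  rw [← ser_cf hg]
  simp [ser, hz]

end

end Vale.Agent.P205.Iso

namespace Vale.Agent.P205.Klein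

open scoped ContDiff Real
open MeasureTheory Complex ComplexConjugate Fou Iso

noncomputable section

/-- The glide on parameters. -/
def glide (p : ℝ × ℝ) : ℝ × ℝ := (p.1 + 1 / 2, -p.2)

theorem glide_glide (p : ℝ × ℝ) : glide (glide p) = (p.1 + 1, p.2) := by
  simp [glide]; ring

theorem contDiff_glide : ContDiff ℝ ∞ glide :=
  (contDiff_fst.add contDiff_const).prodMk contDiff_snd.neg

theorem dv_mirror {u : ℝ × ℝ → ℂ} (hu : SP u) (v p : ℝ × ℝ) :
    dv v (fun q => conj (u (glide q))) p = conj (dv (v.1, -v.2) u (glide p)) := by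
  have hs : HasFDerivAt glide
      ((ContinuousLinearMap.fst ℝ ℝ ℝ).prod (-ContinuousLinearMap.snd ℝ ℝ ℝ)) p :=
    (hasFDerivAt_fst.add_const _).prodMk hasFDerivAt_snd.neg
  have h := (Complex.conjCLE : ℂ →L[ℝ] ℂ).hasFDerivAt.comp p
    ((hu.1.differentiable (by simp) (glide p)).hasFDerivAt.comp p hs)
  simp only [dv]
  rw [HasFDerivAt.fderiv (f := fun q => conj (u (glide q))) h]
  simp

theorem sp_mirror {u : ℝ × ℝ → ℂ} (hu : SP u) : SP fun q => conj (u (glide q)) := by
  refine ⟨Complex.conjCLE.contDiff.comp (hu.1.comp contDiff_glide), fun p => ?_⟩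
  constructor
  · simp only [glide, add_right_comm p.1 1]
    rw [(hu.2 (p.1 + 1 / 2, -p.2)).1]
  · have h := (hu.2 (p.1 + 1 / 2, -(p.2 + 1))).2
    simp only [glide]
    rw [← h, show -(p.2 + 1) + 1 = -p.2 by ring]

theorem isothermal : IsothermalThm := by
  intro E F G hE hF hG hper hsym hE0 hD
  have hglide : ∀ p, E (glide p) = E p ∧ F (glide p) = -F p ∧ G (glide p) = G p :=
    fun p => hsym p.1 p.2
  have hx : ∀ p : ℝ × ℝ, p + (1, 0) = glide (glide p) := fun p => by
    rw [glide_glide]; ext <;> simp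
  have pE : Per2 E := per2_of fun p => ⟨by rw [hx, (hglide _).1, (hglide _).1], (hper p).1⟩
  have pF : Per2 F :=
    per2_of fun p => ⟨by rw [hx, (hglide _).2.1, (hglide _).2.1, neg_neg], (hper p).2.1⟩
  have pG : Per2 G := per2_of fun p => ⟨by rw [hx, (hglide _).2.2, (hglide _).2.2], (hper p).2.2⟩
  obtain ⟨hμ, c, hc1, hc⟩ := sp_bel hE hF hG pE pF pG hE0 hD
  obtain ⟨τ, u, f, lam, hτ, hu, hf, hlc, hdu, hsurj, hl0, hl1, hlτ, hmet⟩ :=
    chart hE hF hG pE pF pG hE0 hD
  have hbel : ∀ p, conj (bel E F G (glide p)) = bel E F G p := fun p => by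
    simp [bel, (hglide p).1, (hglide p).2.1, (hglide p).2.2, map_div₀, map_ofNat]
  obtain ⟨D, hDdef⟩ : ∃ D, D = fun p => conj (u (glide p)) - u p := ⟨_, rfl⟩
  have hDsp : SP D := by
    rw [hDdef]
    refine ⟨(sp_mirror hu).1.sub hu.1, fun p => ?_⟩
    simp [((sp_mirror hu).2 p).1, ((sp_mirror hu).2 p).2, (hu.2 p).1, (hu.2 p).2]
  have hdD : ∀ p v, dv v D p = conj (dv (v.1, -v.2) u (glide p)) - dv v u p := fun p v => by
    rw [← dv_mirror hu v p, hDdef]
    simp only [dv]
    rw [fderiv_fun_sub ((sp_mirror hu).1.differentiable (by simp) p)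
      (hu.1.differentiable (by simp) p)]
    rfl
  have heq : ∀ p v, lat 0 (-conj τ - τ) v + dv v D p =
      (conj (f (glide p)) - f p) * (v.1 * (1 + bel E F G p) + v.2 * I * (1 - bel E F G p)) := by
    intro p v
    have h1 := congrArg conj (hdu (glide p) (v.1, -v.2))
    have h2 := hdu p v
    simp only [lat_apply, map_add, map_mul, map_sub, map_one, Complex.conj_ofReal, Complex.conj_I,
      hbel, Complex.ofReal_neg, map_neg] at h1 h2 ⊢
    rw [hdD]
    linear_combination h1 - h2
  have hgsp : SP fun p => conj (f (glide p)) - f p :=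
    ⟨(sp_mirror hf).1.sub hf.1, fun p => by
      simp [((sp_mirror hf).2 p).1, ((sp_mirror hf).2 p).2, (hf.2 p).1, (hf.2 p).2]⟩
  have hg0 : ∀ p, conj (f (glide p)) - f p = 0 := by
    refine eq_zero_of_msq hgsp ?_
    have h := energy hμ hDsp hgsp hc heq
    simp at h
    nlinarith [msq_nonneg fun p => conj (f (glide p)) - f p]
  simp only [hg0, zero_mul] at heq
  have hre : -conj τ - τ = 0 := by
    have h1 : ∀ p, dv (0, 1) D p = -(-conj τ - τ) := fun p => by
      have h := heq p (0, 1)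
      simp [lat_apply] at h
      linear_combination h
    have h := integral_dv_snd hDsp
    simp only [h1, setIntegral_const, volume_box, one_smul, neg_eq_zero] at h
    exact h
  have hD0 : ∀ p v, dv v D p = 0 := fun p v => by
    simpa [lat_apply, hre] using heq p v
  have hDc : ∀ p, conj (u (glide p)) = u p + D 0 := fun p => by
    have h := is_const_of_fderiv_eq_zero (hDsp.1.differentiable (by simp))
      (fun q => ContinuousLinearMap.ext fun v => hD0 q v) p 0
    rw [← h, hDdef]; ring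
  obtain ⟨b, hb⟩ : ∃ b : ℝ, D 0 = b * I := by
    refine ⟨(D 0).im, Complex.ext ?_ (by simp)⟩
    have h := hDc (glide 0)
    have h' : u (glide (glide 0)) = u 0 := by
      rw [glide_glide]; exact (hu.2 0).1
    rw [h'] at h
    have h'' := congrArg Complex.re h
    have h''' := congrArg Complex.re (hDc 0)
    simp at h'' h''' ⊢
    linarith
  obtain ⟨T, rfl⟩ : ∃ T : ℝ, τ = T * I := by
    refine ⟨τ.im, Complex.ext ?_ (by simp)⟩
    have h := congrArg Complex.re hre
    simp at h ⊢
    linarith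
  have hT : 0 < T := by
    have h := energy hμ hu hf hc hdu
    simp only [norm_div, div_pow, Complex.sq_norm, Complex.normSq_apply] at h
    simp at h
    rcases lt_or_gt_of_ne (show T ≠ 0 by simpa using hτ) with hT | hT
    · nlinarith [msq_nonneg f]
    · exact hT
  obtain ⟨Φ, hΦ⟩ : ∃ Φ : ℝ × ℝ → ℂ,
      Φ = fun p => lat 1 (T * I) p + u p + (b / 2 : ℝ) * I := ⟨_, rfl⟩
  have hΦg : ∀ p, Φ (glide p) = conj (Φ p) + 1 / 2 := fun p => by
    have h : u (glide p) = conj (u p + D 0) := by rw [← hDc, Complex.conj_conj]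
    simp only [hΦ]
    rw [h]
    simp only [hb, glide, lat_apply, map_add, map_mul, map_one, Complex.conj_ofReal,
      Complex.conj_I]
    push_cast
    ring
  have hlam : ∀ p, lam (Φ (glide p) - (b / 2 : ℝ) * I) = lam (Φ p - (b / 2 : ℝ) * I) := fun p => by
    simp only [hΦ, add_sub_cancel_right]
    have h1 := hmet (glide p) (1, 0) (1, 0)
    have h2 := hmet p (1, 0) (1, 0)
    have h3 := hD0 p (1, 0)
    rw [hdD, sub_eq_zero] at h3
    simp only [neg_zero] at h3
    have h4 : lat 1 (T * I) (1, 0) + dv (1, 0) u (glide p) =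
        conj (lat 1 (T * I) (1, 0) + dv (1, 0) u p) := by
      rw [← h3]; simp [lat_apply]
    rw [h4, Complex.conj_conj, mul_comm (lat 1 (T * I) (1, 0) + dv (1, 0) u p)] at h1
    simp only [(hglide p).1, mul_zero, mul_one, add_zero] at h1 h2
    exact mul_right_cancel₀
      (right_ne_zero_of_mul (ne_of_eq_of_ne h2 (hE0 p).ne')) (h1.trans h2.symm)
  refine ⟨T, hT, Φ, fun z => lam (z - (b / 2 : ℝ) * I), ?_,
    hlc.comp (contDiff_id.sub contDiff_const), fun p => ?_, fun x y => hΦg (x, y),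
    fun z => hl0 _, fun z => ?_, fun z => ?_, fun z => ?_, fun p v w => ?_⟩
  · rw [hΦ]
    exact (((lat 1 (T * I)).contDiff).add hu.1).add contDiff_const
  · simp only [hΦ]
    rw [show u (p + (0, 1)) = u (p.1, p.2 + 1) by congr 1; ext <;> simp, (hu.2 p).2]
    simp [lat_apply]; ring
  · simp only [add_sub_right_comm, hl1]
  · simp only [add_sub_right_comm, hlτ]
  · obtain ⟨p, hp⟩ := hsurj (z - (b / 2 : ℝ) * I)
    have hz : Φ p = z := by rw [hΦ]; simp only [hp]; ring
    simp only []
    rw [← hz, ← hΦg, hlam]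
  · have hd : ∀ v, fderiv ℝ Φ p v = lat 1 (T * I) v + dv v u p := fun v => by
      rw [hΦ, fderiv_add_const, fderiv_lat_add hu]
    simp only [hd]
    simp only [hΦ, add_sub_cancel_right]
    exact hmet p v w

end

end Vale.Agent.P205.Klein
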