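import Vale.Agent.P205.Klein.Defs

/-!
The base immersions: flat Klein bottles in four-space whose distance from the origin is an
explicit, almost constant trigonometric polynomial of the height.
-/

noncomputable section

open MeasureTheory ComplexConjugate
open scoped ContDiff

namespace Vale.Agent.P205.Klein

namespace Link

variable {n M K : ℝ}

/-- The parameters allowed. -/
structure Good (n M K : ℝ) : Prop where
  n_pos : 0 < n
  le : n ≤ M
  two_le : 2 * n ≤ K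

/-- The polynomial under the root. -/
def pol (μ ν b t : ℝ) : ℝ :=
  (1 - μ * t * (1 + b * t) ^ 2) * (6 * b - 9 * b ^ 2 * (1 - t)) - ν * μ * (1 + b * t) ^ 2 +
    ν * ((1 + 4 * b * t + 3 * b ^ 2 * t ^ 2) ^ 2
      - (4 * b + 3 * b ^ 2 * t) * (2 + 4 * b * t + 3 * b ^ 2 * t ^ 2))

theorem pol_identity (μ ν b t : ℝ) (hν : ν = 1 - 6 * b) :
    (1 - t) * (1 + 3 * b * t) ^ 2 * (1 - μ * t * (1 + b * t) ^ 2)
      + ν * t * (1 + b * t) ^ 2 * ((1 - t) * (1 + 3 * b * t) ^ 2) + t ^ 2 * pol μ ν b t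
    = 1 - μ * t * (1 + b * t) ^ 2 := by
  subst hν
  unfold pol
  ring

theorem pol_pos {μ ν b t : ℝ} (hν0 : 0 ≤ ν) (hνμ : ν ≤ μ) (hμ : μ ≤ 1 / 4)
    (hb : b = (1 - ν) / 6) (ht : t ∈ Set.Icc (0 : ℝ) 1) : 0 < pol μ ν b t := by
  obtain ⟨ht0, ht1⟩ := ht
  have hb1 : 1 / 8 ≤ b := by linarith
  have hb2 : b ≤ 1 / 6 := by linarith
  have hbt : b * t ≤ 1 / 6 := by nlinarith
  have hbt0 : 0 ≤ b * t := mul_nonneg (by linarith) ht0
  have he : (1 + b * t) ^ 2 ≤ 49 / 36 := by nlinarith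
  have hA : 47 / 72 ≤ 1 - μ * t * (1 + b * t) ^ 2 := by
    have h1 : μ * t ≤ 1 / 4 := by nlinarith
    have h2 := mul_le_mul h1 he (sq_nonneg _) (by norm_num : (0 : ℝ) ≤ 1 / 4)
    linarith
  have hR : 3 / 5 ≤ 6 * b - 9 * b ^ 2 * (1 - t) := by
    have h3 : b ^ 2 * (1 - t) ≤ b ^ 2 := mul_le_of_le_one_right (sq_nonneg b) (by linarith)
    nlinarith
  have hnm : ν * μ * (1 + b * t) ^ 2 ≤ 49 / 576 := by
    have h4 : ν * μ ≤ 1 / 16 := by nlinarith
    have h5 := mul_le_mul h4 he (sq_nonneg _) (by norm_num : (0 : ℝ) ≤ 1 / 16)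
    linarith
  set u := 4 * b * t + 3 * b ^ 2 * t ^ 2 with hu
  have hu0 : 0 ≤ u := by nlinarith
  have hw : 4 * b + 3 * b ^ 2 * t ≤ 3 / 4 := by nlinarith
  have hG : -(1 / 2) ≤ (1 + 4 * b * t + 3 * b ^ 2 * t ^ 2) ^ 2
      - (4 * b + 3 * b ^ 2 * t) * (2 + 4 * b * t + 3 * b ^ 2 * t ^ 2) := by
    rw [add_assoc (1 : ℝ), add_assoc (2 : ℝ), ← hu]
    nlinarith [mul_le_mul_of_nonneg_right hw (by linarith : (0 : ℝ) ≤ 2 + u)]
  have hAR := mul_le_mul hA hR (by norm_num) (by linarith)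
  have hνG := mul_le_mul_of_nonneg_left hG hν0
  rw [pol]
  nlinarith

/-- The first radius. -/
def rA (n M K y : ℝ) : ℝ := (Real.sin (K * y) + bLink n M K * Real.sin (K * y) ^ 3) / K

/-- The derivative of the first radius. -/
def rA' (n M K y : ℝ) : ℝ := Real.cos (K * y) * (1 + 3 * bLink n M K * Real.sin (K * y) ^ 2)

/-- The second radius. -/
def rB (n M K y : ℝ) : ℝ := Real.sqrt (1 - n ^ 2 * rA n M K y ^ 2) / M

/-- The speed of the first phase. -/
def g1 (n M K y : ℝ) : ℝ :=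
  K * Real.sin (K * y) *
    Real.sqrt (pol (n ^ 2 / K ^ 2) (n ^ 4 / (M ^ 2 * K ^ 2)) (bLink n M K)
      (Real.sin (K * y) ^ 2)) / (1 + bLink n M K * Real.sin (K * y) ^ 2)

/-- The speed of the second phase. -/
def g2 (n M K y : ℝ) : ℝ :=
  -(n * M * rA n M K y ^ 2 * g1 n M K y) / (1 - n ^ 2 * rA n M K y ^ 2)

/-- The first phase. -/
def ph1 (n M K y : ℝ) : ℝ := ∫ t in (0 : ℝ)..y, g1 n M K t

/-- The second phase. -/
def ph2 (n M K y : ℝ) : ℝ := ∫ t in (0 : ℝ)..y, g2 n M K t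

/-- The immersion. -/
def map4 (n M K : ℝ) (z : ℂ) : EuclideanSpace ℝ (Fin 4) :=
  WithLp.toLp 2
    ![rA n M K z.im * Real.cos (n * z.re + ph1 n M K z.im),
      rA n M K z.im * Real.sin (n * z.re + ph1 n M K z.im),
      rB n M K z.im * Real.cos (M * z.re + ph2 n M K z.im),
      rB n M K z.im * Real.sin (M * z.re + ph2 n M K z.im)]

theorem Good.K_pos (h : Good n M K) : 0 < K := by linarith [h.n_pos, h.two_le]

theorem Good.M_pos (h : Good n M K) : 0 < M := h.n_pos.trans_le h.le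

theorem mu_le (h : Good n M K) : n ^ 2 / K ^ 2 ≤ 1 / 4 := by
  rw [div_le_iff₀ (pow_pos h.K_pos 2)]
  nlinarith [h.n_pos, h.two_le]

theorem nu_le (h : Good n M K) : n ^ 4 / (M ^ 2 * K ^ 2) ≤ n ^ 2 / K ^ 2 := by
  rw [div_mul_eq_div_div]
  refine div_le_div_of_nonneg_right ?_ (sq_nonneg _)
  rw [div_le_iff₀ (pow_pos h.M_pos 2)]
  nlinarith [mul_le_mul_of_nonneg_left (pow_le_pow_left₀ h.n_pos.le h.le 2) (sq_nonneg n)]

theorem bLink_mem (h : Good n M K) : bLink n M K ∈ Set.Icc (1 / 8 : ℝ) (1 / 6) := by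
  have h0 : 0 ≤ n ^ 4 / (M ^ 2 * K ^ 2) := by positivity
  rw [bLink]
  constructor <;> linarith [nu_le h, mu_le h]

theorem sin_sq_mem (t : ℝ) : Real.sin t ^ 2 ∈ Set.Icc (0 : ℝ) 1 :=
  ⟨sq_nonneg _, Real.sin_sq_le_one t⟩

theorem pol_sin_pos (h : Good n M K) (y : ℝ) :
    0 < pol (n ^ 2 / K ^ 2) (n ^ 4 / (M ^ 2 * K ^ 2)) (bLink n M K) (Real.sin (K * y) ^ 2) :=
  pol_pos (by positivity) (nu_le h) (mu_le h) rfl (sin_sq_mem _)

theorem e_pos (h : Good n M K) (y : ℝ) : 0 < 1 + bLink n M K * Real.sin (K * y) ^ 2 := by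
  have := (bLink_mem h).1
  have := mul_nonneg (by linarith : (0 : ℝ) ≤ bLink n M K) (sq_nonneg (Real.sin (K * y)))
  linarith

theorem sq_rA (y : ℝ) :
    n ^ 2 * rA n M K y ^ 2 = n ^ 2 / K ^ 2 * Real.sin (K * y) ^ 2 *
      (1 + bLink n M K * Real.sin (K * y) ^ 2) ^ 2 := by
  rw [rA]; ring

theorem one_sub_pos (h : Good n M K) (y : ℝ) : 0 < 1 - n ^ 2 * rA n M K y ^ 2 := by
  have hb := bLink_mem h
  have ht := sin_sq_mem (K * y)
  have h1 : n ^ 2 / K ^ 2 * Real.sin (K * y) ^ 2 ≤ 1 / 4 := by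
    nlinarith [mu_le h, ht.1, ht.2, sq_nonneg (n / K)]
  have h2 : (1 + bLink n M K * Real.sin (K * y) ^ 2) ^ 2 ≤ 2 := by
    have hbt := mul_le_mul hb.2 ht.2 ht.1 (by norm_num : (0 : ℝ) ≤ 1 / 6)
    nlinarith [e_pos h y]
  rw [sq_rA]
  nlinarith [mul_le_mul h1 h2 (sq_nonneg _) (by norm_num : (0 : ℝ) ≤ 1 / 4)]

theorem contDiff_rA : ContDiff ℝ ∞ (rA n M K) := by unfold rA; fun_prop

theorem hasDerivAt_rA (h : Good n M K) (y : ℝ) : HasDerivAt (rA n M K) (rA' n M K y) y := by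
  have hs : HasDerivAt (fun y => Real.sin (K * y)) (Real.cos (K * y) * K) y := by
    simpa using ((hasDerivAt_id y).const_mul K).sin
  refine ((hs.add ((hs.fun_pow 3).const_mul (bLink n M K))).div_const K).congr_deriv ?_
  have := h.K_pos.ne'
  rw [rA']
  field_simp
  push_cast
  ring

theorem contDiff_rB (h : Good n M K) : ContDiff ℝ ∞ (rB n M K) :=
  ((contDiff_const.sub (contDiff_const.mul (contDiff_rA.pow 2))).sqrt
    fun y => (one_sub_pos h y).ne').div_const M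

theorem hasDerivAt_rB (h : Good n M K) (y : ℝ) : HasDerivAt (rB n M K)
    (-(n ^ 2 * rA n M K y * rA' n M K y) / (M * Real.sqrt (1 - n ^ 2 * rA n M K y ^ 2))) y := by
  refine (((((hasDerivAt_rA h y).fun_pow 2).const_mul (n ^ 2)).const_sub 1).sqrt
    (one_sub_pos h y).ne' |>.div_const M).congr_deriv ?_
  have := Real.sqrt_pos.2 (one_sub_pos h y)
  have := h.M_pos
  field_simp
  push_cast
  ring

theorem contDiff_g1 (h : Good n M K) : ContDiff ℝ ∞ (g1 n M K) := by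
  have h1 : ContDiff ℝ ∞ fun y => pol (n ^ 2 / K ^ 2) (n ^ 4 / (M ^ 2 * K ^ 2)) (bLink n M K)
      (Real.sin (K * y) ^ 2) := by unfold pol; fun_prop
  exact ((contDiff_const.mul (by fun_prop : ContDiff ℝ ∞ fun y => Real.sin (K * y))).mul
    (h1.sqrt fun y => (pol_sin_pos h y).ne')).div (by fun_prop) fun y => (e_pos h y).ne'

theorem contDiff_g2 (h : Good n M K) : ContDiff ℝ ∞ (g2 n M K) :=
  (((contDiff_const.mul (contDiff_rA.pow 2)).mul (contDiff_g1 h)).neg).div
    (contDiff_const.sub (contDiff_const.mul (contDiff_rA.pow 2))) fun y => (one_sub_pos h y).ne'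

theorem rA_neg (y : ℝ) : rA n M K (-y) = -rA n M K y := by
  simp only [rA, mul_neg, Real.sin_neg]; ring

theorem g1_neg (y : ℝ) : g1 n M K (-y) = -g1 n M K y := by
  simp only [g1, mul_neg, Real.sin_neg, neg_sq]; ring

theorem g2_neg (y : ℝ) : g2 n M K (-y) = -g2 n M K y := by
  simp only [g2, rA_neg, g1_neg, neg_sq]; ring

theorem sin_period (h : Good n M K) (y : ℝ) :
    Real.sin (K * (y + 2 * Real.pi / K)) = Real.sin (K * y) := by
  rw [mul_add, mul_div_cancel₀ _ h.K_pos.ne', Real.sin_add_two_pi]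

theorem rA_periodic (h : Good n M K) : Function.Periodic (rA n M K) (2 * Real.pi / K) :=
  fun y => by simp only [rA, sin_period h]

theorem g1_periodic (h : Good n M K) : Function.Periodic (g1 n M K) (2 * Real.pi / K) :=
  fun y => by simp only [g1, sin_period h]

theorem g2_periodic (h : Good n M K) : Function.Periodic (g2 n M K) (2 * Real.pi / K) :=
  fun y => by simp only [g2, rA_periodic h y, g1_periodic h y]

/-- The integral of an odd function is even. -/
theorem integral_neg_of_odd {f : ℝ → ℝ} (hf : ∀ t, f (-t) = -f t) (y : ℝ) :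
    ∫ t in (0 : ℝ)..(-y), f t = ∫ t in (0 : ℝ)..y, f t := by
  have h := intervalIntegral.integral_comp_neg f (a := 0) (b := y)
  simp only [hf, neg_zero, intervalIntegral.integral_neg] at h
  rw [intervalIntegral.integral_symm, ← h, neg_neg]

/-- The primitive of an odd periodic function is periodic. -/
theorem integral_add_period_of_odd {f : ℝ → ℝ} {p : ℝ} (hc : Continuous f)
    (hf : ∀ t, f (-t) = -f t) (hp : Function.Periodic f p) (y : ℝ) :
    ∫ t in (0 : ℝ)..(y + p), f t = ∫ t in (0 : ℝ)..y, f t := by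
  have h0 : ∫ t in y..(y + p), f t = 0 := by
    rw [hp.intervalIntegral_add_eq y (-(p / 2)), show -(p / 2) + p = p / 2 by ring]
    have h := intervalIntegral.integral_comp_neg f (a := -(p / 2)) (b := p / 2)
    simp only [hf, neg_neg, intervalIntegral.integral_neg] at h
    linarith
  rw [← intervalIntegral.integral_add_adjacent_intervals (hc.intervalIntegrable 0 y)
    (hc.intervalIntegrable y (y + p)), h0, add_zero]

theorem primitive {f : ℝ → ℝ} (hf : ContDiff ℝ ∞ f) :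
    ContDiff ℝ ∞ (fun y => ∫ t in (0 : ℝ)..y, f t) ∧
      ∀ y, HasDerivAt (fun y => ∫ t in (0 : ℝ)..y, f t) (f y) y := by
  have hd : ∀ y, HasDerivAt (fun y => ∫ t in (0 : ℝ)..y, f t) (f y) y :=
    fun y => (hf.continuous.integral_hasStrictDerivAt 0 y).hasDerivAt
  refine ⟨contDiff_infty_iff_deriv.2 ⟨fun y => (hd y).differentiableAt, ?_⟩, hd⟩
  rwa [show deriv (fun y => ∫ t in (0 : ℝ)..y, f t) = f from funext fun y => (hd y).deriv]

theorem contDiff_map4 (h : Good n M K) : ContDiff ℝ ∞ (map4 n M K) := by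
  have hy : ContDiff ℝ ∞ fun z : ℂ => z.im := Complex.imCLM.contDiff
  have hx : ContDiff ℝ ∞ fun z : ℂ => z.re := Complex.reCLM.contDiff
  have ha := (contDiff_rA (n := n) (M := M) (K := K)).comp hy
  have hb := (contDiff_rB h).comp hy
  have h1 := (contDiff_const (c := n) |>.mul hx).add ((primitive (contDiff_g1 h)).1.comp hy)
  have h2 := (contDiff_const (c := M) |>.mul hx).add ((primitive (contDiff_g2 h)).1.comp hy)
  refine contDiff_euclidean.2 fun i => ?_
  fin_cases i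
  · exact ha.mul h1.cos
  · exact ha.mul h1.sin
  · exact hb.mul h2.cos
  · exact hb.mul h2.sin

theorem norm_sq_map4 (h : Good n M K) (z : ℂ) : ‖map4 n M K z‖ ^ 2 = aLink n M K z.im := by
  rw [EuclideanSpace.norm_sq_eq, Fin.sum_univ_four]
  simp only [map4, Real.norm_eq_abs, sq_abs]
  simp only [Matrix.cons_val_zero, Matrix.cons_val_one, Matrix.cons_val_two, Matrix.cons_val_three,
    Matrix.head_cons, Matrix.tail_cons]
  set u := n * z.re + ph1 n M K z.im
  set v := M * z.re + ph2 n M K z.im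
  have hB : rB n M K z.im ^ 2 = (1 - n ^ 2 * rA n M K z.im ^ 2) / M ^ 2 := by
    rw [rB, div_pow, Real.sq_sqrt (one_sub_pos h _).le]
  calc _ = rA n M K z.im ^ 2 * (Real.sin u ^ 2 + Real.cos u ^ 2)
        + rB n M K z.im ^ 2 * (Real.sin v ^ 2 + Real.cos v ^ 2) := by ring
    _ = _ := by
      rw [Real.sin_sq_add_cos_sq, Real.sin_sq_add_cos_sq, hB, aLink, rA]
      ring

theorem speed (h : Good n M K) (y : ℝ) :
    rA' n M K y ^ 2 * (1 - n ^ 2 * rA n M K y ^ 2)
      + n ^ 4 * rA n M K y ^ 2 / M ^ 2 * rA' n M K y ^ 2 + rA n M K y ^ 2 * g1 n M K y ^ 2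
    = 1 - n ^ 2 * rA n M K y ^ 2 := by
  have hK := h.K_pos.ne'
  set s := Real.sin (K * y) with hs
  set b := bLink n M K with hb
  set p := pol (n ^ 2 / K ^ 2) (n ^ 4 / (M ^ 2 * K ^ 2)) b (s ^ 2)
  have e1 : rA' n M K y ^ 2 = (1 - s ^ 2) * (1 + 3 * b * s ^ 2) ^ 2 := by
    rw [rA', mul_pow, Real.cos_sq']
  have e2 : rA n M K y ^ 2 * g1 n M K y ^ 2 = (s ^ 2) ^ 2 * p := by
    have he : 1 + b * s ^ 2 ≠ 0 := (e_pos h y).ne'
    have hp : Real.sqrt p ^ 2 = p := Real.sq_sqrt (pol_sin_pos h y).le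
    have hA : rA n M K y = s * (1 + b * s ^ 2) / K := by rw [rA, ← hb, ← hs]; ring
    have hg : g1 n M K y = K * s * Real.sqrt p / (1 + b * s ^ 2) := rfl
    rw [hA, hg]
    generalize Real.sqrt p = q at hp ⊢
    rw [← hp]
    field_simp
    rw [mul_comm (s ^ 2) b, mul_div_assoc, mul_assoc, mul_div_cancel₀ _ he]
  have e3 : n ^ 4 * rA n M K y ^ 2 / M ^ 2
      = n ^ 4 / (M ^ 2 * K ^ 2) * s ^ 2 * (1 + b * s ^ 2) ^ 2 := by rw [rA, ← hb, ← hs]; ring
  rw [e1, e2, e3, sq_rA]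
  exact pol_identity _ _ _ _ (by rw [hb, bLink]; ring)

theorem norm_fderiv_map4 (h : Good n M K) (z w : ℂ) : ‖fderiv ℝ (map4 n M K) z w‖ = ‖w‖ := by
  set y := z.im with hy'
  have hline : HasDerivAt (fun t : ℝ => z + t • w) w 0 := by
    simpa using ((hasDerivAt_id (0 : ℝ)).smul_const w).const_add z
  have hx : HasDerivAt (fun t : ℝ => (z + t • w).re) w.re 0 :=
    Complex.reCLM.hasFDerivAt.comp_hasDerivAt 0 hline
  have hy : HasDerivAt (fun t : ℝ => (z + t • w).im) w.im 0 :=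
    Complex.imCLM.hasFDerivAt.comp_hasDerivAt 0 hline
  have ha := (hasDerivAt_rA h y).comp_of_eq 0 hy (by simp [hy'])
  have hb := (hasDerivAt_rB h y).comp_of_eq 0 hy (by simp [hy'])
  have h1 := (hx.const_mul n).add
    (((primitive (contDiff_g1 h)).2 y).comp_of_eq 0 hy (by simp [hy']))
  have h2 := (hx.const_mul M).add
    (((primitive (contDiff_g2 h)).2 y).comp_of_eq 0 hy (by simp [hy']))
  have hd : HasFDerivAt (map4 n M K) (fderiv ℝ (map4 n M K) z) z :=
    (((contDiff_map4 h).differentiable (by simp)) z).hasFDerivAt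
  have hcomp : ∀ i : Fin 4, HasDerivAt (fun t : ℝ => map4 n M K (z + t • w) i)
      (fderiv ℝ (map4 n M K) z w i) 0 := fun i =>
    (EuclideanSpace.proj (𝕜 := ℝ) i).hasFDerivAt.comp_hasDerivAt 0
      (hd.comp_hasDerivAt_of_eq (0 : ℝ) hline (by simp))
  have e0 := (hcomp 0).unique (ha.mul h1.cos)
  have e1 := (hcomp 1).unique (ha.mul h1.sin)
  have e2 := (hcomp 2).unique (hb.mul h2.cos)
  have e3 := (hcomp 3).unique (hb.mul h2.sin)
  rw [← pow_left_inj₀ (norm_nonneg _) (norm_nonneg _) two_ne_zero, EuclideanSpace.norm_sq_eq,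
    Fin.sum_univ_four, Complex.sq_norm, Complex.normSq_apply]
  simp only [Real.norm_eq_abs, sq_abs, e0, e1, e2, e3, Function.comp_apply, zero_smul, add_zero,
    ← hy', Pi.add_apply, ph1, ph2]
  set u := n * z.re + ∫ t in (0 : ℝ)..y, g1 n M K t
  set v := M * z.re + ∫ t in (0 : ℝ)..y, g2 n M K t
  have hs := speed h y
  set A := rA n M K y with hA
  set A' := rA' n M K y
  set G := g1 n M K y with hG
  set r := Real.sqrt (1 - n ^ 2 * A ^ 2) with hr
  have hr0 : 0 < r := Real.sqrt_pos.2 (one_sub_pos h y)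
  have hr2 : r ^ 2 = 1 - n ^ 2 * A ^ 2 := Real.sq_sqrt (one_sub_pos h y).le
  have hM := h.M_pos.ne'
  calc _ = ((A' * w.im) ^ 2 + A ^ 2 * (n * w.re + G * w.im) ^ 2)
          * (Real.sin u ^ 2 + Real.cos u ^ 2)
        + ((-(n ^ 2 * A * A') / (M * r) * w.im) ^ 2
          + (r / M) ^ 2 * (M * w.re + -(n * M * A ^ 2 * G) / r ^ 2 * w.im) ^ 2)
          * (Real.sin v ^ 2 + Real.cos v ^ 2) := by
        simp only [rB, g2, ← hA, ← hG, ← hr, hr2]
        ring
    _ = (r ^ 2 + n ^ 2 * A ^ 2) * w.re ^ 2 + (A' ^ 2 * r ^ 2 + n ^ 4 * A ^ 2 / M ^ 2 * A' ^ 2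
          + A ^ 2 * G ^ 2 * (r ^ 2 + n ^ 2 * A ^ 2)) / r ^ 2 * w.im ^ 2 := by
      rw [Real.sin_sq_add_cos_sq, Real.sin_sq_add_cos_sq]
      field_simp
      ring
    _ = _ := by
      rw [show r ^ 2 + n ^ 2 * A ^ 2 = 1 by linarith, mul_one, hr2, hs,
        div_self (one_sub_pos h y).ne']
      ring

theorem map4_add_one {i j : ℤ} (hn : n = i * (2 * Real.pi)) (hM : M = j * (2 * Real.pi)) (z : ℂ) :
    map4 n M K (z + 1) = map4 n M K z := by
  have h1 : n * (z.re + 1) + ph1 n M K z.im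
      = n * z.re + ph1 n M K z.im + i * (2 * Real.pi) := by rw [hn]; ring
  have h2 : M * (z.re + 1) + ph2 n M K z.im
      = M * z.re + ph2 n M K z.im + j * (2 * Real.pi) := by rw [hM]; ring
  simp only [map4, Complex.add_re, Complex.add_im, Complex.one_re, Complex.one_im, add_zero]
  rw [h1, h2]
  simp only [Real.cos_add_int_mul_two_pi, Real.sin_add_int_mul_two_pi]

theorem map4_add_per (h : Good n M K) (z : ℂ) :
    map4 n M K (z + (2 * Real.pi / K : ℝ) * Complex.I) = map4 n M K z := by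
  have e1 := integral_add_period_of_odd (contDiff_g1 h).continuous g1_neg (g1_periodic h) z.im
  have e2 := integral_add_period_of_odd (contDiff_g2 h).continuous g2_neg (g2_periodic h) z.im
  have e3 := rA_periodic h z.im
  simp only [map4, rB, ph1, ph2, Complex.add_re, Complex.add_im, Complex.mul_re, Complex.mul_im,
    Complex.ofReal_re, Complex.ofReal_im, Complex.I_re, Complex.I_im, mul_zero, mul_one, add_zero,
    sub_self, e1, e2, e3]

theorem map4_deck {i j : ℤ} (hn : n = (2 * i + 1) * (2 * Real.pi))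
    (hM : M = 2 * j * (2 * Real.pi)) (z : ℂ) :
    map4 n M K (conj z + 1 / 2) = map4 n M K z := by
  have h1 : n * (z.re + 1 / 2) + ph1 n M K z.im
      = n * z.re + ph1 n M K z.im + i * (2 * Real.pi) + Real.pi := by rw [hn]; ring
  have h2 : M * (z.re + 1 / 2) + ph2 n M K z.im
      = M * z.re + ph2 n M K z.im + j * (2 * Real.pi) := by rw [hM]; ring
  have hre : (conj z + 1 / 2).re = z.re + 1 / 2 := by simp
  have him : (conj z + 1 / 2).im = -z.im := by simp
  have p1 : ph1 n M K (-z.im) = ph1 n M K z.im := integral_neg_of_odd g1_neg _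
  have p2 : ph2 n M K (-z.im) = ph2 n M K z.im := integral_neg_of_odd g2_neg _
  have hB : rB n M K (-z.im) = rB n M K z.im := by rw [rB, rB, rA_neg, neg_sq]
  simp only [map4, hre, him, p1, p2, hB, rA_neg]
  rw [h1, h2]
  simp only [Real.cos_add_pi, Real.sin_add_pi, Real.cos_add_int_mul_two_pi,
    Real.sin_add_int_mul_two_pi, neg_mul_neg]

end Link

open Link in
/-- The base immersions. -/
theorem linkThm : LinkThm := by
  intro m n M K hn hM hK _
  have hn0 : 0 < n := by rw [hn]; positivity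
  have h : Good n M K := ⟨hn0, by linarith [Real.two_pi_pos], hK⟩
  refine ⟨map4 n M K, contDiff_map4 h,
    map4_add_one (i := 2 * (m : ℤ) + 1) (j := 2 * (m : ℤ) + 2) ?_ ?_, map4_add_per h,
    map4_deck (i := (m : ℤ)) (j := (m : ℤ) + 1) ?_ ?_, norm_fderiv_map4 h, norm_sq_map4 h⟩
  all_goals first | (rw [hM, hn]; push_cast; ring) | (rw [hn]; push_cast; ring)

end Vale.Agent.P205.Klein
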