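import Vale.Agent.P205.Klein.Defs

/-!
The map whose fixed points give the conformal factor and the near-identity map of a Klein bottle.
-/

noncomputable section

open ComplexConjugate
open scoped ENNReal NNReal
open Vale.Agent.P205.Torus

namespace Vale.Agent.P205.Klein

/-- The parameters: the two frequencies, the shape, and the number of waves in a period. -/
structure Par where
  /-- The lower frequency. -/
  n : ℝ
  /-- The higher frequency. -/
  M : ℝ
  /-- The shape. -/
  K : ℝ
  /-- The number of waves. -/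
  j : ℕ

variable (τ : ℂ) (c0 : Cf) (P : Par) (X : St)

/-- The periodic part of the map. -/
def pp : Cf := mult (fun k => (mzb τ k)⁻¹) X.q

/-- Its imaginary part. -/
def imp : Cf := (2 * Complex.I)⁻¹ • (pp τ X - cj (pp τ X))

/-- A single frequency. -/
def single (k0 : Idx) : Cf := fun k => if k = k0 then 1 else 0

/-- The wave along the map. -/
def wave : Cf := conv (single (0, 2 * (P.j : ℤ))) (expc ((2 * P.K * Complex.I) • imp τ X))

/-- The cosine of the doubled angle. -/
def cos2 : Cf := (2 : ℂ)⁻¹ • (wave τ P X + cj (wave τ P X))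

/-- The sine of the doubled angle. -/
def sin2 : Cf := (2 * Complex.I)⁻¹ • (wave τ P X - cj (wave τ P X))

/-- The squared sine of the angle. -/
def tt : Cf := (2 : ℂ)⁻¹ • (one - cos2 τ P X)

/-- The size of the oscillation. -/
def amp : ℝ := (1 - P.n ^ 2 / P.M ^ 2) / P.K ^ 2

/-- The first derivative of the polynomial in the squared sine. -/
def hp1 : Cf :=
  one + ((4 * bLink P.n P.M P.K : ℝ) : ℂ) • tt τ P X +
    ((3 * bLink P.n P.M P.K ^ 2 : ℝ) : ℂ) • conv (tt τ P X) (tt τ P X)

/-- The second derivative of the polynomial in the squared sine. -/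
def hp2 : Cf :=
  ((4 * bLink P.n P.M P.K : ℝ) : ℂ) • one +
    ((6 * bLink P.n P.M P.K ^ 2 : ℝ) : ℂ) • tt τ P X

/-- The squared radius along the map. -/
def aa : Cf :=
  ((1 / P.M ^ 2 : ℝ) : ℂ) • one + (amp P : ℂ) •
    conv (tt τ P X) (conv (one + (bLink P.n P.M P.K : ℂ) • tt τ P X)
      (one + (bLink P.n P.M P.K : ℂ) • tt τ P X))

/-- The first derivative of the squared radius along the map. -/
def a1 : Cf := ((amp P * P.K : ℝ) : ℂ) • conv (hp1 τ P X) (sin2 τ P X)

/-- The second derivative of the squared radius along the map. -/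
def a2 : Cf :=
  ((amp P * P.K ^ 2 : ℝ) : ℂ) •
    (conv (hp2 τ P X) (conv (sin2 τ P X) (sin2 τ P X)) +
      (2 : ℂ) • conv (hp1 τ P X) (cos2 τ P X))

/-- The holomorphic derivative minus one. -/
def bk : Cf := bq τ X - X.q 0 • one

/-- The derivative of the height. -/
def th : Cf := (2 * Complex.I)⁻¹ • (one + bk τ X - cj X.q)

/-- Its holomorphic derivative. -/
def thz : Cf := (2 * Complex.I)⁻¹ • (dz τ (bq τ X) - cj (dzb τ X.q))

/-- Its antiholomorphic derivative. -/
def thb : Cf := (2 * Complex.I)⁻¹ • (dz τ X.q - cj (dz τ X.q))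

/-- The derivative of the squared radius. -/
def bz : Cf := conv (a1 τ P X) (th τ X)

/-- Its holomorphic derivative. -/
def bzz : Cf := conv (a2 τ P X) (conv (th τ X) (th τ X)) + conv (a1 τ P X) (thz τ X)

/-- Its antiholomorphic derivative. -/
def bzb : Cf := conv (a2 τ P X) (conv (th τ X) (cj (th τ X))) + conv (a1 τ P X) (thb τ X)

/-- The derivative of the logarithm of the radius. -/
def uz : Cf := dz τ (c0 + vv τ X)

/-- Its holomorphic derivative. -/
def uzz : Cf := dz τ (dz τ (c0 + vv τ X))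

/-- Its antiholomorphic derivative. -/
def uzb : Cf := dz τ (dzb τ (c0 + vv τ X))

/-- The equation for the antiholomorphic derivative. -/
def qMap : Cf :=
  -conv (conv (aa τ P X) (conv (cj (uz τ c0 X)) (cj (uz τ c0 X))) +
    conv (cj (uz τ c0 X)) (cj (bz τ P X))) (one + X.i)

/-- The equation for the inverse of the holomorphic derivative. -/
def iMap : Cf := -conv (cj (bk τ X)) (one + X.i)

/-- Twice the energy, minus one. -/
def e2 : Cf :=
  bk τ X + cj (bk τ X) +
    (conv (bk τ X) (cj (bk τ X)) + conv X.q (cj X.q) +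
      (2 : ℂ) • conv (aa τ P X) (conv (uz τ c0 X) (cj (uz τ c0 X))) +
      (2 : ℂ) • sym (conv (uz τ c0 X) (cj (bz τ P X))))

/-- The equation for the inverse of the energy. -/
def jMap : Cf := -conv (e2 τ c0 P X) (Torus.jj X)

/-- The derivative of the energy. -/
def ez : Cf :=
  (2 : ℂ)⁻¹ • (conv (dz τ (bq τ X)) (one + cj (bk τ X)) + conv (cj (dzb τ X.q)) X.q) +
    conv (bz τ P X) (conv (uz τ c0 X) (cj (uz τ c0 X))) +
    conv (aa τ P X) (conv (uzz τ c0 X) (cj (uz τ c0 X))) +
    (2 : ℂ)⁻¹ • (conv (uzz τ c0 X) (cj (bz τ P X)) + conv (cj (uz τ c0 X)) (bzz τ P X)) -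
    (2 : ℂ)⁻¹ • conv (cj (bz τ P X)) (conv (uz τ c0 X) (uz τ c0 X))

/-- The mixed second derivative of the energy. -/
def ezb : Cf :=
  (2 : ℂ)⁻¹ • (conv (dz τ (bq τ X)) (cj (dz τ (bq τ X))) + conv (dzb τ X.q) (cj (dzb τ X.q))) -
    conv (dz τ X.q) (cj (dz τ X.q)) +
    conv (aa τ P X)
      (conv (uzz τ c0 X) (cj (uzz τ c0 X)) - conv (uzb τ c0 X) (uzb τ c0 X)) +
    (sym (conv (uzz τ c0 X) (cj (bzz τ P X))) - conv (uzb τ c0 X) (bzb τ P X) +
      conv (bzb τ P X) (conv (uz τ c0 X) (cj (uz τ c0 X))) -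
      sym (conv (bzz τ P X) (conv (cj (uz τ c0 X)) (cj (uz τ c0 X)))) +
      (2 : ℂ) • sym (conv (bz τ P X) (conv (uz τ c0 X) (cj (uzz τ c0 X)))) -
      (2 : ℂ) • sym (conv (bz τ P X) (conv (cj (uz τ c0 X)) (uzb τ c0 X))))

/-- The mixed second derivative of the logarithm of the energy. -/
def lapLog : Cf :=
  conv (Torus.jj X) (ezb τ c0 P X) -
    conv (conv (Torus.jj X) (Torus.jj X)) (conv (ez τ c0 P X) (cj (ez τ c0 P X)))

/-- The equation for the correction. -/
def dMap : Cf := (-2 : ℂ) • noMean (sym (lapLog τ c0 P X))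

/-- One step. -/
def step : St := ⟨dMap τ c0 P X, qMap τ c0 P X, iMap τ X, jMap τ c0 P X⟩

/-- A rapidly decreasing solution, symmetric under the glide reflection. -/
structure Solves : Prop where
  fixed : step τ c0 P X = X
  rapid_d : Rapid τ X.d
  rapid_q : Rapid τ X.q
  rapid_i : Rapid τ X.i
  rapid_j : Rapid τ X.j
  flip_d : flip X.d = X.d
  flip_q : flip X.q = cj X.q

end Vale.Agent.P205.Klein
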